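import Vale.Agent.P354E.Iface

open scoped ContDiff
open MeasureTheory Set Filter Topology

namespace Vale.Agent.P354E

lemma Du.swap {f : P2 → ℝ} {q : P2} {d : ℝ} (h : Du f q.swap d) :
    Dv (fun q => f q.swap) q d := h

lemma Dv.swap {f : P2 → ℝ} {q : P2} {d : ℝ} (h : Dv f q.swap d) :
    Du (fun q => f q.swap) q d := h

lemma Du.tr {f : P2 → ℝ} {q : P2} {d : ℝ} (h : Du f (tr q) d) :
    Dv (fun q => f (tr q)) q (-d) := by
  unfold Du at h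
  unfold Dv
  have h2 : HasDerivAt (fun s : ℝ => -s) (-1) q.2 := hasDerivAt_neg q.2
  have h3 := HasDerivAt.comp q.2 (h₂ := fun s => f (s, (P354E.tr q).2)) h h2
  have e : d * -1 = -d := by ring
  rw [e] at h3
  exact h3

lemma Dv.tr {f : P2 → ℝ} {q : P2} {d : ℝ} (h : Dv f (tr q) d) :
    Du (fun q => f (tr q)) q (-d) := by
  unfold Dv at h
  unfold Du
  have h2 : HasDerivAt (fun s : ℝ => -s) (-1) q.1 := hasDerivAt_neg q.1
  have h3 := HasDerivAt.comp q.1 (h₂ := fun s => f ((P354E.tr q).1, s)) h h2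
  have e : d * -1 = -d := by ring
  rw [e] at h3
  exact h3

lemma Du.neg {f : P2 → ℝ} {q : P2} {d : ℝ} (h : Du f q d) : Du (fun q => -f q) q (-d) :=
  HasDerivAt.neg h

lemma Dv.neg {f : P2 → ℝ} {q : P2} {d : ℝ} (h : Dv f q d) : Dv (fun q => -f q) q (-d) :=
  HasDerivAt.neg h

lemma Du.congr_d {f : P2 → ℝ} {q : P2} {d d' : ℝ} (h : Du f q d) (e : d = d') : Du f q d' :=
  e ▸ h

lemma Dv.congr_d {f : P2 → ℝ} {q : P2} {d d' : ℝ} (h : Dv f q d) (e : d = d') : Dv f q d' :=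
  e ▸ h

@[simp] lemma tr_invol (q : P2) : tr (tr q) = q := by simp [tr]

lemma continuous_tr : Continuous tr := by unfold tr; fun_prop

lemma contDiff_tr : ContDiff ℝ ∞ tr := by unfold tr; fun_prop

lemma sw_O (S : Fld) (q : P2) : S.sw.O q = S.O q.swap := rfl

lemma tr_O (S : Fld) (q : P2) : S.tr.O q = S.O (tr q) := rfl

lemma sw_sw (S : Fld) : S.sw.sw = S := rfl

lemma sw_G1 (e : ℝ) (S : Fld) (q : P2) : G1 e S.sw q = G1 e S q.swap := by
  simp only [G1, Fld.O, Fld.sw]; ring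

lemma sw_G2 (S : Fld) (q : P2) : G2 S.sw q = G2 S q.swap := by
  simp only [G2, Fld.sw]; ring

lemma sw_G3 (e : ℝ) (S : Fld) (q : P2) : G3 e S.sw q = G3 e S q.swap := by
  simp only [G3, Fld.O, Fld.sw]; ring

lemma sw_mass (e : ℝ) (S : Fld) (q : P2) : mass e S.sw q = mass e S q.swap := by
  simp only [mass, Fld.O, Fld.sw]; ring

lemma tr_G1 (e : ℝ) (S : Fld) (q : P2) : G1 e S.tr q = G1 e S (tr q) := by
  simp only [G1, Fld.O, Fld.tr]; ring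

lemma tr_G2 (S : Fld) (q : P2) : G2 S.tr q = G2 S (tr q) := by
  simp only [G2, Fld.tr]; ring

lemma tr_G3 (e : ℝ) (S : Fld) (q : P2) : G3 e S.tr q = G3 e S (tr q) := by
  simp only [G3, Fld.O, Fld.tr]; ring

lemma tr_mass (e : ℝ) (S : Fld) (q : P2) : mass e S.tr q = mass e S (tr q) := by
  simp only [mass, Fld.O, Fld.tr]; ring

lemma SolAt.sw {e : ℝ} {S : Fld} {q : P2} (h : SolAt e S q.swap) : SolAt e S.sw q where
  pos := h.pos
  r_u := h.r_v.swap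
  r_v := h.r_u.swap
  w_u := h.w_v.swap
  w_v := h.w_u.swap
  p_u := h.p_v.swap
  p_v := h.p_u.swap
  l_u := h.n_v.swap.congr_d (sw_G1 e S q).symm
  n_v := h.l_u.swap.congr_d (sw_G1 e S q).symm
  pv_u := h.pu_v.swap.congr_d (sw_G2 S q).symm
  pu_v := h.pv_u.swap.congr_d (sw_G2 S q).symm
  wv_u := h.wu_v.swap.congr_d (sw_G3 e S q).symm
  wu_v := h.wv_u.swap.congr_d (sw_G3 e S q).symm
  l_v := h.n_u.swap
  n_u := h.l_v.swap

lemma SolAt.tr {e : ℝ} {S : Fld} {q : P2} (h : SolAt e S (tr q)) : SolAt e S.tr q where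
  pos := h.pos
  r_u := h.r_v.tr
  r_v := h.r_u.tr
  w_u := h.w_v.tr
  w_v := h.w_u.tr
  p_u := h.p_v.tr
  p_v := h.p_u.tr
  l_u := h.n_v.tr.neg.congr_d (by rw [tr_G1]; ring)
  n_v := h.l_u.tr.neg.congr_d (by rw [tr_G1]; ring)
  pv_u := h.pu_v.tr.neg.congr_d (by rw [tr_G2]; ring)
  pu_v := h.pv_u.tr.neg.congr_d (by rw [tr_G2]; ring)
  wv_u := h.wu_v.tr.neg.congr_d (by rw [tr_G3]; ring)
  wu_v := h.wv_u.tr.neg.congr_d (by rw [tr_G3]; ring)
  l_v := h.n_u.tr.neg.congr_d (by simp only [Fld.tr]; ring)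
  n_u := h.l_v.tr.neg.congr_d (by simp only [Fld.tr]; ring)

lemma contOn_swap {f : P2 → ℝ} {D : Set P2} (h : ContinuousOn f D) :
    ContinuousOn (fun q : P2 => f q.swap) (Prod.swap ⁻¹' D) :=
  h.comp continuous_swap.continuousOn (fun _ hq => hq)

lemma contOn_tr {f : P2 → ℝ} {D : Set P2} (h : ContinuousOn f D) :
    ContinuousOn (fun q : P2 => f (tr q)) (tr ⁻¹' D) :=
  h.comp continuous_tr.continuousOn (fun _ hq => hq)

lemma Cont.sw {S : Fld} {D : Set P2} (h : Cont S D) : Cont S.sw (Prod.swap ⁻¹' D) :=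
  ⟨contOn_swap h.r, contOn_swap h.w, contOn_swap h.p, contOn_swap h.n, contOn_swap h.l,
    contOn_swap h.wv, contOn_swap h.wu, contOn_swap h.pv, contOn_swap h.pu⟩

lemma Cont.tr {S : Fld} {D : Set P2} (h : Cont S D) : Cont S.tr (tr ⁻¹' D) :=
  ⟨contOn_tr h.r, contOn_tr h.w, contOn_tr h.p, (contOn_tr h.n).neg, (contOn_tr h.l).neg,
    (contOn_tr h.wv).neg, (contOn_tr h.wu).neg, (contOn_tr h.pv).neg, (contOn_tr h.pu).neg⟩

lemma IsSol.sw {e : ℝ} {S : Fld} {D : Set P2} (h : IsSol e S D) :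
    IsSol e S.sw (Prod.swap ⁻¹' D) :=
  ⟨h.cont.sw, fun q hq => (h.sol q.swap hq).sw⟩

lemma IsSol.tr {e : ℝ} {S : Fld} {D : Set P2} (h : IsSol e S D) :
    IsSol e S.tr (tr ⁻¹' D) :=
  ⟨h.cont.tr, fun q hq => (h.sol (P354E.tr q) hq).tr⟩

lemma mem_Tri_swap {p q : P2} : q.swap ∈ Tri p.swap ↔ q ∈ Tri p := by
  simp only [Tri, mem_ofPred_eq, Prod.fst_swap, Prod.snd_swap]
  constructor
  · rintro ⟨a, b, c⟩; exact ⟨b, a, by linarith⟩
  · rintro ⟨a, b, c⟩; exact ⟨b, a, by linarith⟩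

lemma IsDom.sw {D : Set P2} (h : IsDom D) : IsDom (Prod.swap ⁻¹' D) where
  isOpen := h.isOpen.preimage continuous_swap
  diag x := by
    have := h.diag (-x)
    simpa using this
  tri p hp q hq := h.tri p.swap hp (mem_Tri_swap.2 hq)

lemma Ext.sw {S : Fld} {D : Set P2} (h : Ext S D) : Ext S.sw (Prod.swap ⁻¹' D) := by
  intro p c C hp hc hq
  refine h p.swap c C (by simp only [Prod.fst_swap, Prod.snd_swap]; linarith) hc ?_
  rintro q ⟨hD, hT⟩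
  exact hq q.swap ⟨hD, mem_Tri_swap.1 hT⟩

lemma MaxSol.sw {e : ℝ} {S : Fld} {D : Set P2} (h : MaxSol e S D) :
    MaxSol e S.sw (Prod.swap ⁻¹' D) :=
  ⟨h.sol.sw, h.dom.sw, h.ext.sw⟩

lemma cdOn_swap {f : P2 → ℝ} {D : Set P2} (h : ContDiffOn ℝ ∞ f D) :
    ContDiffOn ℝ ∞ (fun q : P2 => f q.swap) (Prod.swap ⁻¹' D) := by
  have : ContDiff ℝ ∞ (Prod.swap : P2 → P2) := contDiff_snd.prodMk contDiff_fst
  exact h.comp this.contDiffOn (fun _ hq => hq)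

lemma cdOn_tr {f : P2 → ℝ} {D : Set P2} (h : ContDiffOn ℝ ∞ f D) :
    ContDiffOn ℝ ∞ (fun q : P2 => f (tr q)) (tr ⁻¹' D) :=
  h.comp contDiff_tr.contDiffOn (fun _ hq => hq)

lemma Smooth.sw {S : Fld} {D : Set P2} (h : Smooth S D) : Smooth S.sw (Prod.swap ⁻¹' D) :=
  ⟨cdOn_swap h.r, cdOn_swap h.w, cdOn_swap h.p, cdOn_swap h.n, cdOn_swap h.l,
    cdOn_swap h.wv, cdOn_swap h.wu, cdOn_swap h.pv, cdOn_swap h.pu⟩

lemma Smooth.tr {S : Fld} {D : Set P2} (h : Smooth S D) : Smooth S.tr (tr ⁻¹' D) :=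
  ⟨cdOn_tr h.r, cdOn_tr h.w, cdOn_tr h.p, (cdOn_tr h.n).neg, (cdOn_tr h.l).neg,
    (cdOn_tr h.wv).neg, (cdOn_tr h.wu).neg, (cdOn_tr h.pv).neg, (cdOn_tr h.pu).neg⟩

lemma Core.sw {M rb V c C ε e : ℝ} {S : Fld} {D : Set P2} (h : Core M rb V c C ε e S D) :
    Core M rb V c C ε e S.sw (Prod.swap ⁻¹' D) := by
  obtain ⟨h1, h2, h3⟩ := h
  refine ⟨h1, h2, fun q hq => ?_⟩
  obtain ⟨a1, a2, a3, a4, a5, a6, a7, a8, a9, a10, a11, a12, a13⟩ :=
    h3 q.swap (mem_Tri_swap.2 hq)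
  refine ⟨a1, a3, a2, a4, a5, fun h => ⟨(a6 h).2, (a6 h).1⟩, a8, a7, fun h => a9 ?_, ?_, a11,
    a13, a12⟩
  · simp only [Prod.fst_swap, Prod.snd_swap]; linarith
  · rw [sw_mass]; exact a10

section Rep

variable {a a1 b b1 : ℝ → ℝ}

lemma Du.rep {f : P2 → ℝ} {q : P2} {d : ℝ} (h : Du f (a q.1, b q.2) d)
    (ha : HasDerivAt a (a1 q.1) q.1) : Du (fun q => f (a q.1, b q.2)) q (d * a1 q.1) :=
  HasDerivAt.comp q.1 (h₂ := fun s => f (s, b q.2)) h ha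

lemma Dv.rep {f : P2 → ℝ} {q : P2} {d : ℝ} (h : Dv f (a q.1, b q.2) d)
    (hb : HasDerivAt b (b1 q.2) q.2) : Dv (fun q => f (a q.1, b q.2)) q (d * b1 q.2) :=
  HasDerivAt.comp q.2 (h₂ := fun s => f (a q.1, s)) h hb

end Rep

lemma rep_O (S : Fld) (a a1 a2 b b1 b2 : ℝ → ℝ) (q : P2) (ha : 0 < a1 q.1) (hb : 0 < b1 q.2) :
    (S.rep a a1 a2 b b1 b2).O q = S.O (a q.1, b q.2) * a1 q.1 * b1 q.2 := by
  simp only [Fld.O, Fld.rep, Real.exp_add, Real.exp_log ha, Real.exp_log hb]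

lemma rep_G1 (e : ℝ) (S : Fld) (a a1 a2 b b1 b2 : ℝ → ℝ) (q : P2) (ha : 0 < a1 q.1)
    (hb : 0 < b1 q.2) :
    G1 e (S.rep a a1 a2 b b1 b2) q = G1 e S (a q.1, b q.2) * a1 q.1 * b1 q.2 := by
  simp only [G1, rep_O S a a1 a2 b b1 b2 q ha hb]
  simp only [Fld.rep]; ring

lemma rep_G2 (S : Fld) (a a1 a2 b b1 b2 : ℝ → ℝ) (q : P2) :
    G2 (S.rep a a1 a2 b b1 b2) q = G2 S (a q.1, b q.2) * a1 q.1 * b1 q.2 := by
  simp only [G2, Fld.rep]; ring

lemma rep_G3 (e : ℝ) (S : Fld) (a a1 a2 b b1 b2 : ℝ → ℝ) (q : P2) (ha : 0 < a1 q.1)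
    (hb : 0 < b1 q.2) :
    G3 e (S.rep a a1 a2 b b1 b2) q = G3 e S (a q.1, b q.2) * a1 q.1 * b1 q.2 := by
  simp only [G3, rep_O S a a1 a2 b b1 b2 q ha hb]
  simp only [Fld.rep]; ring

lemma rep_mass (e : ℝ) (S : Fld) (a a1 a2 b b1 b2 : ℝ → ℝ) (q : P2) (ha : 0 < a1 q.1)
    (hb : 0 < b1 q.2) :
    mass e (S.rep a a1 a2 b b1 b2) q = mass e S (a q.1, b q.2) := by
  simp only [mass, rep_O S a a1 a2 b b1 b2 q ha hb]
  simp only [Fld.rep]
  have hO : S.O (a q.1, b q.2) ≠ 0 := (Real.exp_pos _).ne'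
  have := ha.ne'
  have := hb.ne'
  congr 2
  field_simp

lemma SolAt.rep {e : ℝ} {S : Fld} {a a1 a2 b b1 b2 : ℝ → ℝ} {q : P2}
    (h : SolAt e S (a q.1, b q.2))
    (ha : HasDerivAt a (a1 q.1) q.1) (ha1 : HasDerivAt a1 (a2 q.1) q.1) (hap : 0 < a1 q.1)
    (hb : HasDerivAt b (b1 q.2) q.2) (hb1 : HasDerivAt b1 (b2 q.2) q.2) (hbp : 0 < b1 q.2) :
    SolAt e (S.rep a a1 a2 b b1 b2) q := by
  have hane := hap.ne'
  have hbne := hbp.ne'
  refine ⟨h.pos, ?_, ?_, ?_, ?_, ?_, ?_, ?_, ?_, ?_, ?_, ?_, ?_, ?_, ?_⟩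
  · exact (h.r_u.rep ha).congr_d (mul_comm _ _)
  · exact (h.r_v.rep hb).congr_d (mul_comm _ _)
  · have h1 := HasDerivAt.add_const (Real.log (b1 q.2))
      (HasDerivAt.add (h.w_u.rep ha) (ha1.log hane))
    refine Du.congr_d h1 ?_
    simp only [Fld.rep]; ring
  · have h1 := HasDerivAt.add (HasDerivAt.add_const (Real.log (a1 q.1)) (h.w_v.rep hb))
      (hb1.log hbne)
    refine Dv.congr_d h1 ?_
    simp only [Fld.rep]; ring
  · exact (h.p_u.rep ha).congr_d (mul_comm _ _)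
  · exact (h.p_v.rep hb).congr_d (mul_comm _ _)
  · have h1 := HasDerivAt.const_mul (b1 q.2) (h.l_u.rep ha)
    refine Du.congr_d h1 ?_
    rw [rep_G1 e S a a1 a2 b b1 b2 q hap hbp]; ring
  · have h1 := HasDerivAt.const_mul (a1 q.1) (h.n_v.rep hb)
    refine Dv.congr_d h1 ?_
    rw [rep_G1 e S a a1 a2 b b1 b2 q hap hbp]; ring
  · have h1 := HasDerivAt.const_mul (b1 q.2) (h.pv_u.rep ha)
    refine Du.congr_d h1 ?_
    rw [rep_G2]; ring
  · have h1 := HasDerivAt.const_mul (a1 q.1) (h.pu_v.rep hb)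
    refine Dv.congr_d h1 ?_
    rw [rep_G2]; ring
  · have h1 := HasDerivAt.add_const (b2 q.2 / b1 q.2)
      (HasDerivAt.const_mul (b1 q.2) (h.wv_u.rep ha))
    refine Du.congr_d h1 ?_
    rw [rep_G3 e S a a1 a2 b b1 b2 q hap hbp]; ring
  · have h1 := HasDerivAt.add_const (a2 q.1 / a1 q.1)
      (HasDerivAt.const_mul (a1 q.1) (h.wu_v.rep hb))
    refine Dv.congr_d h1 ?_
    rw [rep_G3 e S a a1 a2 b b1 b2 q hap hbp]; ring
  · have h1 := HasDerivAt.mul hb1 (h.l_v.rep hb)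
    refine Dv.congr_d h1 ?_
    simp only [Fld.rep]; field_simp; ring
  · have h1 := HasDerivAt.mul ha1 (h.n_u.rep ha)
    refine Du.congr_d h1 ?_
    simp only [Fld.rep]; field_simp; ring

lemma IsSol.rep {e : ℝ} {S : Fld} {D : Set P2} {a a1 a2 b b1 b2 : ℝ → ℝ} (h : IsSol e S D)
    (ha : ∀ s, HasDerivAt a (a1 s) s ∧ HasDerivAt a1 (a2 s) s ∧ 0 < a1 s) (ha2 : Continuous a2)
    (hb : ∀ s, HasDerivAt b (b1 s) s ∧ HasDerivAt b1 (b2 s) s ∧ 0 < b1 s) (hb2 : Continuous b2) :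
    IsSol e (S.rep a a1 a2 b b1 b2) {q | (a q.1, b q.2) ∈ D} := by
  have ca : Continuous a := continuous_iff_continuousAt.2 fun s => (ha s).1.continuousAt
  have ca1 : Continuous a1 := continuous_iff_continuousAt.2 fun s => (ha s).2.1.continuousAt
  have cb : Continuous b := continuous_iff_continuousAt.2 fun s => (hb s).1.continuousAt
  have cb1 : Continuous b1 := continuous_iff_continuousAt.2 fun s => (hb s).2.1.continuousAt
  have cm : Continuous (fun q : P2 => ((a q.1, b q.2) : P2)) := by fun_prop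
  have key : ∀ f : P2 → ℝ, ContinuousOn f D →
      ContinuousOn (fun q : P2 => f (a q.1, b q.2)) {q | (a q.1, b q.2) ∈ D} :=
    fun f hf => hf.comp cm.continuousOn (fun _ hq => hq)
  have c1 : Continuous (fun q : P2 => a1 q.1) := by fun_prop
  have c2 : Continuous (fun q : P2 => b1 q.2) := by fun_prop
  have l1 : Continuous (fun q : P2 => Real.log (a1 q.1)) :=
    c1.log (fun q => (ha q.1).2.2.ne')
  have l2 : Continuous (fun q : P2 => Real.log (b1 q.2)) :=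
    c2.log (fun q => (hb q.2).2.2.ne')
  have d1 : Continuous (fun q : P2 => a2 q.1 / a1 q.1) :=
    (ha2.comp continuous_fst).div c1 (fun q => (ha q.1).2.2.ne')
  have d2 : Continuous (fun q : P2 => b2 q.2 / b1 q.2) :=
    (hb2.comp continuous_snd).div c2 (fun q => (hb q.2).2.2.ne')
  refine ⟨⟨key _ h.cont.r, ((key _ h.cont.w).add l1.continuousOn).add l2.continuousOn,
    key _ h.cont.p, c2.continuousOn.mul (key _ h.cont.l), c1.continuousOn.mul (key _ h.cont.n),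
    (c1.continuousOn.mul (key _ h.cont.wu)).add d1.continuousOn,
    (c2.continuousOn.mul (key _ h.cont.wv)).add d2.continuousOn,
    c1.continuousOn.mul (key _ h.cont.pu), c2.continuousOn.mul (key _ h.cont.pv)⟩,
    fun q hq => (h.sol _ hq).rep (ha _).1 (ha _).2.1 (ha _).2.2 (hb _).1 (hb _).2.1 (hb _).2.2⟩

theorem bSym : BSym :=
  ⟨fun _ _ _ h => h.sw, fun _ _ _ h => h.sw, fun _ _ _ h => h.tr,
    fun _ _ h => ⟨h.sw, h.tr⟩, fun _ _ _ _ _ _ _ _ _ h => h.sw,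
    fun _ _ _ _ _ _ _ _ _ h ha ha2 hb hb2 => h.rep ha ha2 hb hb2⟩

end Vale.Agent.P354E
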