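import Vale.Agent.P354.H251.DefsN2

open scoped ContDiff
open MeasureTheory Set Filter Topology

namespace Vale.Agent.P354E

open Vale.Agent.P354n (R4 Spc On tgt co inv IsSmooth IsC0W1 IsSpacetime IsFutureCurve
  IsFutureExtension IsConn Riem IsInext)

/-- Spherically symmetric data on R x S^2 with coordinate x on R and the round metric s on S^2:
the metric h = a dx^2 + b s, the tensor K = k dx^2 + l s, the scalar field f, its normal derivative
g, and the radial electric field of charge e, whose size is e / b. -/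
structure Dat where
  a : ℝ → ℝ
  b : ℝ → ℝ
  k : ℝ → ℝ
  l : ℝ → ℝ
  f : ℝ → ℝ
  g : ℝ → ℝ
  e : ℝ

/-- The data of the two-ended t = 0 slice through the bifurcation sphere of the
Reissner-Nordstroem spacetime with mass M and charge e; the area radius is
M + sqrt (x^2 + M^2 - e^2). -/
noncomputable def rn (M e : ℝ) : Dat where
  a x := (M + √(x ^ 2 + M ^ 2 - e ^ 2)) ^ 2 / (x ^ 2 + M ^ 2 - e ^ 2)
  b x := (M + √(x ^ 2 + M ^ 2 - e ^ 2)) ^ 2
  k _ := 0
  l _ := 0
  f _ := 0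
  g _ := 0
  e := e

/-- The sum over j ≤ m of the suprema of rho^(s+j) times the size of the j-th derivative of F,
where rho = sqrt (1 + x^2). -/
noncomputable def wn (s : ℝ) (m : ℕ) (F : ℝ → ℝ) : ENNReal :=
  ∑ j ∈ Finset.range (m + 1),
    ⨆ x : ℝ, ENNReal.ofReal (√(1 + x ^ 2) ^ (s + j) * |iteratedDeriv j F x|)

/-- The seminorm p_m of the difference of two data: weight rho^(1+j) for h, rho^(2+j) for K (the
round metric has size rho^(-2)), rho^(om+j) for f and rho^(om+1+j) for g. -/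
noncomputable def pm (om : ℝ) (m : ℕ) (d d' : Dat) : ENNReal :=
  wn 1 m (d.a - d'.a) + wn (-1) m (d.b - d'.b) + wn 2 m (d.k - d'.k) + wn 0 m (d.l - d'.l) +
    wn om m (d.f - d'.f) + wn (om + 1) m (d.g - d'.g) + ENNReal.ofReal |d.e - d'.e|

/-- The scalar curvature of h. -/
noncomputable def Dat.scal (d : Dat) (x : ℝ) : ℝ :=
  2 / d.b x + deriv d.b x ^ 2 / (2 * d.a x * d.b x ^ 2) - 2 * deriv (deriv d.b) x / (d.a x * d.b x) +
    deriv d.a x * deriv d.b x / (d.a x ^ 2 * d.b x)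

/-- The trace of K. -/
noncomputable def Dat.trK (d : Dat) (x : ℝ) : ℝ := d.k x / d.a x + 2 * (d.l x / d.b x)

/-- The square of the norm of K. -/
noncomputable def Dat.sqK (d : Dat) (x : ℝ) : ℝ := (d.k x / d.a x) ^ 2 + 2 * (d.l x / d.b x) ^ 2

/-- The dx component of the divergence of K; the other components are zero. -/
noncomputable def Dat.divK (d : Dat) (x : ℝ) : ℝ :=
  deriv (fun y => d.k y / d.a y) x + deriv d.b x / d.b x * (d.k x / d.a x - d.l x / d.b x)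

/-- Smooth data with Riemannian h, all p_m of the difference to the Reissner-Nordstroem data
finite (so h is complete), which solve the constraint equations. -/
structure IsData (M e om : ℝ) (d : Dat) : Prop where
  smooth : ContDiff ℝ ∞ d.a ∧ ContDiff ℝ ∞ d.b ∧ ContDiff ℝ ∞ d.k ∧ ContDiff ℝ ∞ d.l ∧
    ContDiff ℝ ∞ d.f ∧ ContDiff ℝ ∞ d.g
  pos : ∀ x, 0 < d.a x ∧ 0 < d.b x
  finite : ∀ m, pm om m d (rn M e) < ⊤
  hamilton : ∀ x, d.scal x + d.trK x ^ 2 - d.sqK x =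
    2 * d.g x ^ 2 + 2 * deriv d.f x ^ 2 / d.a x + 2 * d.e ^ 2 / d.b x ^ 2
  momentum : ∀ x, d.divK x - deriv d.trK x = 2 * d.g x * deriv d.f x

/-- The space of data. -/
def Dset (M e om : ℝ) : Type := {d : Dat // IsData M e om d}

/-- The topology of all p_m of differences. -/
instance (M e om : ℝ) : TopologicalSpace (Dset M e om) :=
  TopologicalSpace.generateFrom
    {s | ∃ (d : Dset M e om) (m : ℕ) (ε : ENNReal), s = {d' | pm om m d'.1 d.1 < ε}}

/-- The unit sphere. -/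
abbrev S2 : Type := Metric.sphere (0 : EuclideanSpace ℝ (Fin 3)) 1

lemma st_mem (σ : Bool) (y : ℝ × ℝ) :
    (!₂[2 * y.1 / (1 + y.1 ^ 2 + y.2 ^ 2), 2 * y.2 / (1 + y.1 ^ 2 + y.2 ^ 2),
      (bif σ then 1 else -1) * ((1 - y.1 ^ 2 - y.2 ^ 2) / (1 + y.1 ^ 2 + y.2 ^ 2))] :
      EuclideanSpace ℝ (Fin 3)) ∈ Metric.sphere (0 : EuclideanSpace ℝ (Fin 3)) 1 := by
  have h : (1 + y.1 ^ 2 + y.2 ^ 2) ≠ 0 := by positivity
  rw [mem_sphere_zero_iff_norm, EuclideanSpace.norm_eq, Real.sqrt_eq_one, Fin.sum_univ_three]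
  cases σ <;> simp <;> field_simp <;> simp only [sq_abs] <;> ring

/-- The two stereographic parametrisations of the sphere; in both the round metric is
4 (dy1^2 + dy2^2) / (1 + y1^2 + y2^2)^2. -/
noncomputable def st (σ : Bool) (y : ℝ × ℝ) : S2 :=
  ⟨!₂[2 * y.1 / (1 + y.1 ^ 2 + y.2 ^ 2), 2 * y.2 / (1 + y.1 ^ 2 + y.2 ^ 2),
    (bif σ then 1 else -1) * ((1 - y.1 ^ 2 - y.2 ^ 2) / (1 + y.1 ^ 2 + y.2 ^ 2))], st_mem σ y⟩

/-- The tensor A dx^2 + B s at the point with coordinates z = (x, y1, y2), on the vectors a, b. -/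
noncomputable def sym2 (A B : ℝ → ℝ) (z a b : ℝ × ℝ × ℝ) : ℝ :=
  A z.1 * (a.1 * b.1) +
    B z.1 * (4 / (1 + z.2.1 ^ 2 + z.2.2 ^ 2) ^ 2) * (a.2.1 * b.2.1 + a.2.2 * b.2.2)

/-- The scalar field phi and the 2-form F (given in all charts) are smooth and solve, with the
metric of N, the Einstein-Maxwell-scalar field system: dF = 0, the wave equation for phi,
div F = 0, and Ric = 2 dphi dphi + 2 (F F - g |F|^2 / 4). G is the connection and E, E' are dual
bases. -/
structure IsEMS (N : Spc) (φ : N.pt → ℝ) (F : N.Chart → R4 → R4 → R4 → ℝ) : Prop where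
  smooth : ∀ e, IsSmooth (fun y => φ (inv e y)) (tgt e) ∧
    ∀ a b, IsSmooth (fun y => F e y a b) (tgt e)
  form : ∀ e, ∀ y ∈ tgt e, ∀ a, IsLinearMap ℝ (F e y a) ∧ ∀ b, F e y a b = -F e y b a
  tensor : ∀ e e' T, T = (fun y => co e' (inv e y)) → ∀ y ∈ tgt e, On e' (inv e y) →
    ∀ a b, F e y a b = F e' (T y) (lineDeriv ℝ T y a) (lineDeriv ℝ T y b)
  eqs : ∀ x, ∃ e, On e x ∧ ∃ G ψ, ψ = (fun y => φ (inv e y)) ∧ ∀ y ∈ tgt e, IsConn (N.g e) G y ∧
    (∀ a b c, lineDeriv ℝ (fun z => F e z b c) y a + lineDeriv ℝ (fun z => F e z c a) y b +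
      lineDeriv ℝ (fun z => F e z a b) y c = 0) ∧
    ∃ E E' : Fin 4 → R4, (∀ i j, N.g e y (E i) (E' j) = if i = j then 1 else 0) ∧
      ∑ i, (lineDeriv ℝ (fun z => lineDeriv ℝ ψ z (E' i)) y (E i) -
        lineDeriv ℝ ψ y (G y (E i) (E' i))) = 0 ∧
      (∀ c, ∑ i, (lineDeriv ℝ (fun z => F e z (E' i) c) y (E i) - F e y (G y (E i) (E' i)) c -
        F e y (E' i) (G y (E i) c)) = 0) ∧
      ∀ b c, ∑ i, Riem (N.g e) G y (E i) b c (E' i) =
        2 * (lineDeriv ℝ ψ y b * lineDeriv ℝ ψ y c) + 2 * (∑ i, F e y b (E i) * F e y c (E' i) -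
          N.g e y b c / 4 * ∑ i, ∑ j, F e y (E i) (E j) * F e y (E' i) (E' j))

/-- The embedding j of R x S^2 is onto a Cauchy hypersurface of N, and the metric, the second
fundamental form for the future unit normal n, phi, its normal derivative, and the electric and
magnetic parts of F induced by j are those of the data d. J is j in coordinates. -/
structure IsDev (d : Dat) (N : Spc) (φ : N.pt → ℝ) (F : N.Chart → R4 → R4 → R4 → ℝ)
    (j : ℝ × S2 → N.pt) : Prop where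
  embedding : IsEmbedding j
  cauchy : ∀ a, IsFutureCurve N 0 (Ioo 0 1) a →
    (∀ x, ¬ Tendsto a (𝓝[<] 1) (𝓝 x) ∧ ¬ Tendsto a (𝓝[>] 0) (𝓝 x)) →
    ∃! t, t ∈ Ioo (0 : ℝ) 1 ∧ a t ∈ range j
  field : ∀ x, φ (j x) = d.f x.1
  induced : ∀ (σ : Bool) (z : ℝ × ℝ × ℝ), ∃ e J G n, J = (fun z' : ℝ × ℝ × ℝ =>
    co e (j (z'.1, st σ z'.2))) ∧ On e (j (z.1, st σ z.2)) ∧ ContDiffAt ℝ ∞ J z ∧
    IsConn (N.g e) G (J z) ∧ N.g e (J z) n n = -1 ∧ N.g e (J z) n (N.X e (J z)) < 0 ∧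
    lineDeriv ℝ (fun y => φ (inv e y)) (J z) n = d.g z.1 ∧ ∀ a b,
      N.g e (J z) (lineDeriv ℝ J z a) n = 0 ∧
      N.g e (J z) (lineDeriv ℝ J z a) (lineDeriv ℝ J z b) = sym2 d.a d.b z a b ∧
      -N.g e (J z) n (lineDeriv ℝ (fun z' => lineDeriv ℝ J z' b) z a +
        G (J z) (lineDeriv ℝ J z a) (lineDeriv ℝ J z b)) = sym2 d.k d.l z a b ∧
      F e (J z) (lineDeriv ℝ J z a) n = d.e * √(d.a z.1) / d.b z.1 * a.1 ∧
      F e (J z) (lineDeriv ℝ J z a) (lineDeriv ℝ J z b) = 0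

/-- The data d have a smooth connected globally hyperbolic development N which has no future
extension of class C^0 and W^{1,2}_loc, and which is not a proper open part of any connected
spacetime of that class; so N is the maximal globally hyperbolic development of d. -/
def Good (d : Dat) : Prop :=
  ∃ N φ F j, IsSpacetime IsSmooth N ∧ ConnectedSpace N.pt ∧ IsEMS N φ F ∧ IsDev d N φ F j ∧
    (∀ N' ι c, ¬ IsFutureExtension (IsC0W1 2) N N' ι c) ∧ IsInext (IsC0W1 2) N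

end Vale.Agent.P354E
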