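import Vale.Agent.P354E.Sol
import Vale.Agent.P354E.Defs

open scoped ContDiff
open MeasureTheory Set Filter Topology

namespace Vale.Agent.P354E

/-- the reduced data of d; x is the second coordinate -/
noncomputable def red (d : Dat) : Fld where
  r q := √(d.b q.2)
  w q := Real.log (d.a q.2)
  p q := d.f q.2
  l q := (deriv d.b q.2 / (2 * √(d.b q.2)) + √(d.a q.2) * d.l q.2 / √(d.b q.2)) / 2
  n q := (-(deriv d.b q.2 / (2 * √(d.b q.2))) + √(d.a q.2) * d.l q.2 / √(d.b q.2)) / 2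
  wu q := (-(deriv d.a q.2 / d.a q.2) + 2 * d.k q.2 / √(d.a q.2)) / 2
  wv q := (deriv d.a q.2 / d.a q.2 + 2 * d.k q.2 / √(d.a q.2)) / 2
  pu q := (-deriv d.f q.2 + √(d.a q.2) * d.g q.2) / 2
  pv q := (deriv d.f q.2 + √(d.a q.2) * d.g q.2) / 2

/-- Block SYM (helper80, first, file P354E/Sym.lean): symmetries. -/
def BSym : Prop :=
  (∀ e S D, IsSol e S D → IsSol e S.sw (Prod.swap ⁻¹' D)) ∧
  (∀ e S D, MaxSol e S D → MaxSol e S.sw (Prod.swap ⁻¹' D)) ∧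
  (∀ e S D, IsSol e S D → IsSol e S.tr (tr ⁻¹' D)) ∧
  (∀ S D, Smooth S D → Smooth S.sw (Prod.swap ⁻¹' D) ∧ Smooth S.tr (tr ⁻¹' D)) ∧
  (∀ M rb V c C ε e S D, Core M rb V c C ε e S D → Core M rb V c C ε e S.sw (Prod.swap ⁻¹' D)) ∧
  (∀ (e : ℝ) (S : Fld) (D : Set P2) (a a1 a2 b b1 b2 : ℝ → ℝ), IsSol e S D →
    (∀ s, HasDerivAt a (a1 s) s ∧ HasDerivAt a1 (a2 s) s ∧ 0 < a1 s) → Continuous a2 →
    (∀ s, HasDerivAt b (b1 s) s ∧ HasDerivAt b1 (b2 s) s ∧ 0 < b1 s) → Continuous b2 →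
    IsSol e (S.rep a a1 a2 b b1 b2) {q | (a q.1, b q.2) ∈ D})

/-- Block EXIST (helper50): the maximal solution for reduced data. -/
def BExist : Prop :=
  ∀ e z, IsRDat e z → ∃ S D, MaxSol e S D ∧ MaxSol e S.tr (tr ⁻¹' D) ∧ Smooth S D ∧
    ∀ x : ℝ, dd S z (-x, x) = 0

/-- Block STAB (helper50): Cauchy stability. -/
def BStab : Prop :=
  ∀ e S D p ε, IsSol e S D → IsDom D → p ∈ D → 0 ≤ p.1 + p.2 → 0 < ε → ∃ δ, 0 < δ ∧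
    ∀ e' S' D', MaxSol e' S' D' → |e' - e| ≤ δ →
      (∀ x ∈ Icc (-p.1) p.2, dd S' S (-x, x) ≤ δ) → Tri p ⊆ D' ∧ ∀ q ∈ Tri p, dd S' S q ≤ ε

/-- Block OMEGA (helper80): Omega is bounded where r is bounded below. -/
def BOmega : Prop :=
  ∀ e S D V p c, IsSol e S D → IsDom D → 0 < V → (V, V) ∈ D →
    (∀ x, V ≤ x → S.n (-x, x) < 0 ∧ S.l (x, -x) < 0) → 0 < c →
    (∀ q ∈ D ∩ Tri p, c ≤ S.r q) → ∃ C, ∀ q ∈ D ∩ Tri p, S.w q ≤ C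

/-- Block RN (helper80, from BExist, BStab, BOmega): the compact core. -/
def BCore : Prop :=
  ∀ M e0 rb V0, e0 ≠ 0 → |e0| < M → rm M e0 < rb → rb < rp M e0 → ∃ V c C, V0 ≤ V ∧ 0 < c ∧
    ∀ ε, 0 < ε → ∃ δ, 0 < δ ∧ ∀ e S D, MaxSol e S D → |e - e0| ≤ δ →
      (∀ x ∈ Icc (-V) V, dd S (rnF M e0) (-x, x) ≤ δ) → Core M rb V c C ε e S D

/-- Block R (helper19): the region r ≥ rb, v ≥ V. -/
def BRight : Prop :=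
  ∀ M e0 rb V c C, e0 ≠ 0 → |e0| < M → rm M e0 < rb → rb < rp M e0 → 1 ≤ V → 0 < c →
    ∃ ε0 C1, 0 < ε0 ∧ ∀ ε e S D, 0 < ε → ε ≤ ε0 → |e ^ 2 - e0 ^ 2| ≤ ε → IsSol e S D → IsDom D →
      Core M rb V c C ε e S D → Far M rb V ε e S →
      (∀ q ∈ D, 0 ≤ q.1 + q.2 → V ≤ q.2 → S.n q < 0 ∧ S.O q ≤ 16 * -S.n q) ∧
      (∀ q ∈ D, 0 ≤ q.1 + q.2 → V ≤ q.2 → rb ≤ S.r q → (∀ q' ∈ Tri q, rb ≤ S.r q') ∧
        |mass e S q - M| ≤ C1 * ε ∧ 4 / 5 * -S.n q ≤ S.O q ∧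
        ∫ y in (-q.2)..q.1, (S.r (y, q.2) * S.pu (y, q.2)) ^ 2 / -S.n (y, q.2) ≤ C1 * ε ^ 2) ∧
      ∀ (a b a1 b1 : ℝ → ℝ) (s1 s2 : ℝ), s1 ≤ s2 → ContinuousOn a1 (Icc s1 s2) →
        ContinuousOn b1 (Icc s1 s2) → (∀ s ∈ Icc s1 s2, HasDerivAt a (a1 s) s ∧
          HasDerivAt b (b1 s) s ∧ a1 s < 0 ∧ 0 < b1 s ∧ (a s, b s) ∈ D ∧ 0 ≤ a s + b s ∧
          V ≤ b s ∧ S.r (a s, b s) = rb) →
        ∫ s in s1..s2, b s ^ 2 * ((S.r (a s, b s) * S.pv (a s, b s)) ^ 2 * b1 s +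
          (S.r (a s, b s) * S.pu (a s, b s)) ^ 2 / -S.n (a s, b s) * -a1 s) ≤ C1 * ε ^ 2

/-- Block B (helper61): the blue shift region, for data on the curve r = rb in the gauge in which
this curve is the line u + v = 0 with proper length x. -/
def BBlue : Prop :=
  ∀ rb b0 l0 : ℝ, 0 < rb → 0 < b0 → 0 < l0 → 100 * l0 * (b0 + 4) ≤ rb * b0 ^ 2 →
    ∃ ε0, 0 < ε0 ∧ ∀ e S D, rb ^ 2 ≤ e ^ 2 → IsSol e S D → IsDom D →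
      (∀ x : ℝ, S.r (-x, x) = rb ∧ S.w (-x, x) = 0 ∧ -l0 ≤ S.l (-x, x) ∧ S.l (-x, x) < 0 ∧
        S.n (-x, x) = S.l (-x, x) ∧ S.wu (-x, x) ≤ -b0 ∧ S.wv (-x, x) ≤ -b0) →
      (∀ a b : ℝ, a ≤ b →
        ∫ x in a..b, (1 + x ^ 2) * (S.pu (-x, x) ^ 2 + S.pv (-x, x) ^ 2) ≤ ε0 ^ 2) →
      ∀ q ∈ D, 0 ≤ q.1 + q.2 → rb / 2 ≤ S.r q ∧ S.r q ≤ rb ∧ S.l q < 0 ∧ S.n q < 0 ∧
        S.w q ≤ 1 - b0 / 2 * (q.1 + q.2) ∧ ∫ y in (-q.1)..q.2, |S.pv (q.1, y)| ≤ 1 ∧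
        ∫ y in (-q.2)..q.1, |S.pu (y, q.2)| ≤ 1

/-- Block STRUCT (helper61, from BSym, BOmega, BRight, BBlue): global structure. -/
def BStruct : Prop :=
  ∀ M e0, e0 ≠ 0 → |e0| < M → ∃ rb, rm M e0 < rb ∧ rb < rp M e0 ∧ ∀ V c C, 1 ≤ V → 0 < c →
    ∃ ε c1 C1, 0 < ε ∧ 0 < c1 ∧ ∀ e S D, |e ^ 2 - e0 ^ 2| ≤ ε → MaxSol e S D → Smooth S D →
      Core M rb V c C ε e S D → Far M rb V ε e S → Far M rb V ε e S.sw →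
      (∀ q : P2, 0 ≤ q.1 + q.2 → q ∈ D) ∧ Unif S V c1 C1 ∧ ∃ uH, RS S V uH

/-- Block OSC: a bound on the blow up integral makes the variation of phi small. -/
def BOsc : Prop :=
  ∀ c C N : ℝ, 0 < c → ∃ C2, ∀ e S V R R', IsSol e S univ → 0 ≤ V → Unif S V c C →
    (∀ v, V ≤ v → ∫ y in V..v, S.l (V, y) ^ 2 / S.O (V, y) ≤ N) → V ≤ R → R ≤ R' →
    |S.p (V, R') - S.p (V, R)| ≤ C2 * Real.exp (-(c / 4) * R)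

/-- Block STRIP: comparison of two solutions in a thin strip R ≤ v ≤ R + h. -/
def BStrip : Prop :=
  ∃ k : ℕ, ∀ (e : ℝ) (S T : Fld) (V R h P L : ℝ), IsSol e S univ → IsSol e T univ →
    0 ≤ V → V ≤ R → 0 < h → 0 ≤ P → 2 ≤ L → h * L ^ k ≤ 1 → e ^ 2 ≤ L →
    (∀ q ∈ Tri (V, R), dd S T q = 0) →
    (∀ X ∈ [S, T], ∀ v ∈ Icc R (R + h),
      ∫ y in (-v)..V, (X.O (y, v) + |X.n (y, v)| + |X.r (y, v) * X.pu (y, v)|) ≤ L ∧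
      (∀ u ∈ Icc (-v) V, 1 / L ≤ X.r (u, v) ∧ X.r (u, v) ≤ L) ∧
      |X.l (-v, v)| ≤ L ∧ |X.pv (-v, v)| ≤ L) →
    (∀ x ∈ Icc R (R + h), S.r (-x, x) = T.r (-x, x) ∧
      |S.w (-x, x) - T.w (-x, x)| ≤ L * h * P ∧ |S.l (-x, x) - T.l (-x, x)| ≤ L * h * P ∧
      |S.n (-x, x) - T.n (-x, x)| ≤ L * h * P ∧ |S.wv (-x, x) - T.wv (-x, x)| ≤ L * P ∧
      |S.pu (-x, x) - T.pu (-x, x)| ≤ L * P ∧ |S.pv (-x, x) - T.pv (-x, x)| ≤ L * P) →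
    ∀ v ∈ Icc R (R + h), |S.r (V, v) - T.r (V, v)| ≤ L ^ k * h * P ∧ |T.pv (V, v)| ≤ L ^ k ∧
      |(S.r (V, v) * S.pv (V, v) - T.r (V, v) * T.pv (V, v)) -
        S.r (-v, v) * (S.pv (-v, v) - T.pv (-v, v))| ≤ L ^ k * h * P

/-- Block GEO (helper34 and helper95): the four dimensional spacetime. -/
def BGeo : Prop :=
  ∀ M e om d S, IsData M e om d → IsSol d.e S univ → Smooth S univ →
    (∀ x : ℝ, dd S (red d) (-x, x) = 0) → FS S → FS S.tr → Good d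

/-- The final statement. -/
def BMain : Prop :=
  ∀ M e om : ℝ, e ≠ 0 → |e| < M → 2 ≤ om → ∃ U : Set (Dset M e om), IsOpen U ∧
    (∃ d ∈ U, d.1 = rn M e) ∧ IsMeagre {d : U | ¬ Good d.1.1} ∧ Dense {d : U | Good d.1.1}

end Vale.Agent.P354E
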