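import Vale.Agent.P354E.DIface

open scoped ContDiff
open MeasureTheory Set Filter Topology

namespace Vale.Agent.P354E

lemma dd_nonneg (S T : Fld) (q : P2) : 0 ≤ dd S T q := by
  unfold dd
  positivity

lemma dd_parts {S T : Fld} {q : P2} {δ : ℝ} (h : dd S T q ≤ δ) :
    |S.r q - T.r q| ≤ δ ∧ |S.w q - T.w q| ≤ δ ∧ |S.p q - T.p q| ≤ δ ∧ |S.l q - T.l q| ≤ δ ∧
      |S.n q - T.n q| ≤ δ ∧ |S.wu q - T.wu q| ≤ δ ∧ |S.wv q - T.wv q| ≤ δ ∧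
      |S.pu q - T.pu q| ≤ δ ∧ |S.pv q - T.pv q| ≤ δ := by
  unfold dd at h
  have h1 := abs_nonneg (S.r q - T.r q)
  have h2 := abs_nonneg (S.w q - T.w q)
  have h3 := abs_nonneg (S.p q - T.p q)
  have h4 := abs_nonneg (S.l q - T.l q)
  have h5 := abs_nonneg (S.n q - T.n q)
  have h6 := abs_nonneg (S.wu q - T.wu q)
  have h7 := abs_nonneg (S.wv q - T.wv q)
  have h8 := abs_nonneg (S.pu q - T.pu q)
  have h9 := abs_nonneg (S.pv q - T.pv q)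
  refine ⟨?_, ?_, ?_, ?_, ?_, ?_, ?_, ?_, ?_⟩ <;> linarith

lemma dd_zero {S T : Fld} {q : P2} (h : dd S T q = 0) :
    S.r q = T.r q ∧ S.w q = T.w q ∧ S.p q = T.p q ∧ S.l q = T.l q ∧ S.n q = T.n q ∧
      S.wu q = T.wu q ∧ S.wv q = T.wv q ∧ S.pu q = T.pu q ∧ S.pv q = T.pv q := by
  have := dd_parts h.le
  simpa only [abs_nonpos_iff, sub_eq_zero] using this

lemma dd_zero_of {S T : Fld} {q : P2} (h : S.r q = T.r q ∧ S.w q = T.w q ∧ S.p q = T.p q ∧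
    S.l q = T.l q ∧ S.n q = T.n q ∧ S.wu q = T.wu q ∧ S.wv q = T.wv q ∧ S.pu q = T.pu q ∧
    S.pv q = T.pv q) : dd S T q = 0 := by
  obtain ⟨h1, h2, h3, h4, h5, h6, h7, h8, h9⟩ := h
  simp [dd, h1, h2, h3, h4, h5, h6, h7, h8, h9]

lemma dd_congr {S T S' T' : Fld} {q : P2} (h : dd S S' q = 0) (h' : dd T T' q = 0) :
    dd S T q = dd S' T' q := by
  obtain ⟨h1, h2, h3, h4, h5, h6, h7, h8, h9⟩ := dd_zero h
  obtain ⟨k1, k2, k3, k4, k5, k6, k7, k8, k9⟩ := dd_zero h'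
  simp only [dd, h1, h2, h3, h4, h5, h6, h7, h8, h9, k1, k2, k3, k4, k5, k6, k7, k8, k9]

lemma dd_self (S : Fld) (q : P2) : dd S S q = 0 := by simp [dd]

lemma Far.congr {M rb V ε e : ℝ} {S T : Fld} (h : Far M rb V ε e T)
    (hd : ∀ x : ℝ, dd S T (-x, x) = 0) : Far M rb V ε e S := by
  intro x hx
  obtain ⟨h1, h2, h3, h4, h5, h6, h7, h8, h9⟩ := dd_zero (hd x)
  have := h x hx
  simp only [mass, Fld.O] at this ⊢
  rw [h1, h2, h3, h4, h5, h8, h9]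
  exact this

/-- a maximal development of d -/
structure Dev (d : Dat) (S : Fld) (D : Set P2) : Prop where
  fut : MaxSol d.e S D
  past : MaxSol d.e S.tr (tr ⁻¹' D)
  smooth : Smooth S D
  data : ∀ x : ℝ, dd S (red d) (-x, x) = 0

lemma tr_tr (q : P2) : tr (tr q) = q := by simp [tr]

lemma Fld.tr_tr (S : Fld) : S.tr.tr = S := by
  cases S
  simp only [Fld.tr, P354E.tr_tr, neg_neg]

lemma red_fl (d : Dat) (x : ℝ) : dd (red d).sw (red d.fl) (-x, x) = 0 := by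
  have eb : deriv d.fl.b x = -deriv d.b (-x) := deriv_cneg d.b x
  have ea : deriv d.fl.a x = -deriv d.a (-x) := deriv_cneg d.a x
  have ef : deriv d.fl.f x = -deriv d.f (-x) := deriv_cneg d.f x
  refine dd_zero_of ?_
  simp only [red, Fld.sw, Prod.swap, eb, ea, ef]
  simp only [Dat.fl]
  refine ⟨?_, ?_, ?_, ?_, ?_, ?_, ?_, ?_, ?_⟩ <;> first | trivial | ring

lemma red_rv (d : Dat) (x : ℝ) : dd (red d).tr (red d.rv) (-x, x) = 0 := by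
  refine dd_zero_of ?_
  simp only [red, Fld.tr, tr, Dat.rv, neg_neg, Pi.neg_apply]
  refine ⟨trivial, trivial, trivial, ?_, ?_, ?_, ?_, ?_, ?_⟩ <;> ring

lemma Dev.fl (hs : BSym) {d : Dat} {S : Fld} {D : Set P2} (h : Dev d S D) :
    Dev d.fl S.sw (Prod.swap ⁻¹' D) := by
  refine ⟨hs.2.1 _ _ _ h.fut, hs.2.1 _ _ _ h.past, (hs.2.2.2.1 _ _ h.smooth).1, fun x => ?_⟩
  rw [← red_fl d x]
  refine dd_congr ?_ (dd_self _ _)
  obtain ⟨h1, h2, h3, h4, h5, h6, h7, h8, h9⟩ := dd_zero (h.data (-x))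
  rw [neg_neg] at h1 h2 h3 h4 h5 h6 h7 h8 h9
  exact dd_zero_of ⟨h1, h2, h3, h5, h4, h7, h6, h9, h8⟩

lemma Dev.rv (hs : BSym) {d : Dat} {S : Fld} {D : Set P2} (h : Dev d S D) :
    Dev d.rv S.tr (tr ⁻¹' D) := by
  refine ⟨h.past, ?_, (hs.2.2.2.1 _ _ h.smooth).2, fun x => ?_⟩
  · have e : tr ⁻¹' (tr ⁻¹' D) = D := by
      ext q
      simp only [mem_preimage, tr_tr]
    rw [Fld.tr_tr, e]
    exact h.fut
  · rw [← red_rv d x]
    refine dd_congr ?_ (dd_self _ _)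
    obtain ⟨h1, h2, h3, h4, h5, h6, h7, h8, h9⟩ := dd_zero (h.data x)
    have e : tr (-x, x) = (-x, x) := by simp [tr]
    refine dd_zero_of ?_
    simp only [Fld.tr, e, h1, h2, h3, h4, h5, h6, h7, h8, h9, and_self]

/-- what holds for all data near the Reissner-Nordstroem data -/
def Nice (V c C : ℝ) (d : Dat) : Prop :=
  ∀ S D, Dev d S D → (∀ q : P2, 0 ≤ q.1 + q.2 → q ∈ D) ∧ Unif S V c C ∧ (∃ uH, RS S V uH) ∧
    ∀ x, V ≤ x → |S.l (-x, x)| ≤ 1 ∧ |S.pv (-x, x)| ≤ 1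

lemma setup (hs : BSym) (hc : BCore) (hst : BStruct) (hrn : DRn) (hco : DCont) (hf : DFar)
    {M e om : ℝ} (he : e ≠ 0) (hM : |e| < M) (hom : 2 ≤ om) :
    ∃ V c C η : ℝ, 1 ≤ V ∧ 0 < c ∧ 0 < η ∧ ∀ d : Dset M e om,
      pm om 1 d.1 (rn M e) < ENNReal.ofReal η → Nice V c C d.1 := by
  obtain ⟨rb, h1, h2, h3⟩ := hst M e he hM
  obtain ⟨V, c, C, hV, hc0, h4⟩ := hc M e rb (max 1 M) he hM h1 h2
  have hV1 : 1 ≤ V := (le_max_left _ _).trans hV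
  have hVM : M ≤ V := (le_max_right _ _).trans hV
  obtain ⟨ε, c1, C1, hε, hc1, h5⟩ := h3 V c C hV1 hc0
  obtain ⟨δ, hδ, h6⟩ := h4 ε hε
  obtain ⟨η1, hη1, h7⟩ := hf M e om rb V ε hM hom h2 hV1 hVM hε
  obtain ⟨η2, hη2, h8⟩ := hf M e om rb V 1 hM hom h2 hV1 hVM one_pos
  obtain ⟨η3, hη3, h9⟩ := hco M e om ⟨rn M e, (hrn M e om hM).1⟩ V δ (by linarith) hδ
  obtain ⟨η4, hη4, h10⟩ := exists_real_lt hη3
  refine ⟨V, c1, C1, min η1 (min η2 η4), hV1, hc1, lt_min hη1 (lt_min hη2 hη4), fun d hd S D hD => ?_⟩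
  have k1 : pm om 1 d.1 (rn M e) ≤ ENNReal.ofReal η1 :=
    hd.le.trans (ENNReal.ofReal_le_ofReal (min_le_left _ _))
  have k2 : pm om 1 d.1 (rn M e) ≤ ENNReal.ofReal η2 :=
    hd.le.trans (ENNReal.ofReal_le_ofReal ((min_le_right _ _).trans (min_le_left _ _)))
  have k3 : pm om 1 d.1 (rn M e) < η3 :=
    (hd.le.trans (ENNReal.ofReal_le_ofReal ((min_le_right _ _).trans (min_le_right _ _)))).trans_lt
      h10
  obtain ⟨f1, f2⟩ := h7 d.1 d.2 k1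
  obtain ⟨f3, -⟩ := h7 d.1.fl d.2.fl (by rw [← rn_fl, pm_fl]; exact k1)
  obtain ⟨f4, -⟩ := h8 d.1 d.2 k2
  obtain ⟨g1, g2⟩ := h9 d k3
  have hcore : Core M rb V c C ε d.1.e S D := by
    refine h6 _ S D hD.fut g1 fun x hx => ?_
    rw [dd_congr (hD.data x) (S' := red d.1) (T' := red (rn M e)) ?_]
    · exact g2 x hx
    · obtain ⟨a1, a2, a3, a4, a5, a6, a7, a8, a9⟩ := dd_zero ((hrn M e om hM).2 x)
      exact dd_zero_of ⟨a1.symm, a2.symm, a3.symm, a4.symm, a5.symm, a6.symm, a7.symm, a8.symm,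
        a9.symm⟩
  obtain ⟨r1, r2, r3⟩ := h5 _ S D f2 hD.fut hD.smooth hcore (f1.congr hD.data)
    (f3.congr (hD.fl hs).data)
  refine ⟨r1, r2, r3, fun x hx => ?_⟩
  obtain ⟨-, -, -, -, -, a1, -, -, -, -, -, a2⟩ := f4.congr hD.data x hx
  refine ⟨a1, a2.trans ?_⟩
  have : 1 ≤ x := hV1.trans hx
  exact div_le_one_of_le₀ (one_le_pow₀ this) (by positivity)

/-- the blow up condition -/
def Bl (V : ℝ) (d : Dat) : Prop := ∀ S, Dev d S univ → Blow S V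

lemma dev_univ (hs : BSym) (hex : BExist) (hred : DRed) {M e om V c C : ℝ} {d : Dat}
    (hd : IsData M e om d) (h1 : Nice V c C d) (h2 : Nice V c C d.rv) : ∃ S, Dev d S univ := by
  obtain ⟨S, D, a1, a2, a3, a4⟩ := hex d.e (red d) (hred M e om d hd)
  have hD : Dev d S D := ⟨a1, a2, a3, a4⟩
  have e : D = univ := by
    refine eq_univ_of_forall fun q => ?_
    rcases le_total 0 (q.1 + q.2) with h | h
    · exact (h1 S D hD).1 q h
    · have := (h2 _ _ (hD.rv hs)).1 (tr q) (by simp only [tr]; linarith)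
      simpa only [mem_preimage, tr_tr] using this
  exact ⟨S, e ▸ hD⟩

lemma fs_of (hs : BSym) {V c C : ℝ} (hc : 0 < c) {d : Dat} {S : Fld} (hD : Dev d S univ)
    (h1 : Nice V c C d) (h2 : Nice V c C d.fl) (b1 : Bl V d) (b2 : Bl V d.fl) : FS S := by
  obtain ⟨-, a1, ⟨uH, a2⟩, -⟩ := h1 S univ hD
  obtain ⟨-, -, ⟨vH, a3⟩, -⟩ := h2 _ _ (hD.fl hs)
  exact ⟨⟨c, hc, a1.1⟩, V, uH, vH, a2, a3, b1 S hD, b2 _ (hD.fl hs)⟩

lemma good_of (hs : BSym) (hex : BExist) (hred : DRed) (hg : BGeo) {M e om V c C : ℝ} (hc : 0 < c)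
    {d : Dat} (hd : IsData M e om d) (h1 : Nice V c C d) (h2 : Nice V c C d.fl)
    (h3 : Nice V c C d.rv) (h4 : Nice V c C d.rv.fl) (b1 : Bl V d) (b2 : Bl V d.fl)
    (b3 : Bl V d.rv) (b4 : Bl V d.rv.fl) : Good d := by
  obtain ⟨S, hS⟩ := dev_univ hs hex hred hd h1 h3
  exact hg M e om d S hd hS.fut.sol hS.smooth hS.data (fs_of hs hc hS h1 h2 b1 b2)
    (fs_of hs hc (hS.rv hs) h3 h4 b3 b4)

end Vale.Agent.P354E
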