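import Vale.Agent.P354E.Asm1

open scoped ContDiff
open MeasureTheory Set Filter Topology

namespace Vale.Agent.P354E

lemma isDom_univ : IsDom univ := ⟨isOpen_univ, fun _ => mem_univ _, fun _ _ => subset_univ _⟩

lemma cont_line {f : P2 → ℝ} (hf : ContinuousOn f univ) (u : ℝ) : Continuous fun y => f (u, y) :=
  (continuousOn_univ.1 hf).comp (Continuous.prodMk_right u)

lemma cont_blow {e : ℝ} {S : Fld} (h : IsSol e S univ) (u : ℝ) :
    Continuous fun y => S.l (u, y) ^ 2 / S.O (u, y) :=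
  ((cont_line h.cont.l u).pow 2).div (Real.continuous_exp.comp (cont_line h.cont.w u))
    fun _ => (Real.exp_pos _).ne'

/-- the blow up integral is lower semicontinuous -/
lemma lsc {e : ℝ} {S : Fld} (h : IsSol e S univ) {u V v N : ℝ} (hv : V ≤ v)
    (hN : N < ∫ y in V..v, S.l (u, y) ^ 2 / S.O (u, y)) : ∃ ε, 0 < ε ∧ ∀ e' T, IsSol e' T univ →
      (∀ y ∈ Icc V v, dd T S (u, y) ≤ ε) → N < ∫ y in V..v, T.l (u, y) ^ 2 / T.O (u, y) := by
  set I := ∫ y in V..v, S.l (u, y) ^ 2 / S.O (u, y) with hI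
  have hc : Continuous fun y => ((S.l (u, y), S.w (u, y)) : ℝ × ℝ) :=
    (cont_line h.cont.l u).prodMk (cont_line h.cont.w u)
  obtain ⟨B, hB⟩ := (isCompact_Icc (a := V) (b := v)).exists_bound_of_continuousOn hc.continuousOn
  have hΦ : Continuous fun z : ℝ × ℝ => z.1 ^ 2 / Real.exp z.2 :=
    (continuous_fst.pow 2).div (Real.continuous_exp.comp continuous_snd) fun _ => (Real.exp_pos _).ne'
  have huc := (isCompact_closedBall (0 : ℝ × ℝ) (B + 1)).uniformContinuousOn_of_continuous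
    hΦ.continuousOn
  have hγ : 0 < (I - N) / (v - V + 1) := div_pos (by linarith) (by linarith)
  obtain ⟨δ, hδ, h2⟩ := Metric.uniformContinuousOn_iff.1 huc _ hγ
  refine ⟨min (δ / 2) 1, lt_min (by linarith) one_pos, fun e' T hT hd => ?_⟩
  have key : ∀ y ∈ Icc V v, S.l (u, y) ^ 2 / S.O (u, y) - (I - N) / (v - V + 1) ≤
      T.l (u, y) ^ 2 / T.O (u, y) := by
    intro y hy
    obtain ⟨-, a1, -, a2, -⟩ := dd_parts (hd y hy)
    have hdist : dist ((T.l (u, y), T.w (u, y)) : ℝ × ℝ) (S.l (u, y), S.w (u, y)) ≤ min (δ / 2) 1 := by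
      rw [Prod.dist_eq, Real.dist_eq, Real.dist_eq]
      exact max_le a2 a1
    have m1 : ((S.l (u, y), S.w (u, y)) : ℝ × ℝ) ∈ Metric.closedBall (0 : ℝ × ℝ) (B + 1) := by
      rw [mem_closedBall_zero_iff]
      linarith [hB y hy]
    have m2 : ((T.l (u, y), T.w (u, y)) : ℝ × ℝ) ∈ Metric.closedBall (0 : ℝ × ℝ) (B + 1) := by
      rw [Metric.mem_closedBall]
      have := dist_triangle ((T.l (u, y), T.w (u, y)) : ℝ × ℝ) (S.l (u, y), S.w (u, y)) 0
      rw [dist_zero_right ((S.l (u, y), S.w (u, y)) : ℝ × ℝ)] at this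
      linarith [hB y hy, min_le_right (δ / 2) 1]
    have := h2 _ m2 _ m1 (by linarith [min_le_left (δ / 2) 1])
    rw [Real.dist_eq, abs_lt] at this
    simp only [Fld.O]
    linarith [this.1]
  have h3 := intervalIntegral.integral_mono_on (μ := volume) hv
    (((cont_blow h u).sub continuous_const).intervalIntegrable V v)
    ((cont_blow hT u).intervalIntegrable V v) key
  simp only [Pi.sub_apply] at h3
  rw [intervalIntegral.integral_sub ((cont_blow h u).intervalIntegrable V v)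
    (continuous_const.intervalIntegrable V v), intervalIntegral.integral_const, smul_eq_mul] at h3
  have h4 : (v - V) * ((I - N) / (v - V + 1)) < I - N := by
    rw [mul_div_assoc', div_lt_iff₀ (by linarith)]
    nlinarith
  linarith

variable {M e om : ℝ}

/-- the exceptional sets -/
def Exc (V N : ℝ) (d : Dat) : Prop :=
  ∃ S, Dev d S univ ∧ ∀ v, V ≤ v → ∫ y in V..v, S.l (V, y) ^ 2 / S.O (V, y) ≤ N

lemma exc_open (hst : BStab) (hco : DCont) (hom : 2 ≤ om) {V N : ℝ} (hV : 1 ≤ V)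
    (d : Dset M e om) {S : Fld} (hS : Dev d.1 S univ) (h : ¬ Exc V N d.1) :
    ∃ η, 0 < η ∧ ∀ d' ∈ ball d 1 η, ¬ Exc V N d'.1 := by
  have h1 : ∃ v, V ≤ v ∧ N < ∫ y in V..v, S.l (V, y) ^ 2 / S.O (V, y) := by
    by_contra h2
    push Not at h2
    exact h ⟨S, hS, h2⟩
  obtain ⟨v, hv, hN⟩ := h1
  obtain ⟨ε, hε, h2⟩ := lsc hS.fut.sol hv hN
  obtain ⟨δ, hδ, h3⟩ := hst d.1.e S univ (V, v) ε hS.fut.sol isDom_univ (mem_univ _)
    (by simp only; linarith) hε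
  obtain ⟨η, hη, h4⟩ := hco M e om d v δ (by linarith) hδ
  refine ⟨η, hη, fun d' hd' ⟨T, hT, h5⟩ => ?_⟩
  obtain ⟨a1, a2⟩ := h4 d' hd'
  obtain ⟨-, a3⟩ := h3 _ T univ hT.fut a1 fun x hx => by
    rw [dd_congr (hT.data x) (hS.data x)]
    exact a2 x ⟨by linarith [hx.1], hx.2⟩
  have := h2 _ T hT.fut.sol fun y hy => a3 (V, y) ⟨le_rfl, hy.2, by simp only; linarith [hy.1]⟩
  linarith [h5 v hv]

lemma uniq (hst : BStab) {e' : ℝ} {S T : Fld} (hS : MaxSol e' S univ) (hT : IsSol e' T univ)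
    {p : P2} (hp : 0 ≤ p.1 + p.2) (h : ∀ x ∈ Icc (-p.1) p.2, dd S T (-x, x) = 0) :
    ∀ q ∈ Tri p, dd S T q = 0 := by
  intro q hq
  refine le_antisymm (le_of_forall_pos_le_add fun ε hε => ?_) (dd_nonneg _ _ _)
  obtain ⟨δ, hδ, h3⟩ := hst e' T univ p ε hT isDom_univ (mem_univ _) hp hε
  obtain ⟨-, a3⟩ := h3 e' S univ hS (by simpa using hδ.le) fun x hx => by
    rw [h x hx]
    exact hδ.le
  simpa using a3 q hq

lemma ftc_p {e' : ℝ} {S : Fld} (h : IsSol e' S univ) (u a b : ℝ) :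
    ∫ y in a..b, S.pv (u, y) = S.p (u, b) - S.p (u, a) :=
  intervalIntegral.integral_eq_sub_of_hasDerivAt (f := fun y => S.p (u, y))
    (fun y _ => (h.sol (u, y) (mem_univ _)).p_v) ((cont_line h.cont.pv u).intervalIntegrable a b)

/-- the algebra of the lower bound -/
lemma lower_alg {r r' rs pv pv' δs x L K h P : ℝ} (hL : 2 ≤ L) (hK : 1 ≤ K) (hx : 0 ≤ x)
    (hh : 0 ≤ h * P)
    (h1 : 1 / L ≤ r') (h2 : r' ≤ L) (h3 : 1 / L ≤ rs) (h4 : rs ≤ L) (h5 : |r' - r| ≤ K * (h * P))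
    (h6 : |pv| ≤ K) (h7 : |(r' * pv' - r * pv) - rs * δs| ≤ K * (h * P))
    (h8 : x - L * (h * P) ≤ δs) : x / L ^ 2 - 3 * L ^ 3 * K ^ 2 * (h * P) ≤ pv' - pv := by
  have hL0 : 0 < L := by linarith
  have hr' : 0 < r' := lt_of_lt_of_le (by positivity) h1
  have hrs : 0 < rs := lt_of_lt_of_le (by positivity) h3
  have a1 : x / L - L ^ 2 * (h * P) ≤ rs * δs := by
    have b1 : rs * (x - L * (h * P)) ≤ rs * δs := mul_le_mul_of_nonneg_left h8 hrs.le
    have b2 : 1 / L * x ≤ rs * x := mul_le_mul_of_nonneg_right h3 hx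
    have b3 : rs * (L * (h * P)) ≤ L * (L * (h * P)) :=
      mul_le_mul_of_nonneg_right h4 (by positivity)
    have b4 : x / L = 1 / L * x := by ring
    nlinarith
  have a2 : |(r' - r) * pv| ≤ K * (h * P) * K := by
    rw [abs_mul]
    exact mul_le_mul h5 h6 (abs_nonneg _) (by positivity)
  have a3 : x / L - (L ^ 2 + K + K ^ 2) * (h * P) ≤ r' * (pv' - pv) := by
    have := (abs_le.1 a2).2
    have := (abs_le.1 h7).1
    nlinarith
  have a4 : (L ^ 2 + K + K ^ 2) * (h * P) ≤ 3 * L ^ 2 * K ^ 2 * (h * P) := by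
    refine mul_le_mul_of_nonneg_right ?_ hh
    have c1 : 1 ≤ L ^ 2 := by nlinarith
    have c2 : 1 ≤ K ^ 2 := by nlinarith
    have c3 : K ≤ K ^ 2 := by nlinarith
    nlinarith
  have a5 : x / L ^ 2 * r' ≤ x / L := by
    have : x / L ^ 2 * r' ≤ x / L ^ 2 * L := mul_le_mul_of_nonneg_left h2 (by positivity)
    have e : x / L ^ 2 * L = x / L := by field_simp
    linarith
  have a6 : 3 * L ^ 2 * K ^ 2 * (h * P) ≤ 3 * L ^ 3 * K ^ 2 * (h * P) * r' := by
    have : 3 * L ^ 3 * K ^ 2 * (h * P) * (1 / L) ≤ 3 * L ^ 3 * K ^ 2 * (h * P) * r' :=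
      mul_le_mul_of_nonneg_left h1 (by positivity)
    have e : 3 * L ^ 3 * K ^ 2 * (h * P) * (1 / L) = 3 * L ^ 2 * K ^ 2 * (h * P) := by field_simp
    linarith
  refine le_of_mul_le_mul_right ?_ hr'
  nlinarith

lemma poly_exp {c : ℝ} (hc : 0 < c) (K : ℕ) (A : ℝ) {a : ℝ} (ha : 0 < a) :
    ∀ᶠ R : ℝ in atTop, R ^ K * (A * Real.exp (-c * R)) < a := by
  have h1 := (Real.tendsto_pow_mul_exp_neg_atTop_nhds_zero K).comp
    (tendsto_id.const_mul_atTop hc)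
  have h2 := h1.const_mul (A / c ^ K)
  rw [mul_zero] at h2
  filter_upwards [h2.eventually (gt_mem_nhds ha)] with R hR
  have e : A / c ^ K * ((fun x : ℝ => x ^ K * Real.exp (-x)) ∘ fun k => c * id k) R =
      R ^ K * (A * Real.exp (-c * R)) := by
    simp only [Function.comp, id, mul_pow, neg_mul]
    field_simp
  rwa [e] at hR

lemma choose_params (k k' : ℕ) {C A c C2 I η x1 : ℝ} (hC : 2 ≤ C) (hA : C ≤ A) (hc : 0 < c)
    (hI : 0 < I) (hη : 0 < η) (hx : 1 ≤ x1) : ∃ R h P L : ℝ, x1 ≤ R ∧ 0 < h ∧ h ≤ 1 ∧ 0 < P ∧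
      C * (R / h) ^ k * P ≤ η ∧ C * (R / h) ^ k * P ≤ 1 ∧ C * R ^ k ≤ L ∧ A * R ≤ L ∧
      h * L ^ k' ≤ 1 ∧ h * (6 * C * (L ^ 5 * (L ^ k') ^ 2)) ≤ I ∧
      C2 * Real.exp (-c * R) < P * h * I / (2 * C * L ^ 2) := by
  obtain ⟨i, hi0, hi1, hiI⟩ : ∃ i : ℝ, 0 < i ∧ i ≤ 1 ∧ i ≤ I :=
    ⟨min 1 I, lt_min one_pos hI, min_le_left _ _, min_le_right _ _⟩
  obtain ⟨η', hη0, hη1, hη2⟩ : ∃ i : ℝ, 0 < i ∧ i ≤ 1 ∧ i ≤ η :=
    ⟨min 1 η, lt_min one_pos hη, min_le_left _ _, min_le_right _ _⟩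
  have hC0 : 0 < C := by linarith
  have hA0 : 0 < A := by linarith
  have hc30 : 0 < η' * (i / (6 * C * A ^ (2 * k' + 5))) ^ (k + 1) * I / (2 * C ^ 2 * A ^ 2) := by
    positivity
  obtain ⟨R, hR1, hR2⟩ := ((poly_exp hc
    (k + 2 * (k + 1) + (k + 1) * (2 * k' + 5) * (k + 1)) C2 hc30).and
    (eventually_ge_atTop x1)).exists
  have hR : 1 ≤ R := hx.trans hR2
  have hR0 : 0 < R := by linarith
  obtain ⟨L, hL⟩ : ∃ L, L = A * R ^ (k + 1) := ⟨_, rfl⟩
  have hRk : 1 ≤ R ^ k := one_le_pow₀ hR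
  have hRk1 : R ≤ R ^ (k + 1) := le_self_pow₀ hR (by omega)
  have hAL : A * R ≤ L := hL ▸ mul_le_mul_of_nonneg_left hRk1 hA0.le
  have hL1 : 1 ≤ L := by nlinarith
  have hL0 : 0 < L := by linarith
  obtain ⟨h, hh⟩ : ∃ h, h = i / (6 * C * L ^ (2 * k' + 5)) := ⟨_, rfl⟩
  have hh0 : 0 < h := by rw [hh]; positivity
  have hLk : 1 ≤ L ^ k' := one_le_pow₀ hL1
  have hpow : L ^ (2 * k' + 5) = L ^ 5 * (L ^ k') ^ 2 := by ring
  have hL5 : 1 ≤ L ^ 5 := one_le_pow₀ hL1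
  have hhL : h * (6 * C * (L ^ 5 * (L ^ k') ^ 2)) = i := by
    rw [hh, ← hpow]
    field_simp
  have hhk : h * L ^ k' ≤ 1 := by
    have b0 : L ^ k' ≤ (L ^ k') ^ 2 := le_self_pow₀ hLk (by omega)
    have b2 : (L ^ k') ^ 2 ≤ L ^ 5 * (L ^ k') ^ 2 := le_mul_of_one_le_left (by positivity) hL5
    have b3 : L ^ 5 * (L ^ k') ^ 2 ≤ 6 * C * (L ^ 5 * (L ^ k') ^ 2) :=
      le_mul_of_one_le_left (by positivity) (by linarith)
    have := mul_le_mul_of_nonneg_left (b0.trans (b2.trans b3)) hh0.le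
    linarith
  have hh1 : h ≤ 1 := (le_mul_of_one_le_right hh0.le hLk).trans hhk
  obtain ⟨P, hP⟩ : ∃ P, P = η' / (C * (R / h) ^ k) := ⟨_, rfl⟩
  have hP0 : 0 < P := by rw [hP]; positivity
  have hCP : C * (R / h) ^ k * P = η' := by
    rw [hP]
    field_simp
  have hCL : C * R ^ k ≤ L :=
    hL ▸ mul_le_mul hA (pow_le_pow_right₀ hR (by omega)) (by positivity) hA0.le
  refine ⟨R, h, P, L, hR2, hh0, hh1, hP0, hCP ▸ hη2, hCP ▸ hη1, hCL, hAL, hhk, hhL ▸ hiI, ?_⟩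
  have i4 : R ^ (k + 2 * (k + 1) + (k + 1) * (2 * k' + 5) * (k + 1)) *
      (P * h * I / (2 * C * L ^ 2)) =
      η' * (i / (6 * C * A ^ (2 * k' + 5))) ^ (k + 1) * I / (2 * C ^ 2 * A ^ 2) := by
    rw [hP, hh, hL]
    simp only [div_pow, mul_pow, ← pow_mul]
    field_simp
    ring
  rw [← i4] at hR1
  exact lt_of_mul_lt_mul_left hR1 (by positivity)

lemma strip_bd {X : Fld} {V c C1 L R h A : ℝ} (hc : 0 < c) (hV : 1 ≤ V) (hRV : V ≤ R) (hh1 : h ≤ 1)
    (hA1 : 2 * |C1| ≤ A) (hA2 : 1 / c ≤ A) (hA3 : 1 ≤ A) (hAL : A * R ≤ L) (uX : Unif X V c C1)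
    (bX : ∀ x, V ≤ x → |X.l (-x, x)| ≤ 1 ∧ |X.pv (-x, x)| ≤ 1) : ∀ v ∈ Icc R (R + h),
      ∫ y in (-v)..V, (X.O (y, v) + |X.n (y, v)| + |X.r (y, v) * X.pu (y, v)|) ≤ L ∧
      (∀ u ∈ Icc (-v) V, 1 / L ≤ X.r (u, v) ∧ X.r (u, v) ≤ L) ∧
      |X.l (-v, v)| ≤ L ∧ |X.pv (-v, v)| ≤ L := by
  intro v hv
  have hR : 1 ≤ R := hV.trans hRV
  have hAL' : A ≤ L := (le_mul_of_one_le_right (by linarith) hR).trans hAL
  have hL1 : 1 ≤ L := hA3.trans hAL'
  have hv1 : V ≤ v := hRV.trans hv.1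
  obtain ⟨-, -, a1, a2⟩ := uX.2 v hv1
  have a3 : C1 * v ≤ L := by
    have b1 : C1 * v ≤ |C1| * (2 * R) :=
      mul_le_mul (le_abs_self _) (by linarith [hv.2]) (by linarith) (abs_nonneg _)
    have b2 : 2 * |C1| * R ≤ A * R := mul_le_mul_of_nonneg_right hA1 (by linarith)
    linarith
  refine ⟨a1.trans a3, fun u hu => ⟨?_, (a2 u hu).trans a3⟩, (bX v hv1).1.trans hL1,
    (bX v hv1).2.trans hL1⟩
  refine le_trans ?_ (uX.1 (u, v) (by simp only; linarith [hu.1]))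
  have b1 : 1 / c ≤ L := hA2.trans hAL'
  rw [div_le_iff₀ (by linarith)]
  rw [div_le_iff₀ hc] at b1
  linarith

lemma strip_int {e' : ℝ} {S T : Fld} (sS : IsSol e' S univ) (sT : IsSol e' T univ) {χ : ℝ → ℝ}
    (hχ : Continuous χ) {V R h a b : ℝ} (hh0 : 0 < h)
    (key : ∀ v ∈ Icc R (R + h), a * χ ((v - R) / h) - b ≤ S.pv (V, v) - T.pv (V, v)) :
    a * (h * ∫ y in (0 : ℝ)..1, χ y) - h * b ≤
      (S.p (V, R + h) - S.p (V, R)) - (T.p (V, R + h) - T.p (V, R)) := by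
  have hχ' : Continuous fun v => χ ((v - R) / h) := hχ.comp (by fun_prop)
  have i1 := intervalIntegral.integral_mono_on (μ := volume) (by linarith : R ≤ R + h)
    (((continuous_const.mul hχ').sub continuous_const).intervalIntegrable R (R + h))
    (((cont_line sS.cont.pv V).sub (cont_line sT.cont.pv V)).intervalIntegrable R (R + h)) key
  simp only [Pi.sub_apply, Pi.mul_apply] at i1
  rw [intervalIntegral.integral_sub ((hχ'.const_mul a).intervalIntegrable _ _)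
    (continuous_const.intervalIntegrable _ _), intervalIntegral.integral_const,
    intervalIntegral.integral_const_mul, intervalIntegral.integral_sub
    ((cont_line sS.cont.pv V).intervalIntegrable _ _)
    ((cont_line sT.cont.pv V).intervalIntegrable _ _), ftc_p sS, ftc_p sT] at i1
  have i2 : ∫ v in R..(R + h), χ ((v - R) / h) = h * ∫ y in (0 : ℝ)..1, χ y := by
    have := intervalIntegral.integral_comp_sub_right (a := R) (b := R + h) (fun y => χ (y / h)) R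
    rw [this, intervalIntegral.integral_comp_div _ hh0.ne']
    simp [hh0.ne']
  rw [i2, smul_eq_mul, add_sub_cancel_left] at i1
  exact i1

/-- no ball lies in an exceptional set -/
lemma no_ball (hst : BStab) (hosc : BOsc) (hstrip : BStrip) (hp : DPulse) (hM : |e| < M)
    (hom : 2 ≤ om) {V c C1 N η : ℝ} (hV : 1 ≤ V) (hc : 0 < c) (hη : 0 < η) (d : Dset M e om)
    (m : ℕ) (H : ∀ d' : Dset M e om, pm om m d'.1 d.1 ≤ ENNReal.ofReal η →
      Nice V c C1 d'.1 ∧ Exc V N d'.1) : False := by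
  obtain ⟨k, C, x0, χ, hC, hχ, hχ0, hI, h1⟩ := hp M e om d m hM hom
  obtain ⟨k', h2⟩ := hstrip
  obtain ⟨C2, h3⟩ := hosc c C1 N hc
  obtain ⟨hn, T, hT, hTN⟩ := H d (by rw [pm_self]; exact zero_le)
  obtain ⟨-, uT, -, bT⟩ := hn T univ hT
  obtain ⟨A, hA1, hA2, hA3, hA4⟩ : ∃ A : ℝ, C ≤ A ∧ 2 * |C1| ≤ A ∧ 1 / c ≤ A ∧ d.1.e ^ 2 ≤ A :=
    ⟨max (max C (2 * |C1|)) (max (1 / c) (d.1.e ^ 2)), (le_max_left _ _).trans (le_max_left _ _),
      (le_max_right _ _).trans (le_max_left _ _), (le_max_left _ _).trans (le_max_right _ _),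
      (le_max_right _ _).trans (le_max_right _ _)⟩
  obtain ⟨R, h, P, L, hR2, hh0, hh1, hP0, p1, p2, p3, p4, p5, p6, p7⟩ :=
    choose_params k k' (c := c / 4) (C2 := 2 * C2) (x1 := max x0 V) hC hA1 (by positivity) hI hη
      (hV.trans (le_max_right _ _))
  have hRx : x0 ≤ R := (le_max_left _ _).trans hR2
  have hRV : V ≤ R := (le_max_right _ _).trans hR2
  have hR : 1 ≤ R := hV.trans hRV
  have hAL' : A ≤ L := (le_mul_of_one_le_right (by linarith) hR).trans p4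
  have hL2 : 2 ≤ L := by linarith
  have hLk : 1 ≤ L ^ k' := one_le_pow₀ (by linarith)
  obtain ⟨d', g1, g2, g3, g4⟩ := h1 R h P L hRx hR hh0 hh1 hP0 p2 p3
  obtain ⟨hn', S, hS, hSN⟩ := H d' (g1.trans (ENNReal.ofReal_le_ofReal p1))
  obtain ⟨-, uS, -, bS⟩ := hn' S univ hS
  have sS : IsSol d.1.e S univ := g2 ▸ hS.fut.sol
  have mS : MaxSol d.1.e S univ := g2 ▸ hS.fut
  have bdS := strip_bd hc hV hRV hh1 hA2 hA3 (by linarith) p4 uS bS
  have bdT := strip_bd hc hV hRV hh1 hA2 hA3 (by linarith) p4 uT bT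
  have hdat : ∀ x ∈ Icc R (R + h), S.r (-x, x) = T.r (-x, x) ∧
      |S.w (-x, x) - T.w (-x, x)| ≤ L * h * P ∧ |S.l (-x, x) - T.l (-x, x)| ≤ L * h * P ∧
      |S.n (-x, x) - T.n (-x, x)| ≤ L * h * P ∧ |S.wv (-x, x) - T.wv (-x, x)| ≤ L * P ∧
      |S.pu (-x, x) - T.pu (-x, x)| ≤ L * P ∧ |S.pv (-x, x) - T.pv (-x, x)| ≤ L * P ∧
      P * χ ((x - R) / h) / C - L * h * P ≤ S.pv (-x, x) - T.pv (-x, x) := by
    intro x hx
    obtain ⟨a1, a2, a3, a4, a5, a6, a7, a8, a9⟩ := dd_zero (hS.data x)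
    obtain ⟨b1, b2, b3, b4, b5, b6, b7, b8, b9⟩ := dd_zero (hT.data x)
    rw [a1, a2, a4, a5, a7, a8, a9, b1, b2, b4, b5, b7, b8, b9]
    exact g4 x hx
  have hstr := h2 d.1.e S T V R h P L sS hT.fut.sol (by linarith) hRV hh0 hP0.le hL2 p5
    (hA4.trans hAL')
    (uniq hst mS hT.fut.sol (by simp only; linarith) fun x hx => by
      rw [dd_congr (hS.data x) (hT.data x)]
      exact g3 x hx.2)
    (by
      intro X hX
      simp only [List.mem_cons, List.not_mem_nil, or_false] at hX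
      rcases hX with rfl | rfl
      · exact bdS
      · exact bdT)
    fun x hx => by
      obtain ⟨a1, a2, a3, a4, a5, a6, a7, -⟩ := hdat x hx
      exact ⟨a1, a2, a3, a4, a5, a6, a7⟩
  have hC0 : 0 < C := by linarith
  have hL0 : 0 < L := by linarith
  have key : ∀ v ∈ Icc R (R + h), P / (C * L ^ 2) * χ ((v - R) / h) -
      3 * L ^ 3 * (L ^ k') ^ 2 * (h * P) ≤ S.pv (V, v) - T.pv (V, v) := by
    intro v hv
    obtain ⟨a1, a2, a3⟩ := hstr v hv
    obtain ⟨-, b1, -⟩ := bdS v hv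
    have hvV : -v ≤ V := by linarith [hv.1]
    obtain ⟨-, -, -, -, -, -, -, b2⟩ := hdat v hv
    have := lower_alg (x := P * χ ((v - R) / h) / C) (h := h) (P := P) (r := T.r (V, v))
      (pv := T.pv (V, v)) (pv' := S.pv (V, v)) (δs := S.pv (-v, v) - T.pv (-v, v)) hL2 hLk
      (by have := hχ0 ((v - R) / h); positivity) (by positivity)
      (b1 V ⟨hvV, le_rfl⟩).1 (b1 V ⟨hvV, le_rfl⟩).2 (b1 (-v) ⟨le_rfl, hvV⟩).1
      (b1 (-v) ⟨le_rfl, hvV⟩).2 (by rw [← mul_assoc]; exact a1) a2 (by rw [← mul_assoc]; exact a3)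
      (by rw [← mul_assoc]; exact b2)
    have e : P * χ ((v - R) / h) / C / L ^ 2 = P / (C * L ^ 2) * χ ((v - R) / h) := by
      field_simp
    rwa [e] at this
  have i1 := strip_int sS hT.fut.sol hχ hh0 key
  have o1 := h3 _ S V R (R + h) sS (by linarith) uS hSN hRV (by linarith)
  have o2 := h3 _ T V R (R + h) hT.fut.sol (by linarith) uT hTN hRV (by linarith)
  generalize (∫ y in (0 : ℝ)..1, χ y) = I at hI p6 p7 i1
  have b1 : h * (3 * L ^ 3 * (L ^ k') ^ 2 * (h * P)) ≤ P * h * I / (2 * C * L ^ 2) := by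
    rw [le_div_iff₀ (by positivity)]
    have : h * (3 * L ^ 3 * (L ^ k') ^ 2 * (h * P)) * (2 * C * L ^ 2) =
        P * h * (h * (6 * C * (L ^ 5 * (L ^ k') ^ 2))) := by ring
    rw [this]
    exact mul_le_mul_of_nonneg_left p6 (by positivity)
  have b2 : P / (C * L ^ 2) * (h * I) = 2 * (P * h * I / (2 * C * L ^ 2)) := by field_simp
  linarith [(abs_le.1 o1).2, (abs_le.1 o2).1]

lemma meagre_pre {U : Set (Dset M e om)} {T : Dset M e om → Dset M e om} (hT : Continuous T)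
    (hTT : ∀ d, T (T d) = d) (hU : ∀ d ∈ U, T d ∈ U) {Z : Set (Dset M e om)}
    (hZ : IsMeagre {d : U | d.1 ∈ Z}) : IsMeagre {d : U | T d.1 ∈ Z} := by
  let F : U ≃ₜ U :=
    { toFun := fun d => ⟨T d.1, hU _ d.2⟩
      invFun := fun d => ⟨T d.1, hU _ d.2⟩
      left_inv := fun d => Subtype.ext (hTT _)
      right_inv := fun d => Subtype.ext (hTT _)
      continuous_toFun := (hT.comp continuous_subtype_val).subtype_mk _
      continuous_invFun := (hT.comp continuous_subtype_val).subtype_mk _ }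
  exact hZ.preimage_of_isOpenMap F.continuous F.isOpenMap

/-- the assembly -/
theorem bMain (hs : BSym) (hex : BExist) (hst : BStab) (hc : BCore) (hstr : BStruct) (hosc : BOsc)
    (hstrip : BStrip) (hg : BGeo) (hred : DRed) (hrn : DRn) (hco : DCont) (hf : DFar)
    (hp : DPulse) (hb : DBaire) : BMain := by
  intro M e om he hM hom
  obtain ⟨V, c, C, η1, hV, hc0, hη1, hn⟩ := setup hs hc hstr hrn hco hf he hM hom
  let d0 : Dset M e om := ⟨rn M e, (hrn M e om hM).1⟩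
  obtain ⟨η2, hη2, hB⟩ := hb M e om d0 hM rfl
  have hη : 0 < min η1 η2 := lt_min hη1 hη2
  set U := ball d0 1 (ENNReal.ofReal (min η1 η2)) with hU
  have hUo : IsOpen U := isOpen_ball' _ _ _
  have hN : ∀ d ∈ U, Nice V c C d.1 := fun d hd =>
    hn d (lt_of_lt_of_le hd (ENNReal.ofReal_le_ofReal (min_le_left _ _)))
  have hfl : ∀ d ∈ U, flD d ∈ U := fun d hd => by
    show pm om 1 d.1.fl (rn M e) < _
    rw [← rn_fl, pm_fl]
    exact hd
  have hrv : ∀ d ∈ U, rvD d ∈ U := fun d hd => by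
    show pm om 1 d.1.rv (rn M e) < _
    rw [← rn_rv, pm_rv]
    exact hd
  have hdev : ∀ d ∈ U, ∃ S, Dev d.1 S univ := fun d hd =>
    dev_univ hs hex hred d.2 (hN d hd) (hN _ (hrv d hd))
  have m1 : ∀ N : ℕ, IsMeagre {d : U | Exc V N d.1.1} := by
    intro N
    have hcl : IsClosed {d : U | Exc V N d.1.1} := by
      rw [← isOpen_compl_iff, isOpen_iff_forall_mem_open]
      intro d hd
      obtain ⟨S, hS⟩ := hdev d.1 d.2
      obtain ⟨η, h1, h2⟩ := exc_open hst hco hom hV d.1 hS hd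
      exact ⟨Subtype.val ⁻¹' ball d.1 1 η, fun d' hd' => h2 d'.1 hd',
        (isOpen_ball' _ _ _).preimage continuous_subtype_val, mem_ball_self' _ _ h1⟩
    refine (hcl.isNowhereDense_iff.2 ?_).isMeagre
    rw [eq_empty_iff_forall_notMem]
    intro d hd
    obtain ⟨t, h1, h2, h3⟩ := mem_interior.1 hd
    obtain ⟨O, h4, rfl⟩ := isOpen_induced_iff.1 h2
    obtain ⟨m, ε, h5, h6⟩ := isOpen_iff_ball.1 (h4.inter hUo) d.1 ⟨h3, d.2⟩
    obtain ⟨η, h7, h8⟩ := exists_real_lt h5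
    refine no_ball hst hosc hstrip hp hM hom (N := N) (C1 := C) hV hc0 h7 d.1 m fun d' hd' => ?_
    obtain ⟨h9, h10⟩ := h6 (show d' ∈ ball d.1 m ε from hd'.trans_lt h8)
    exact ⟨hN d' h10, h1 (show (⟨d', h10⟩ : U) ∈ Subtype.val ⁻¹' O from h9)⟩
  have m2 : IsMeagre {d : U | d.1 ∈ {d : Dset M e om | ¬ Bl V d.1}} := by
    refine (isMeagre_iUnion m1).mono fun d hd => ?_
    have hd' : ¬ Bl V d.1.1 := hd
    simp only [Bl, Blow, not_forall, not_exists, not_and, not_lt] at hd'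
    obtain ⟨S, hS, N, h1⟩ := hd'
    obtain ⟨n, h2⟩ := exists_nat_ge N
    exact mem_iUnion.2 ⟨n, S, hS, fun v hv => (h1 v hv).trans h2⟩
  have m3 := meagre_pre continuous_flD flD_flD hfl m2
  have m4 := meagre_pre continuous_rvD rvD_rvD hrv m2
  have m5 := meagre_pre continuous_rvD rvD_rvD hrv
    (Z := {d : Dset M e om | flD d ∈ {d : Dset M e om | ¬ Bl V d.1}}) m3
  have m6 : IsMeagre {d : U | ¬ Good d.1.1} := by
    refine (((m2.union m3).union m4).union m5).mono fun d hd => ?_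
    by_contra h1
    simp only [mem_union, mem_ofPred_eq, not_or, not_not] at h1
    exact hd (good_of hs hex hred hg hc0 d.1.2 (hN _ d.2) (hN _ (hfl _ d.2)) (hN _ (hrv _ d.2))
      (hN _ (hfl _ (hrv _ d.2))) h1.1.1.1 h1.1.1.2 h1.1.2 h1.2)
  refine ⟨U, hUo, ⟨d0, mem_ball_self' _ _ (ENNReal.ofReal_pos.2 hη), rfl⟩, m6, ?_⟩
  have := hB _ (min_le_right η1 η2)
  refine dense_of_mem_residual ?_
  have : {d : U | Good d.1.1} = {d : U | ¬ Good d.1.1}ᶜ := by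
    ext d
    simp
  rw [this]
  exact m6

end Vale.Agent.P354E
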