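import Vale.Agent.P354E.Sym

open scoped ContDiff
open MeasureTheory Set Filter Topology

namespace Vale.Agent.P354E

/-! ### Rules for Du, Dv -/

section Rules

variable {f g : P2 → ℝ} {q : P2} {d d' : ℝ}

lemma Du.add (h : Du f q d) (h' : Du g q d') : Du (fun q => f q + g q) q (d + d') :=
  HasDerivAt.add h h'
lemma Dv.add (h : Dv f q d) (h' : Dv g q d') : Dv (fun q => f q + g q) q (d + d') :=
  HasDerivAt.add h h'
lemma Du.sub (h : Du f q d) (h' : Du g q d') : Du (fun q => f q - g q) q (d - d') :=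
  HasDerivAt.sub h h'
lemma Dv.sub (h : Dv f q d) (h' : Dv g q d') : Dv (fun q => f q - g q) q (d - d') :=
  HasDerivAt.sub h h'
lemma Du.mul (h : Du f q d) (h' : Du g q d') :
    Du (fun q => f q * g q) q (d * g q + f q * d') :=
  HasDerivAt.mul h h'
lemma Dv.mul (h : Dv f q d) (h' : Dv g q d') :
    Dv (fun q => f q * g q) q (d * g q + f q * d') :=
  HasDerivAt.mul h h'
lemma Du.div (h : Du f q d) (h' : Du g q d') (hg : g q ≠ 0) :
    Du (fun q => f q / g q) q ((d * g q - f q * d') / g q ^ 2) :=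
  HasDerivAt.div h h' hg
lemma Dv.div (h : Dv f q d) (h' : Dv g q d') (hg : g q ≠ 0) :
    Dv (fun q => f q / g q) q ((d * g q - f q * d') / g q ^ 2) :=
  HasDerivAt.div h h' hg
lemma Du.const (c : ℝ) (q : P2) : Du (fun _ => c) q 0 := hasDerivAt_const _ _
lemma Dv.const (c : ℝ) (q : P2) : Dv (fun _ => c) q 0 := hasDerivAt_const _ _
lemma Du.const_mul (c : ℝ) (h : Du f q d) : Du (fun q => c * f q) q (c * d) :=
  HasDerivAt.const_mul c h
lemma Dv.const_mul (c : ℝ) (h : Dv f q d) : Dv (fun q => c * f q) q (c * d) :=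
  HasDerivAt.const_mul c h
lemma Du.sq (h : Du f q d) : Du (fun q => f q ^ 2) q (2 * f q * d) := by
  have := HasDerivAt.pow h 2
  refine Du.congr_d this ?_
  simp
lemma Dv.sq (h : Dv f q d) : Dv (fun q => f q ^ 2) q (2 * f q * d) := by
  have := HasDerivAt.pow h 2
  refine Dv.congr_d this ?_
  simp
lemma Du.comp {F : ℝ → ℝ} {F' : ℝ} (h : Du f q d) (hF : HasDerivAt F F' (f q)) :
    Du (fun q => F (f q)) q (F' * d) :=
  HasDerivAt.comp q.1 (h := fun s => f (s, q.2)) hF h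
lemma Dv.comp {F : ℝ → ℝ} {F' : ℝ} (h : Dv f q d) (hF : HasDerivAt F F' (f q)) :
    Dv (fun q => F (f q)) q (F' * d) :=
  HasDerivAt.comp q.2 (h := fun s => f (q.1, s)) hF h
lemma Du.fst (q : P2) : Du (fun q => q.1) q 1 := hasDerivAt_id _
lemma Du.snd (q : P2) : Du (fun q => q.2) q 0 := hasDerivAt_const _ _
lemma Dv.fst (q : P2) : Dv (fun q => q.1) q 0 := hasDerivAt_const _ _
lemma Dv.snd (q : P2) : Dv (fun q => q.2) q 1 := hasDerivAt_id _

end Rules

lemma O_pos (S : Fld) (q : P2) : 0 < S.O q := Real.exp_pos _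

lemma O_ne (S : Fld) (q : P2) : S.O q ≠ 0 := (O_pos S q).ne'

/-! ### Pointwise identities -/

/-- m1 = - 4 l n / O -/
lemma m1_eq (e : ℝ) (S : Fld) (q : P2) (hr : S.r q ≠ 0) :
    1 - 2 * mass e S q / S.r q + e ^ 2 / S.r q ^ 2 = -4 * S.l q * S.n q / S.O q := by
  have := O_ne S q
  unfold mass; field_simp; ring

lemma G1_eq (e : ℝ) (S : Fld) (q : P2) (hr : S.r q ≠ 0) :
    G1 e S q = -(S.O q / (2 * S.r q ^ 2)) * (mass e S q - e ^ 2 / S.r q) := by
  have := O_ne S q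
  unfold mass G1; field_simp; ring

namespace SolAt

variable {e : ℝ} {S : Fld} {q : P2}

lemma ne (h : SolAt e S q) : S.r q ≠ 0 := h.pos.ne'

lemma O_u (h : SolAt e S q) : Du S.O q (S.O q * S.wu q) := HasDerivAt.exp h.w_u

lemma O_v (h : SolAt e S q) : Dv S.O q (S.O q * S.wv q) := HasDerivAt.exp h.w_v

/-- (r l)_u -/
lemma rl_u (h : SolAt e S q) :
    Du (fun q => S.r q * S.l q) q (-(S.O q / 4) * (1 - e ^ 2 / S.r q ^ 2)) := by
  have := h.ne
  refine (h.r_u.mul h.l_u).congr_d ?_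
  unfold G1; field_simp; ring

/-- (r n)_v -/
lemma rn_v (h : SolAt e S q) :
    Dv (fun q => S.r q * S.n q) q (-(S.O q / 4) * (1 - e ^ 2 / S.r q ^ 2)) := by
  have := h.ne
  refine (h.r_v.mul h.n_v).congr_d ?_
  unfold G1; field_simp; ring

/-- Raychaudhuri in v -/
lemma lO_v (h : SolAt e S q) :
    Dv (fun q => S.l q / S.O q) q (-(S.r q * S.pv q ^ 2 / S.O q)) := by
  have := O_ne S q
  refine (h.l_v.div h.O_v this).congr_d ?_
  field_simp; ring

/-- Raychaudhuri in u -/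
lemma nO_u (h : SolAt e S q) :
    Du (fun q => S.n q / S.O q) q (-(S.r q * S.pu q ^ 2 / S.O q)) := by
  have := O_ne S q
  refine (h.n_u.div h.O_u this).congr_d ?_
  field_simp; ring

/-- (O / N)_u with N = - n -/
lemma ON_u (h : SolAt e S q) (hn : S.n q ≠ 0) :
    Du (fun q => S.O q / -S.n q) q (-(S.O q * S.r q * S.pu q ^ 2 / S.n q ^ 2)) := by
  refine (h.O_u.div h.n_u.neg (neg_ne_zero.2 hn)).congr_d ?_
  field_simp; ring

/-- (O / (-l))_v -/
lemma OL_v (h : SolAt e S q) (hl : S.l q ≠ 0) :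
    Dv (fun q => S.O q / -S.l q) q (-(S.O q * S.r q * S.pv q ^ 2 / S.l q ^ 2)) := by
  refine (h.O_v.div h.l_v.neg (neg_ne_zero.2 hl)).congr_d ?_
  field_simp; ring

/-- th_u with th = r pv -/
lemma th_u (h : SolAt e S q) : Du (fun q => S.r q * S.pv q) q (-(S.l q * S.pu q)) := by
  have := h.ne
  refine (h.r_u.mul h.pv_u).congr_d ?_
  unfold G2; field_simp; ring

/-- ze_v with ze = r pu -/
lemma ze_v (h : SolAt e S q) : Dv (fun q => S.r q * S.pu q) q (-(S.n q * S.pv q)) := by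
  have := h.ne
  refine (h.r_v.mul h.pu_v).congr_d ?_
  unfold G2; field_simp; ring

lemma mass_u (h : SolAt e S q) :
    Du (mass e S) q (-2 * S.l q * (S.r q * S.pu q) ^ 2 / S.O q) := by
  have hr := h.ne
  have hO := O_ne S q
  have h1 := (h.r_u.mul (Du.const (1 / 2) q)).mul (((Du.const 1 q).add ((Du.const (e ^ 2) q).div
    h.r_u.sq (pow_ne_zero 2 hr))).add ((h.l_u.const_mul 4).mul h.nO_u))
  have h2 : mass e S = fun q => S.r q * (1 / 2) *
      (1 + e ^ 2 / S.r q ^ 2 + 4 * S.l q * (S.n q / S.O q)) := by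
    funext q; unfold mass; ring
  rw [h2]
  refine h1.congr_d ?_
  unfold G1; field_simp; ring

lemma mass_v (h : SolAt e S q) :
    Dv (mass e S) q (-2 * S.n q * (S.r q * S.pv q) ^ 2 / S.O q) := by
  have hr := h.ne
  have hO := O_ne S q
  have h1 := (h.r_v.mul (Dv.const (1 / 2) q)).mul (((Dv.const 1 q).add ((Dv.const (e ^ 2) q).div
    h.r_v.sq (pow_ne_zero 2 hr))).add ((h.n_v.const_mul 4).mul h.lO_v))
  have h2 : mass e S = fun q => S.r q * (1 / 2) *
      (1 + e ^ 2 / S.r q ^ 2 + 4 * S.n q * (S.l q / S.O q)) := by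
    funext q; unfold mass; ring
  rw [h2]
  refine h1.congr_d ?_
  unfold G1; field_simp; ring

/-- (r p)_v = Psi = l p + th -/
lemma rp_v (h : SolAt e S q) :
    Dv (fun q => S.r q * S.p q) q (S.l q * S.p q + S.r q * S.pv q) := h.r_v.mul h.p_v

/-- (r p)_u = n p + ze -/
lemma rp_u (h : SolAt e S q) :
    Du (fun q => S.r q * S.p q) q (S.n q * S.p q + S.r q * S.pu q) := h.r_u.mul h.p_u

/-- Psi_u = G1 p -/
lemma psi_u (h : SolAt e S q) :
    Du (fun q => S.l q * S.p q + S.r q * S.pv q) q (G1 e S q * S.p q) :=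
  ((h.l_u.mul h.p_u).add h.th_u).congr_d (by ring)

/-- the v derivative of (r p)_u -/
lemma psi_v (h : SolAt e S q) :
    Dv (fun q => S.n q * S.p q + S.r q * S.pu q) q (G1 e S q * S.p q) :=
  ((h.n_v.mul h.p_v).add h.ze_v).congr_d (by ring)

end SolAt

/-! ### Continuity -/

lemma Cont.O {S : Fld} {D : Set P2} (h : Cont S D) : ContinuousOn S.O D := h.w.rexp

lemma Cont.mono {S : Fld} {D D' : Set P2} (h : Cont S D) (hD : D' ⊆ D) : Cont S D' :=
  ⟨h.r.mono hD, h.w.mono hD, h.p.mono hD, h.l.mono hD, h.n.mono hD, h.wu.mono hD, h.wv.mono hD,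
    h.pu.mono hD, h.pv.mono hD⟩

lemma IsSol.mono {e : ℝ} {S : Fld} {D D' : Set P2} (h : IsSol e S D) (hD : D' ⊆ D) :
    IsSol e S D' := ⟨h.cont.mono hD, fun q hq => h.sol q (hD hq)⟩

namespace IsSol

variable {e : ℝ} {S : Fld} {D : Set P2}

lemma pos (h : IsSol e S D) {q : P2} (hq : q ∈ D) : 0 < S.r q := (h.sol q hq).pos

lemma ne (h : IsSol e S D) : ∀ q ∈ D, S.r q ≠ 0 := fun q hq => (h.sol q hq).ne

lemma cont_er (h : IsSol e S D) : ContinuousOn (fun q => e ^ 2 / S.r q ^ 2) D :=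
  continuousOn_const.div (h.cont.r.pow 2) (fun q hq => pow_ne_zero 2 (h.ne q hq))

/-- continuity of (r l)_u = (r n)_v -/
lemma cont_H (h : IsSol e S D) :
    ContinuousOn (fun q => -(S.O q / 4) * (1 - e ^ 2 / S.r q ^ 2)) D :=
  (h.cont.O.div_const 4).neg.mul (continuousOn_const.sub h.cont_er)

lemma cont_G1 (h : IsSol e S D) : ContinuousOn (G1 e S) D :=
  ((h.cont.O.div (continuousOn_const.mul h.cont.r)
    (fun q hq => mul_ne_zero (by norm_num) (h.ne q hq))).neg.mul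
    (continuousOn_const.sub h.cont_er)).sub ((h.cont.l.mul h.cont.n).div h.cont.r h.ne)

lemma cont_G2 (h : IsSol e S D) : ContinuousOn (G2 S) D :=
  ((h.cont.l.mul h.cont.pu).add (h.cont.n.mul h.cont.pv)).neg.div h.cont.r h.ne

lemma cont_G3 (h : IsSol e S D) : ContinuousOn (G3 e S) D :=
  ((((continuousOn_const.mul h.cont.pu).mul h.cont.pv).sub
    ((h.cont.O.mul continuousOn_const).div (h.cont.r.pow 4)
      (fun q hq => pow_ne_zero 4 (h.ne q hq)))).add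
    (h.cont.O.div (continuousOn_const.mul (h.cont.r.pow 2))
      (fun q hq => mul_ne_zero (by norm_num) (pow_ne_zero 2 (h.ne q hq))))).add
    (((continuousOn_const.mul h.cont.l).mul h.cont.n).div (h.cont.r.pow 2)
      (fun q hq => pow_ne_zero 2 (h.ne q hq)))

lemma cont_mass (h : IsSol e S D) : ContinuousOn (mass e S) D :=
  (h.cont.r.div_const 2).mul ((continuousOn_const.add h.cont_er).add
    (((continuousOn_const.mul h.cont.l).mul h.cont.n).div h.cont.O (fun q _ => O_ne S q)))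

end IsSol

/-! ### Segments -/

section Seg

variable {f g : P2 → ℝ} {D : Set P2} {a b u v : ℝ}

lemma contOn_u {I : Set ℝ} (hf : ContinuousOn f D) (hI : ∀ s ∈ I, (s, v) ∈ D) :
    ContinuousOn (fun s => f (s, v)) I :=
  hf.comp (Continuous.continuousOn (by fun_prop)) hI

lemma contOn_v {I : Set ℝ} (hf : ContinuousOn f D) (hI : ∀ s ∈ I, (u, s) ∈ D) :
    ContinuousOn (fun s => f (u, s)) I :=
  hf.comp (Continuous.continuousOn (by fun_prop)) hI

lemma contOn_x {I : Set ℝ} (hf : ContinuousOn f D) (hI : ∀ s ∈ I, (-s, s) ∈ D) :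
    ContinuousOn (fun s : ℝ => f (-s, s)) I :=
  hf.comp (Continuous.continuousOn (by fun_prop)) hI

lemma iiU (hf : ContinuousOn f D) (hab : a ≤ b) (hI : ∀ s ∈ Icc a b, (s, v) ∈ D) :
    IntervalIntegrable (fun s => f (s, v)) volume a b :=
  (contOn_u hf hI).intervalIntegrable_of_Icc hab

lemma iiV (hf : ContinuousOn f D) (hab : a ≤ b) (hI : ∀ s ∈ Icc a b, (u, s) ∈ D) :
    IntervalIntegrable (fun s => f (u, s)) volume a b :=
  (contOn_v hf hI).intervalIntegrable_of_Icc hab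

/-- the fundamental theorem of calculus along a u segment -/
lemma ftcU (hab : a ≤ b) (hI : ∀ s ∈ Icc a b, (s, v) ∈ D) (hd : ∀ q ∈ D, Du f q (g q))
    (hg : ContinuousOn g D) : ∫ s in a..b, g (s, v) = f (b, v) - f (a, v) := by
  refine intervalIntegral.integral_eq_sub_of_hasDerivAt (f := fun s => f (s, v)) ?_
    (iiU hg hab hI)
  intro s hs
  rw [uIcc_of_le hab] at hs
  exact hd _ (hI s hs)

/-- the fundamental theorem of calculus along a v segment -/
lemma ftcV (hab : a ≤ b) (hI : ∀ s ∈ Icc a b, (u, s) ∈ D) (hd : ∀ q ∈ D, Dv f q (g q))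
    (hg : ContinuousOn g D) : ∫ s in a..b, g (u, s) = f (u, b) - f (u, a) := by
  refine intervalIntegral.integral_eq_sub_of_hasDerivAt (f := fun s => f (u, s)) ?_
    (iiV hg hab hI)
  intro s hs
  rw [uIcc_of_le hab] at hs
  exact hd _ (hI s hs)

lemma anti_of_deriv {F F' : ℝ → ℝ} (hd : ∀ s ∈ Icc a b, HasDerivAt F (F' s) s)
    (hs : ∀ s ∈ Icc a b, F' s ≤ 0) : AntitoneOn F (Icc a b) := by
  refine antitoneOn_of_deriv_nonpos (convex_Icc a b)
    (fun s h => (hd s h).continuousAt.continuousWithinAt)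
    (fun s h => (hd s (interior_subset h)).differentiableAt.differentiableWithinAt) ?_
  intro s h
  rw [(hd s (interior_subset h)).deriv]
  exact hs s (interior_subset h)

lemma mono_of_deriv {F F' : ℝ → ℝ} (hd : ∀ s ∈ Icc a b, HasDerivAt F (F' s) s)
    (hs : ∀ s ∈ Icc a b, 0 ≤ F' s) : MonotoneOn F (Icc a b) := by
  refine monotoneOn_of_deriv_nonneg (convex_Icc a b)
    (fun s h => (hd s h).continuousAt.continuousWithinAt)
    (fun s h => (hd s (interior_subset h)).differentiableAt.differentiableWithinAt) ?_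
  intro s h
  rw [(hd s (interior_subset h)).deriv]
  exact hs s (interior_subset h)

lemma le_of_deriv_nonpos {F F' : ℝ → ℝ} (hab : a ≤ b) (hd : ∀ s ∈ Icc a b, HasDerivAt F (F' s) s)
    (hs : ∀ s ∈ Icc a b, F' s ≤ 0) : F b ≤ F a :=
  anti_of_deriv hd hs (left_mem_Icc.2 hab) (right_mem_Icc.2 hab) hab

lemma le_of_deriv_nonneg {F F' : ℝ → ℝ} (hab : a ≤ b) (hd : ∀ s ∈ Icc a b, HasDerivAt F (F' s) s)
    (hs : ∀ s ∈ Icc a b, 0 ≤ F' s) : F a ≤ F b :=
  mono_of_deriv hd hs (left_mem_Icc.2 hab) (right_mem_Icc.2 hab) hab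

lemma eq_of_deriv_zero {F : ℝ → ℝ} (hab : a ≤ b) (hd : ∀ s ∈ Icc a b, HasDerivAt F 0 s) :
    F b = F a :=
  le_antisymm (le_of_deriv_nonpos (F' := fun _ => 0) hab hd (fun _ _ => le_rfl))
    (le_of_deriv_nonneg (F' := fun _ => 0) hab hd (fun _ _ => le_rfl))

lemma anti_u (hab : a ≤ b) (hd : ∀ s ∈ Icc a b, Du f (s, v) (g (s, v)))
    (hs : ∀ s ∈ Icc a b, g (s, v) ≤ 0) : f (b, v) ≤ f (a, v) :=
  le_of_deriv_nonpos (F := fun s => f (s, v)) (F' := fun s => g (s, v)) hab hd hs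

lemma anti_v (hab : a ≤ b) (hd : ∀ s ∈ Icc a b, Dv f (u, s) (g (u, s)))
    (hs : ∀ s ∈ Icc a b, g (u, s) ≤ 0) : f (u, b) ≤ f (u, a) :=
  le_of_deriv_nonpos (F := fun s => f (u, s)) (F' := fun s => g (u, s)) hab hd hs

lemma mono_u (hab : a ≤ b) (hd : ∀ s ∈ Icc a b, Du f (s, v) (g (s, v)))
    (hs : ∀ s ∈ Icc a b, 0 ≤ g (s, v)) : f (a, v) ≤ f (b, v) :=
  le_of_deriv_nonneg (F := fun s => f (s, v)) (F' := fun s => g (s, v)) hab hd hs

lemma mono_v (hab : a ≤ b) (hd : ∀ s ∈ Icc a b, Dv f (u, s) (g (u, s)))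
    (hs : ∀ s ∈ Icc a b, 0 ≤ g (u, s)) : f (u, a) ≤ f (u, b) :=
  le_of_deriv_nonneg (F := fun s => f (u, s)) (F' := fun s => g (u, s)) hab hd hs

end Seg

/-! ### Triangles -/

lemma self_mem_Tri {p : P2} (hp : 0 ≤ p.1 + p.2) : p ∈ Tri p := ⟨le_rfl, le_rfl, hp⟩

lemma Tri_mono {p q : P2} (h1 : q.1 ≤ p.1) (h2 : q.2 ≤ p.2) : Tri q ⊆ Tri p :=
  fun _ h => ⟨h.1.trans h1, h.2.1.trans h2, h.2.2⟩

lemma Tri_sub {p q : P2} (h : q ∈ Tri p) : Tri q ⊆ Tri p := Tri_mono h.1 h.2.1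

lemma isCompact_Tri (p : P2) : IsCompact (Tri p) := by
  have hc : IsClosed (Tri p) :=
    (isClosed_le continuous_fst continuous_const).inter
      ((isClosed_le continuous_snd continuous_const).inter
        (isClosed_le continuous_const (continuous_fst.add continuous_snd)))
  refine (isCompact_Icc (a := ((-p.2, -p.1) : P2)) (b := p)).of_isClosed_subset hc ?_
  rintro q ⟨h1, h2, h3⟩
  exact ⟨⟨by simp only; linarith, by simp only; linarith⟩, ⟨h1, h2⟩⟩

lemma seg_u_Tri {u v s : ℝ} (hs : s ∈ Icc (-v) u) : (s, v) ∈ Tri (u, v) :=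
  ⟨hs.2, le_rfl, by have := hs.1; simp only; linarith⟩

lemma seg_v_Tri {u v s : ℝ} (hs : s ∈ Icc (-u) v) : (u, s) ∈ Tri (u, v) :=
  ⟨le_rfl, hs.2, by have := hs.1; simp only; linarith⟩

lemma IsDom.seg_u {D : Set P2} (h : IsDom D) {a u v : ℝ} (hq : (u, v) ∈ D) (ha : 0 ≤ a + v) :
    ∀ s ∈ Icc a u, (s, v) ∈ D :=
  fun _ hs => h.tri _ hq (seg_u_Tri ⟨by linarith [hs.1], hs.2⟩)

lemma IsDom.seg_v {D : Set P2} (h : IsDom D) {a u v : ℝ} (hq : (u, v) ∈ D) (ha : 0 ≤ u + a) :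
    ∀ s ∈ Icc a v, (u, s) ∈ D :=
  fun _ hs => h.tri _ hq (seg_v_Tri ⟨by linarith [hs.1], hs.2⟩)

lemma IsDom.diag' {D : Set P2} (h : IsDom D) (x : ℝ) : (x, -x) ∈ D := by
  simpa using h.diag (-x)

/-! ### Monotonicity and propagation of signs -/

namespace IsSol

variable {e : ℝ} {S : Fld} {D : Set P2} {a b u v : ℝ}

/-- l / O decreases in v -/
lemma lO_anti (h : IsSol e S D) (hab : a ≤ b) (hI : ∀ s ∈ Icc a b, (u, s) ∈ D) :
    S.l (u, b) / S.O (u, b) ≤ S.l (u, a) / S.O (u, a) :=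
  anti_v (f := fun q => S.l q / S.O q) (g := fun q => -(S.r q * S.pv q ^ 2 / S.O q)) hab
    (fun s hs => (h.sol _ (hI s hs)).lO_v) (fun s hs => by
      have := h.pos (hI s hs)
      have := O_pos S (u, s)
      simp only [neg_nonpos]; positivity)

/-- n / O decreases in u -/
lemma nO_anti (h : IsSol e S D) (hab : a ≤ b) (hI : ∀ s ∈ Icc a b, (s, v) ∈ D) :
    S.n (b, v) / S.O (b, v) ≤ S.n (a, v) / S.O (a, v) :=
  anti_u (f := fun q => S.n q / S.O q) (g := fun q => -(S.r q * S.pu q ^ 2 / S.O q)) hab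
    (fun s hs => (h.sol _ (hI s hs)).nO_u) (fun s hs => by
      have := h.pos (hI s hs)
      have := O_pos S (s, v)
      simp only [neg_nonpos]; positivity)

lemma l_neg (h : IsSol e S D) (hab : a ≤ b) (hI : ∀ s ∈ Icc a b, (u, s) ∈ D)
    (h0 : S.l (u, a) < 0) : S.l (u, b) < 0 := by
  have h1 := (h.lO_anti hab hI).trans_lt (div_neg_of_neg_of_pos h0 (O_pos S _))
  by_contra hc
  exact absurd h1 (not_lt.2 (div_nonneg (not_lt.1 hc) (O_pos S _).le))

lemma n_neg (h : IsSol e S D) (hab : a ≤ b) (hI : ∀ s ∈ Icc a b, (s, v) ∈ D)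
    (h0 : S.n (a, v) < 0) : S.n (b, v) < 0 := by
  have h1 := (h.nO_anti hab hI).trans_lt (div_neg_of_neg_of_pos h0 (O_pos S _))
  by_contra hc
  exact absurd h1 (not_lt.2 (div_nonneg (not_lt.1 hc) (O_pos S _).le))

lemma l_nonpos (h : IsSol e S D) (hab : a ≤ b) (hI : ∀ s ∈ Icc a b, (u, s) ∈ D)
    (h0 : S.l (u, a) ≤ 0) : S.l (u, b) ≤ 0 := by
  have h1 := (h.lO_anti hab hI).trans (div_nonpos_of_nonpos_of_nonneg h0 (O_pos S _).le)
  by_contra hc
  exact absurd h1 (not_le.2 (div_pos (not_le.1 hc) (O_pos S _)))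

lemma n_nonpos (h : IsSol e S D) (hab : a ≤ b) (hI : ∀ s ∈ Icc a b, (s, v) ∈ D)
    (h0 : S.n (a, v) ≤ 0) : S.n (b, v) ≤ 0 := by
  have h1 := (h.nO_anti hab hI).trans (div_nonpos_of_nonpos_of_nonneg h0 (O_pos S _).le)
  by_contra hc
  exact absurd h1 (not_le.2 (div_pos (not_le.1 hc) (O_pos S _)))

/-- the bound O ≤ K (-l) propagates in v -/
lemma O_le_l (h : IsSol e S D) (hab : a ≤ b) (hI : ∀ s ∈ Icc a b, (u, s) ∈ D) {K : ℝ}
    (hK : 0 ≤ K) (h0 : S.O (u, a) ≤ K * -S.l (u, a)) : S.O (u, b) ≤ K * -S.l (u, b) := by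
  have h1 := h.lO_anti hab hI
  have ha := O_pos S (u, a)
  have hb := O_pos S (u, b)
  rw [div_le_div_iff₀ hb ha] at h1
  have h2 : S.O (u, b) * S.O (u, a) ≤ K * -S.l (u, b) * S.O (u, a) := by
    nlinarith [mul_le_mul_of_nonneg_left h1 hK, mul_le_mul_of_nonneg_left h0 hb.le]
  exact le_of_mul_le_mul_right h2 ha

/-- the bound O ≤ K (-n) propagates in u -/
lemma O_le_n (h : IsSol e S D) (hab : a ≤ b) (hI : ∀ s ∈ Icc a b, (s, v) ∈ D) {K : ℝ}
    (hK : 0 ≤ K) (h0 : S.O (a, v) ≤ K * -S.n (a, v)) : S.O (b, v) ≤ K * -S.n (b, v) := by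
  have h1 := h.nO_anti hab hI
  have ha := O_pos S (a, v)
  have hb := O_pos S (b, v)
  rw [div_le_div_iff₀ hb ha] at h1
  have h2 : S.O (b, v) * S.O (a, v) ≤ K * -S.n (b, v) * S.O (a, v) := by
    nlinarith [mul_le_mul_of_nonneg_left h1 hK, mul_le_mul_of_nonneg_left h0 hb.le]
  exact le_of_mul_le_mul_right h2 ha

/-- r decreases along a v segment which starts with l ≤ 0 -/
lemma r_anti_v (h : IsSol e S D) (hab : a ≤ b) (hI : ∀ s ∈ Icc a b, (u, s) ∈ D)
    (h0 : S.l (u, a) ≤ 0) : S.r (u, b) ≤ S.r (u, a) :=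
  anti_v (g := S.l) hab (fun s hs => (h.sol _ (hI s hs)).r_v)
    (fun _ hs => h.l_nonpos hs.1 (fun y hy => hI y ⟨hy.1, hy.2.trans hs.2⟩) h0)

/-- r decreases along a u segment which starts with n ≤ 0 -/
lemma r_anti_u (h : IsSol e S D) (hab : a ≤ b) (hI : ∀ s ∈ Icc a b, (s, v) ∈ D)
    (h0 : S.n (a, v) ≤ 0) : S.r (b, v) ≤ S.r (a, v) :=
  anti_u (g := S.n) hab (fun s hs => (h.sol _ (hI s hs)).r_u)
    (fun _ hs => h.n_nonpos hs.1 (fun y hy => hI y ⟨hy.1, hy.2.trans hs.2⟩) h0)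

/-- r increases along a v segment which ends with l > 0 -/
lemma r_mono_v (h : IsSol e S D) (hab : a ≤ b) (hI : ∀ s ∈ Icc a b, (u, s) ∈ D)
    (h0 : 0 ≤ S.l (u, b)) : S.r (u, a) ≤ S.r (u, b) :=
  mono_v (g := S.l) hab (fun s hs => (h.sol _ (hI s hs)).r_v) (fun s hs => by
    by_contra hc
    exact absurd (h.l_neg hs.2 (fun y hy => hI y ⟨hs.1.trans hy.1, hy.2⟩) (not_le.1 hc))
      (not_lt.2 h0))

/-- r increases along a u segment which ends with n > 0 -/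
lemma r_mono_u (h : IsSol e S D) (hab : a ≤ b) (hI : ∀ s ∈ Icc a b, (s, v) ∈ D)
    (h0 : 0 ≤ S.n (b, v)) : S.r (a, v) ≤ S.r (b, v) :=
  mono_u (g := S.n) hab (fun s hs => (h.sol _ (hI s hs)).r_u) (fun s hs => by
    by_contra hc
    exact absurd (h.n_neg hs.2 (fun y hy => hI y ⟨hs.1.trans hy.1, hy.2⟩) (not_le.1 hc))
      (not_lt.2 h0))

lemma int_l (h : IsSol e S D) (hab : a ≤ b) (hI : ∀ s ∈ Icc a b, (u, s) ∈ D) :
    ∫ s in a..b, S.l (u, s) = S.r (u, b) - S.r (u, a) :=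
  ftcV hab hI (fun q hq => (h.sol q hq).r_v) h.cont.l

lemma int_n (h : IsSol e S D) (hab : a ≤ b) (hI : ∀ s ∈ Icc a b, (s, v) ∈ D) :
    ∫ s in a..b, S.n (s, v) = S.r (b, v) - S.r (a, v) :=
  ftcU hab hI (fun q hq => (h.sol q hq).r_u) h.cont.n

end IsSol

end Vale.Agent.P354E
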