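import Vale.Agent.P354E.RN2

open scoped ContDiff
open MeasureTheory Set Filter Topology

namespace Vale.Agent.P354E

lemma neg_margin {K : Set P2} (hK : IsCompact K) {f : P2 → ℝ} (hf : ContinuousOn f K)
    (h : ∀ q ∈ K, f q < 0) : ∃ c, 0 < c ∧ ∀ q ∈ K, f q ≤ -c := by
  rcases K.eq_empty_or_nonempty with rfl | hne
  · exact ⟨1, one_pos, fun q hq => absurd hq (notMem_empty q)⟩
  obtain ⟨q0, hq0, hm⟩ := hK.exists_isMaxOn hne hf
  exact ⟨-f q0, neg_pos.2 (h q0 hq0), fun q hq => by rw [neg_neg]; exact hm hq⟩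

/-- the mass as a function of (e, r, l, n, w) -/
noncomputable def massF (z : ℝ × ℝ × ℝ × ℝ × ℝ) : ℝ :=
  z.2.1 / 2 * (1 + z.1 ^ 2 / z.2.1 ^ 2 + 4 * z.2.2.1 * z.2.2.2.1 / Real.exp z.2.2.2.2)

lemma mass_near {e : ℝ} {S : Fld} {K : Set P2} (h : IsSol e S K) (hK : IsCompact K) {ε : ℝ}
    (hε : 0 < ε) : ∃ η, 0 < η ∧ ∀ e' S' q, q ∈ K → |e' - e| ≤ η → dd S' S q ≤ η →
      |mass e' S' q - mass e S q| ≤ ε := by
  set Z : P2 → ℝ × ℝ × ℝ × ℝ × ℝ := fun q => (e, S.r q, S.l q, S.n q, S.w q) with hZ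
  have cZ : ContinuousOn Z K := continuousOn_const.prodMk (h.cont.r.prodMk (h.cont.l.prodMk
    (h.cont.n.prodMk h.cont.w)))
  have hc : ∀ z ∈ Z '' K, ContinuousAt massF z := by
    rintro z ⟨q, hq, rfl⟩
    have h1 : (Z q).2.1 ^ 2 ≠ 0 := pow_ne_zero 2 (h.ne q hq)
    have h2 : Real.exp (Z q).2.2.2.2 ≠ 0 := (Real.exp_pos _).ne'
    unfold massF
    fun_prop (disch := assumption)
  have hu := (hK.image_of_continuousOn cZ).uniformContinuousAt_of_continuousAt massF hc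
    (Metric.dist_mem_uniformity hε)
  obtain ⟨η, hη, hs⟩ := Metric.mem_uniformity_dist.1 hu
  refine ⟨η / 2, by positivity, fun e' S' q hq he hd => ?_⟩
  obtain ⟨a1, a2, -, a4, a5, -⟩ := dd_le hd
  have hdist : dist (Z q) (e', S'.r q, S'.l q, S'.n q, S'.w q) < η := by
    simp only [hZ, Prod.dist_eq, Real.dist_eq, max_lt_iff]
    refine ⟨?_, ?_, ?_, ?_, ?_⟩ <;> rw [abs_sub_comm] <;> linarith
  have := hs hdist ⟨q, hq, rfl⟩
  simp only [mem_ofPred_eq, Real.dist_eq] at this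
  rw [abs_sub_comm]
  exact this.le

theorem bCore (hex : BExist) (hst : BStab) : BCore := by
  intro M e0 rb V0 he hM hrb1 hrb2
  obtain ⟨S, D, hS, -, -, hdat⟩ := hex e0 (rnF M e0) (isRDat_rnF hM)
  have h : RNS M e0 S D := ⟨hM, hS.sol, hS.dom, hdat⟩
  have hall : ∀ p : P2, 0 ≤ p.1 + p.2 → p ∈ D := fun p hp => h.all_mem he hS.ext hp
  obtain ⟨V, hV0, hV, hrV⟩ := h.exists_V hall hrb1 V0
  have hVD : (V, V) ∈ D := hall (V, V) (by simp only; linarith)
  have hT : Tri (V, V) ⊆ D := hS.dom.tri _ hVD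
  have hST := hS.sol.mono hT
  obtain ⟨B1, -, hB1⟩ := bdd_Tri hS.dom hS.sol.cont.w hVD
  obtain ⟨B2, -, hB2⟩ := bdd_Tri hS.dom hS.sol.cont.l hVD
  obtain ⟨B3, -, hB3⟩ := bdd_Tri hS.dom hS.sol.cont.n hVD
  obtain ⟨B4, -, hB4⟩ := bdd_Tri hS.dom hS.sol.cont.r hVD
  set rb' := (rb + rp M e0) / 2 with hrb'
  have cl : IsClosed (Tri (V, V) ∩ S.r ⁻¹' Iic rb') :=
    hST.cont.r.preimage_isClosed_of_isClosed (isCompact_Tri _).isClosed isClosed_Iic
  have K1 : IsCompact (Tri (V, V) ∩ S.r ⁻¹' Iic rb') :=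
    (isCompact_Tri _).of_isClosed_subset cl inter_subset_left
  have K2 : IsCompact (Tri (V, V) ∩ {q | q.2 = V}) :=
    (isCompact_Tri _).inter_right (isClosed_eq continuous_snd continuous_const)
  have K3 : IsCompact (Tri (V, V) ∩ {q | q.1 = V}) :=
    (isCompact_Tri _).inter_right (isClosed_eq continuous_fst continuous_const)
  have hquad : ∀ q ∈ Tri (V, V) ∩ S.r ⁻¹' Iic rb', 0 < q.1 ∧ 0 < q.2 := fun q hq =>
    h.quad (hT hq.1) hq.1.2.2 (by have : S.r q ≤ rb' := hq.2; simp only [Prod.mk.eta]; linarith)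
  obtain ⟨c1, hc1, hn⟩ := neg_margin (K1.union K2)
    (hST.cont.n.mono (union_subset inter_subset_left inter_subset_left)) (by
      rintro q (hq | hq)
      · exact h.n_neg (hT hq.1) hq.1.2.2 (hquad q hq).2
      · exact h.n_neg (hT hq.1) hq.1.2.2 (by have : q.2 = V := hq.2; linarith))
  obtain ⟨c2, hc2, hl⟩ := neg_margin (K1.union K3)
    (hST.cont.l.mono (union_subset inter_subset_left inter_subset_left)) (by
      rintro q (hq | hq)
      · exact h.l_neg (hT hq.1) hq.1.2.2 (hquad q hq).1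
      · exact h.l_neg (hT hq.1) hq.1.2.2 (by have : q.1 = V := hq.2; linarith))
  have hrm := rm_pos he hM
  set c := min (min c1 c2) (rm M e0) / 2 with hc
  have hc0 : 0 < c := by positivity
  have hc3 : 2 * c ≤ c1 := by
    linarith [min_le_left (min c1 c2) (rm M e0), min_le_left c1 c2]
  have hc4 : 2 * c ≤ c2 := by
    linarith [min_le_left (min c1 c2) (rm M e0), min_le_right c1 c2]
  have hc5 : 2 * c ≤ rm M e0 := by linarith [min_le_right (min c1 c2) (rm M e0)]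
  set B := max (max B1 B2) (max B3 B4) with hB
  have hb1 : B1 ≤ B := (le_max_left _ _).trans (le_max_left _ _)
  have hb2 : B2 ≤ B := (le_max_right _ _).trans (le_max_left _ _)
  have hb3 : B3 ≤ B := (le_max_left _ _).trans (le_max_right _ _)
  have hb4 : B4 ≤ B := (le_max_right _ _).trans (le_max_right _ _)
  refine ⟨V, c, B + 1, hV0, hc0, fun ε hε => ?_⟩
  obtain ⟨η1, hη1, hmass⟩ := mass_near hST (isCompact_Tri _) hε
  obtain ⟨η, hη, g1, g2, g3, g4, g5, g6⟩ : ∃ η, 0 < η ∧ η ≤ η1 ∧ η ≤ ε ∧ η ≤ 1 ∧ η ≤ c ∧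
      η < rb - S.r (V, V) ∧ η < rb' - rb := by
    have p1 : 0 < (rb - S.r (V, V)) / 2 := by linarith
    have p2 : 0 < (rb' - rb) / 2 := by linarith
    refine ⟨min (min (min η1 ε) (min 1 c)) (min ((rb - S.r (V, V)) / 2) ((rb' - rb) / 2)),
      by positivity, ?_, ?_, ?_, ?_, ?_, ?_⟩
    · exact (min_le_left _ _).trans ((min_le_left _ _).trans (min_le_left _ _))
    · exact (min_le_left _ _).trans ((min_le_left _ _).trans (min_le_right _ _))
    · exact (min_le_left _ _).trans ((min_le_right _ _).trans (min_le_left _ _))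
    · exact (min_le_left _ _).trans ((min_le_right _ _).trans (min_le_right _ _))
    · exact ((min_le_right _ _).trans (min_le_left _ _)).trans_lt (by linarith)
    · exact ((min_le_right _ _).trans (min_le_right _ _)).trans_lt (by linarith)
  obtain ⟨δ, hδ, hstab⟩ := hst e0 S D (V, V) η hS.sol hS.dom hVD (by simp only; linarith) hη
  refine ⟨min δ η1, by positivity, fun e S' D' hS' he' hd => ?_⟩
  obtain ⟨hsub, hdd⟩ := hstab e S' D' hS' (he'.trans (min_le_left _ _)) (fun x hx => by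
    obtain ⟨k1, k2, k3, k4, k5, k6, k7, k8, k9⟩ := dd_eq (hdat x)
    have := (hd x hx).trans (min_le_left _ _)
    simp only [dd, k1, k2, k3, k4, k5, k6, k7, k8, k9] at this ⊢
    exact this)
  have hVV : ((V, V) : P2) ∈ Tri (V, V) := self_mem_Tri (by simp only; linarith)
  refine ⟨hsub hVV, by linarith [(abs_le.1 (dd_le (hdd _ hVV)).1).2], fun q hq => ?_⟩
  obtain ⟨a1, a2, a3, a4, a5, -, -, a8, a9⟩ := dd_le (hdd q hq)
  have hqD : (q.1, q.2) ∈ D := hT hq
  have z1 : S.p q = 0 := h.p_eq hqD hq.2.2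
  have z2 : S.pu q = 0 := (h.pz hqD hq.2.2).1
  have z3 : S.pv q = 0 := (h.pz hqD hq.2.2).2
  have z4 : mass e0 S q = M := h.mass_eq hqD hq.2.2
  have z5 : rm M e0 < S.r q := h.r_gt hqD hq.2.2
  rw [z1, sub_zero] at a3
  rw [z2, sub_zero] at a8
  rw [z3, sub_zero] at a9
  have y1 := abs_le.1 a1
  have y4 := abs_le.1 a4
  have y5 := abs_le.1 a5
  refine ⟨?_, ?_, ?_, ?_, by linarith, fun hr => ?_, fun hv => ?_, fun hu => ?_, fun ht => ?_,
    ?_, by linarith, by linarith, by linarith⟩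
  · linarith [abs_sub_abs_le_abs_sub (S'.w q) (S.w q), hB1 q hq]
  · linarith [abs_sub_abs_le_abs_sub (S'.l q) (S.l q), hB2 q hq]
  · linarith [abs_sub_abs_le_abs_sub (S'.n q) (S.n q), hB3 q hq]
  · linarith [hB4 q hq, le_abs_self (S.r q)]
  · have hq1 : q ∈ Tri (V, V) ∩ S.r ⁻¹' Iic rb' := ⟨hq, by
      show S.r q ≤ rb'
      linarith⟩
    exact ⟨by linarith [hl q (Or.inl hq1)], by linarith [hn q (Or.inl hq1)]⟩
  · linarith [hn q (Or.inr ⟨hq, hv⟩)]
  · linarith [hl q (Or.inr ⟨hq, hu⟩)]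
  · have e1 : q = (-q.2, q.2) := Prod.ext (by simp only; linarith) rfl
    have e2 := h.r_diag q.2
    rw [← e1] at e2
    have e3 : √(M ^ 2 - e0 ^ 2) ≤ rs M e0 q.2 := rs_ge q.2
    have e4 : rp M e0 = M + √(M ^ 2 - e0 ^ 2) := rfl
    linarith
  · rw [← z4]
    exact hmass e S' q hq (he'.trans (min_le_right _ _)) ((hdd q hq).trans g1)

end Vale.Agent.P354E
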