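import Vale.Agent.P354E.Calc

/-! Estimates on a quadrant whose future boundary is the bifurcate Cauchy horizon. -/

open MeasureTheory Set Filter Topology

namespace Vale.Agent.P354E.Cn

/-- continuous, nonnegative and integrable on a half line -/
structure L1 (x0 : ℝ) (G : ℝ → ℝ) : Prop where
  cont : ContinuousOn G (Ici x0)
  int : IntegrableOn G (Ici x0)
  nonneg : ∀ x, x0 ≤ x → 0 ≤ G x

lemma L1.add {x0 : ℝ} {F G : ℝ → ℝ} (h : L1 x0 F) (h' : L1 x0 G) : L1 x0 fun x => F x + G x :=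
  ⟨h.cont.add h'.cont, h.int.add h'.int, fun x hx => add_nonneg (h.nonneg x hx) (h'.nonneg x hx)⟩

lemma L1.cmul {x0 : ℝ} {F : ℝ → ℝ} (h : L1 x0 F) {c : ℝ} (hc : 0 ≤ c) : L1 x0 fun x => c * F x :=
  ⟨continuousOn_const.mul h.cont, h.int.const_mul c, fun x hx => mul_nonneg hc (h.nonneg x hx)⟩

lemma L1.ii {x0 : ℝ} {F : ℝ → ℝ} (h : L1 x0 F) {x : ℝ} (hx : x0 ≤ x) :
    IntervalIntegrable F volume x0 x :=
  (h.cont.mono Icc_subset_Ici_self).intervalIntegrable_of_Icc hx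

lemma L1.bound {x0 : ℝ} {F : ℝ → ℝ} (h : L1 x0 F) :
    ∃ I, 0 ≤ I ∧ ∀ x, x0 ≤ x → ∫ y in x0..x, F y ≤ I := by
  refine ⟨∫ y in Ici x0, F y, setIntegral_nonneg measurableSet_Ici h.nonneg, fun x hx => ?_⟩
  rw [intervalIntegral.integral_of_le hx]
  refine setIntegral_mono_set h.int ?_ (Ioc_subset_Ioi_self.trans Ioi_subset_Ici_self).eventuallyLE
  exact (ae_restrict_iff' measurableSet_Ici).2 (Eventually.of_forall h.nonneg)

lemma L1.of_bound {x0 I : ℝ} {F : ℝ → ℝ} (hc : Continuous F) (h0 : ∀ x, x0 ≤ x → 0 ≤ F x)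
    (h : ∀ x, x0 ≤ x → ∫ y in x0..x, F y ≤ I) : L1 x0 F := by
  refine ⟨hc.continuousOn, ?_, h0⟩
  rw [integrableOn_Ici_iff_integrableOn_Ioi]
  refine integrableOn_Ioi_of_intervalIntegral_norm_bounded I x0 (b := id) (l := atTop)
    (fun i => (hc.integrableOn_Icc).mono_set Ioc_subset_Icc_self) tendsto_id ?_
  filter_upwards [eventually_ge_atTop x0] with x hx
  refine le_trans (le_of_eq (intervalIntegral.integral_congr fun y hy => ?_)) (h x hx)
  rw [id, uIcc_of_le hx] at hy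
  exact Real.norm_of_nonneg (h0 y hy.1)

lemma varU {f g : P2 → ℝ} {w : ℝ → ℝ} {a b v : ℝ} (hab : a ≤ b) (hd : ∀ q, Du f q (g q))
    (hg : ContinuousOn g univ) (hw : IntervalIntegrable w volume a b)
    (h : ∀ y ∈ Icc a b, |g (y, v)| ≤ w y) : |f (b, v) - f (a, v)| ≤ ∫ y in a..b, w y := by
  rw [← ftcU hab (fun _ _ => mem_univ _) (fun q _ => hd q) hg]
  exact (intervalIntegral.abs_integral_le_integral_abs hab).trans
    (intervalIntegral.integral_mono_on hab (iiU hg hab fun _ _ => mem_univ _).abs hw h)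

lemma quad_sw {S : Fld} {u0 v0 : ℝ} (h : Quad S u0 v0) : Quad S.sw v0 u0 := by
  obtain ⟨h0, C, f, g, a1, a2, a3, a4, a5, a6, H⟩ := h
  refine ⟨by linarith, C, g, f, a2, a1, a4, a3, a6, a5, fun u v hu hv => ?_⟩
  obtain ⟨b1, b2, b3, b4, b5⟩ := H v u hv hu
  exact ⟨b2, b1, by rw [mul_comm]; exact b3, b5, b4⟩

section

variable {e c u0 v0 : ℝ} {S : Fld}

lemma r_bd (h : IsSol e S univ) (hq : Quad S u0 v0) {u v : ℝ} (hu : u0 ≤ u) (hv : v0 ≤ v) :
    S.r (u, v) ≤ S.r (u0, v0) := by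
  obtain ⟨-, C, f, g, -, -, -, -, -, -, H⟩ := hq
  exact (h.r_anti_v hv (fun _ _ => mem_univ _) (H u v0 hu le_rfl).1.le).trans
    (h.r_anti_u hu (fun _ _ => mem_univ _) (H u0 v0 le_rfl le_rfl).2.1.le)

lemma cU {f : P2 → ℝ} (hf : ContinuousOn f univ) (v : ℝ) : Continuous fun y => f (y, v) :=
  (continuousOn_univ.1 hf).comp (by fun_prop)

lemma cV {f : P2 → ℝ} (hf : ContinuousOn f univ) (u : ℝ) : Continuous fun y => f (u, y) :=
  (continuousOn_univ.1 hf).comp (by fun_prop)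

/-- l and phi_v are bounded by an integrable function of v -/
lemma half (h : IsSol e S univ) (hc : 0 < c) (hr : ∀ q : P2, 0 ≤ q.1 + q.2 → c ≤ S.r q)
    (hq : Quad S u0 v0) : ∃ G, L1 v0 G ∧ ∀ u v, u0 ≤ u → v0 ≤ v →
      |S.l (u, v)| ≤ G v ∧ |S.pv (u, v)| ≤ G v := by
  have hR := fun u v => r_bd h hq (u := u) (v := v)
  obtain ⟨h0, C, f, g, a1, a2, a3, a4, a5, a6, H⟩ := hq
  have hr' : ∀ u v, u0 ≤ u → v0 ≤ v → c ≤ S.r (u, v) := fun u v hu hv =>
    hr _ (by simp only; linarith)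
  have R0 : 0 < S.r (u0, v0) := hc.trans_le (hr' _ _ le_rfl le_rfl)
  have C0 : 0 ≤ C := by simpa using (H u0 v0 le_rfl le_rfl).2.2.2.1
  have Lf : L1 u0 f := ⟨a1, a3, a5⟩
  have Lg : L1 v0 g := ⟨a2, a4, a6⟩
  obtain ⟨I, I0, hI⟩ := Lf.bound
  have Ll : L1 v0 fun v => |S.l (u0, v)| :=
    L1.of_bound (I := S.r (u0, v0)) (cV h.cont.l u0).abs (fun _ _ => abs_nonneg _) fun v hv => by
      have h1 := h.int_l (u := u0) hv fun _ _ => mem_univ _
      have h2 : ∫ y in v0..v, |S.l (u0, y)| = ∫ y in v0..v, -S.l (u0, y) :=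
        intervalIntegral.integral_congr fun y hy => by
          rw [uIcc_of_le hv] at hy
          exact abs_of_neg (H u0 y le_rfl hy.1).1
      rw [h2, intervalIntegral.integral_neg, h1]
      linarith [hr' u0 v le_rfl hv]
  have Lp : L1 v0 fun v => |S.pv (u0, v)| :=
    L1.of_bound (I := C) (cV h.cont.pv u0).abs (fun _ _ => abs_nonneg _) fun v hv =>
      (H u0 v le_rfl hv).2.2.2.1
  obtain ⟨A, hA, A0⟩ : ∃ A, A = (1 + e ^ 2 / c ^ 2) / 4 ∧ 0 ≤ A := ⟨_, rfl, by positivity⟩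
  have L1' := ((Ll.cmul R0.le).add (Lg.cmul (mul_nonneg A0 I0))).cmul (inv_pos.2 hc).le
  have key : ∀ (z : P2 → ℝ) (B : ℝ) u v, u0 ≤ u → v0 ≤ v →
      |S.r (u, v) * z (u, v) - S.r (u0, v) * z (u0, v)| ≤ B →
      |z (u, v)| ≤ c⁻¹ * (S.r (u0, v0) * |z (u0, v)| + B) := by
    intro z B u v hu hv hB
    rw [← div_eq_inv_mul, le_div_iff₀ hc]
    have h1 := abs_sub_abs_le_abs_sub (S.r (u, v) * z (u, v)) (S.r (u0, v) * z (u0, v))
    rw [abs_mul, abs_mul, abs_of_pos (hc.trans_le (hr' u v hu hv)),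
      abs_of_pos (hc.trans_le (hr' u0 v le_rfl hv))] at h1
    have h2 := mul_le_mul_of_nonneg_right (hr' u v hu hv) (abs_nonneg (z (u, v)))
    have h3 := mul_le_mul_of_nonneg_right (hR u0 v le_rfl hv) (abs_nonneg (z (u0, v)))
    linarith
  have b1 : ∀ u v, u0 ≤ u → v0 ≤ v →
      |S.l (u, v)| ≤ c⁻¹ * (S.r (u0, v0) * |S.l (u0, v)| + A * I * g v) := by
    intro u v hu hv
    refine key S.l _ u v hu hv ((varU (w := fun y => A * g v * f y) hu
      (fun q => (h.sol q (mem_univ _)).rl_u) h.cont_H ((Lf.ii hu).const_mul _)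
      fun y hy => ?_).trans ?_)
    · have h1 := (H y v hy.1 hv).2.2.1
      have h2 := O_pos S (y, v)
      have h3 : e ^ 2 / S.r (y, v) ^ 2 ≤ e ^ 2 / c ^ 2 := by
        gcongr; exact hr' y v hy.1 hv
      have h4 : 0 ≤ e ^ 2 / S.r (y, v) ^ 2 := by positivity
      have h5 : |1 - e ^ 2 / S.r (y, v) ^ 2| ≤ 1 + e ^ 2 / c ^ 2 :=
        abs_le.2 ⟨by linarith, by linarith⟩
      have h6 := h2.le.trans h1
      rw [abs_mul, abs_neg, abs_of_pos (by positivity), hA]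
      calc _ ≤ f y * g v / 4 * (1 + e ^ 2 / c ^ 2) := by gcongr
        _ = _ := by ring
    · rw [intervalIntegral.integral_const_mul]
      have := mul_le_mul_of_nonneg_left (hI u hu) (mul_nonneg A0 (a6 v hv))
      linarith
  have L2 := ((Lp.cmul R0.le).add (L1'.cmul C0)).cmul (inv_pos.2 hc).le
  refine ⟨_, L1'.add L2, fun u v hu hv =>
    ⟨(b1 u v hu hv).trans (le_add_of_nonneg_right (L2.nonneg v hv)),
      le_trans ?_ (le_add_of_nonneg_left (L1'.nonneg v hv))⟩⟩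
  refine key S.pv _ u v hu hv ((varU
    (w := fun y => c⁻¹ * (S.r (u0, v0) * |S.l (u0, v)| + A * I * g v) * |S.pu (y, v)|) hu
    (fun q => (h.sol q (mem_univ _)).th_u) (h.cont.l.mul h.cont.pu).neg
    (((cU h.cont.pu v).abs.intervalIntegrable _ _).const_mul _) fun y hy => ?_).trans ?_)
  · rw [abs_neg, abs_mul]
    exact mul_le_mul_of_nonneg_right (b1 y v hy.1 hv) (abs_nonneg _)
  · rw [intervalIntegral.integral_const_mul, mul_comm C]
    exact mul_le_mul_of_nonneg_left (H u v hu hv).2.2.2.2 (L1'.nonneg v hv)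

/-- G3 is bounded by a product of integrable functions -/
lemma g3 (h : IsSol e S univ) (hc : 0 < c) (hr : ∀ q : P2, 0 ≤ q.1 + q.2 → c ≤ S.r q)
    (hq : Quad S u0 v0) : ∃ F G, L1 u0 F ∧ L1 v0 G ∧ ∀ u v, u0 ≤ u → v0 ≤ v →
      |S.l (u, v)| ≤ G v ∧ |G3 e S (u, v)| ≤ F u * G v := by
  obtain ⟨G, LG, hG⟩ := half h hc hr hq
  obtain ⟨F, LF, hF⟩ := half (S := S.sw) (bSym.1 e S univ h) hc
    (fun q hq => hr q.swap (by rw [add_comm]; exact hq)) (quad_sw hq)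
  obtain ⟨h0, C, f, g, a1, a2, a3, a4, a5, a6, H⟩ := hq
  have Lf : L1 u0 f := ⟨a1, a3, a5⟩
  have Lg : L1 v0 g := ⟨a2, a4, a6⟩
  refine ⟨_, _, (LF.add Lf).cmul (c := 2 + e ^ 2 / c ^ 4 + 1 / (2 * c ^ 2) + 2 / c ^ 2)
    (by positivity), LG.add Lg, fun u v hu hv =>
      ⟨(hG u v hu hv).1.trans (le_add_of_nonneg_right (a6 v hv)), ?_⟩⟩
  obtain ⟨b1, b2⟩ := hG u v hu hv
  obtain ⟨b3, b4⟩ : |S.n (u, v)| ≤ F u ∧ |S.pu (u, v)| ≤ F u := hF v u hv hu
  have b5 := (H u v hu hv).2.2.1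
  have b6 : c ≤ S.r (u, v) := hr _ (by simp only; linarith)
  have b7 := O_pos S (u, v)
  have F0 := LF.nonneg u hu
  have G0 := LG.nonneg v hv
  have f0 := a5 u hu
  have g0 := a6 v hv
  have r0 := hc.trans_le b6
  have p1 : F u * G v ≤ (F u + f u) * (G v + g v) := by gcongr <;> linarith
  have p2 : S.O (u, v) ≤ (F u + f u) * (G v + g v) := b5.trans (by gcongr <;> linarith)
  have P0 : 0 ≤ (F u + f u) * (G v + g v) := by positivity
  have d1 : |S.pu (u, v) * S.pv (u, v)| ≤ F u * G v := by rw [abs_mul]; gcongr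
  have d2 : S.O (u, v) * e ^ 2 / S.r (u, v) ^ 4 ≤ (F u + f u) * (G v + g v) * e ^ 2 / c ^ 4 := by
    gcongr
  have d3 : S.O (u, v) / (2 * S.r (u, v) ^ 2) ≤ (F u + f u) * (G v + g v) / (2 * c ^ 2) := by
    gcongr
  have d4 : |2 * S.l (u, v) * S.n (u, v) / S.r (u, v) ^ 2| ≤
      2 * ((F u + f u) * (G v + g v)) / c ^ 2 := by
    rw [abs_div, mul_assoc, abs_mul, abs_mul, abs_two, abs_of_pos (pow_pos r0 2)]
    have : |S.l (u, v)| * |S.n (u, v)| ≤ (F u + f u) * (G v + g v) :=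
      le_trans (by rw [mul_comm]; gcongr) p1
    gcongr
  have d5 : 0 ≤ S.O (u, v) * e ^ 2 / S.r (u, v) ^ 4 := by positivity
  have d6 : 0 ≤ S.O (u, v) / (2 * S.r (u, v) ^ 2) := by positivity
  have e1 : (2 + e ^ 2 / c ^ 4 + 1 / (2 * c ^ 2) + 2 / c ^ 2) * (F u + f u) * (G v + g v) =
      2 * ((F u + f u) * (G v + g v)) + (F u + f u) * (G v + g v) * e ^ 2 / c ^ 4 +
        (F u + f u) * (G v + g v) / (2 * c ^ 2) + 2 * ((F u + f u) * (G v + g v)) / c ^ 2 := by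
    ring
  have d1' := abs_le.1 d1
  have d4' := abs_le.1 d4
  rw [e1]
  unfold G3
  exact abs_le.2 ⟨by linarith, by linarith⟩

/-- the v derivatives -/
lemma half2 (h : IsSol e S univ) (hc : 0 < c) (hr : ∀ q : P2, 0 ≤ q.1 + q.2 → c ≤ S.r q)
    (hq : Quad S u0 v0) : ∃ G, L1 v0 G ∧ ∀ u v, u0 ≤ u → v0 ≤ v →
      |S.l (u, v)| ≤ G v ∧ |S.wv (u, v) - S.wv (u0, v)| ≤ G v := by
  obtain ⟨F, G, LF, LG, H⟩ := g3 h hc hr hq
  obtain ⟨I, I0, hI⟩ := LF.bound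
  refine ⟨_, LG.add (LG.cmul I0), fun u v hu hv => ⟨(H u v hu hv).1.trans
    (le_add_of_nonneg_right ((LG.cmul I0).nonneg v hv)), le_trans ?_
    (le_add_of_nonneg_left (LG.nonneg v hv))⟩⟩
  refine (varU (w := fun y => F y * G v) hu (fun q => (h.sol q (mem_univ _)).wv_u) h.cont_G3
    ((LF.ii hu).mul_const _) fun y hy => (H y v hy.1 hv).2).trans ?_
  rw [intervalIntegral.integral_mul_const]
  exact mul_le_mul_of_nonneg_right (hI u hu) (LG.nonneg v hv)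

/-- all estimates on the quadrant -/
theorem quad_est (h : IsSol e S univ) (hc : 0 < c) (hr : ∀ q : P2, 0 ≤ q.1 + q.2 → c ≤ S.r q)
    (hq : Quad S u0 v0) : ∃ K F G, L1 u0 F ∧ L1 v0 G ∧ L1 u0 (fun u => S.O (u, v0)) ∧
      L1 v0 (fun v => S.O (u0, v)) ∧ ∀ u v, u0 ≤ u → v0 ≤ v →
      c ≤ S.r (u, v) ∧ S.r (u, v) ≤ K ∧ |S.w (u, v) - S.w (u, v0) - S.w (u0, v)| ≤ K ∧
      |S.l (u, v)| ≤ G v ∧ |S.wv (u, v) - S.wv (u0, v)| ≤ G v ∧
      |S.n (u, v)| ≤ F u ∧ |S.wu (u, v) - S.wu (u, v0)| ≤ F u := by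
  obtain ⟨G, LG, hG⟩ := half2 h hc hr hq
  obtain ⟨F, LF, hF⟩ := half2 (S := S.sw) (bSym.1 e S univ h) hc
    (fun q hq => hr q.swap (by rw [add_comm]; exact hq)) (quad_sw hq)
  obtain ⟨I, I0, hI⟩ := LG.bound
  have hR := fun u v => r_bd h hq (u := u) (v := v)
  obtain ⟨h0, C, f, g, a1, a2, a3, a4, a5, a6, H⟩ := hq
  have R0 := h.pos (mem_univ (u0, v0))
  have LO : ∀ {x0 k : ℝ} {f o : ℝ → ℝ}, L1 x0 f → Continuous o → (∀ x, 0 ≤ o x) →
      (∀ x, x0 ≤ x → o x ≤ f x * k) → 0 ≤ k → L1 x0 o := by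
    intro x0 k f o Lf co o0 ho hk
    obtain ⟨J, -, hJ⟩ := Lf.bound
    refine L1.of_bound (I := J * k) co (fun x _ => o0 x) fun x hx => ?_
    refine (intervalIntegral.integral_mono_on hx (co.intervalIntegrable _ _)
      ((Lf.ii hx).mul_const k) fun y hy => ho y hy.1).trans ?_
    rw [intervalIntegral.integral_mul_const]
    exact mul_le_mul_of_nonneg_right (hJ x hx) hk
  refine ⟨S.r (u0, v0) + (I + |S.w (u0, v0)|), F, G, LF, LG,
    LO ⟨a1, a3, a5⟩ (cU h.cont.O v0) (fun _ => (O_pos _ _).le)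
      (fun u hu => (H u v0 hu le_rfl).2.2.1) (a6 v0 le_rfl),
    LO ⟨a2, a4, a6⟩ (cV h.cont.O u0) (fun _ => (O_pos _ _).le)
      (fun v hv => by rw [mul_comm]; exact (H u0 v le_rfl hv).2.2.1) (a5 u0 le_rfl),
    fun u v hu hv => ⟨hr _ (by simp only; linarith),
      (hR u v hu hv).trans (le_add_of_nonneg_right (by positivity)), ?_, (hG u v hu hv).1,
      (hG u v hu hv).2, hF v u hv hu⟩⟩
  have h1 := ftcV (u := u) hv (fun _ _ => mem_univ _) (fun q hq => (h.sol q hq).w_v) h.cont.wv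
  have h2 := ftcV (u := u0) hv (fun _ _ => mem_univ _) (fun q hq => (h.sol q hq).w_v) h.cont.wv
  have i1 := (cV h.cont.wv u).intervalIntegrable (μ := volume) v0 v
  have i2 := (cV h.cont.wv u0).intervalIntegrable (μ := volume) v0 v
  have h3 := (intervalIntegral.abs_integral_le_integral_abs hv).trans
    (intervalIntegral.integral_mono_on hv (i1.sub i2).abs (LG.ii hv)
      fun y hy => (hG u y hu hy.1).2)
  rw [intervalIntegral.integral_sub i1 i2, h1, h2] at h3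
  have h4 := abs_le.1 (h3.trans (hI v hv))
  have h5 := le_abs_self (S.w (u0, v0))
  have h6 := neg_abs_le (S.w (u0, v0))
  exact abs_le.2 ⟨by linarith, by linarith⟩

end

end Vale.Agent.P354E.Cn
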