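import Vale.Agent.P354E.Iface

/-!
The four dimensional spacetime of a solution of the reduced system on the whole plane.
-/

open scoped ContDiff
open MeasureTheory Set Filter Topology

namespace Vale.Agent.P354E

open Vale.Agent.P354n (R4 Spc On tgt co inv)

/-- the sign of the stereographic parametrisation -/
def sg (σ : Bool) : ℝ := bif σ then 1 else -1

lemma sg_sq (σ : Bool) : sg σ * sg σ = 1 := by cases σ <;> simp [sg]

/-- the inverse of the stereographic parametrisation -/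
noncomputable def sti (σ : Bool) (w : S2) : ℝ × ℝ :=
  (w.1 0 / (1 + sg σ * w.1 2), w.1 1 / (1 + sg σ * w.1 2))

/-- the image of the stereographic parametrisation -/
def src (σ : Bool) : Set S2 := {w | 1 + sg σ * w.1 2 ≠ 0}

lemma st_0 (σ : Bool) (y : ℝ × ℝ) : (st σ y).1 0 = 2 * y.1 / (1 + y.1 ^ 2 + y.2 ^ 2) := rfl
lemma st_1 (σ : Bool) (y : ℝ × ℝ) : (st σ y).1 1 = 2 * y.2 / (1 + y.1 ^ 2 + y.2 ^ 2) := rfl
lemma st_2 (σ : Bool) (y : ℝ × ℝ) :
    (st σ y).1 2 = sg σ * ((1 - y.1 ^ 2 - y.2 ^ 2) / (1 + y.1 ^ 2 + y.2 ^ 2)) := rfl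

lemma st_den (σ : Bool) (y : ℝ × ℝ) :
    1 + sg σ * (st σ y).1 2 = 2 / (1 + y.1 ^ 2 + y.2 ^ 2) := by
  have h : (1 + y.1 ^ 2 + y.2 ^ 2) ≠ 0 := by positivity
  rw [st_2, ← mul_assoc, sg_sq]
  field_simp
  ring

lemma st_src (σ : Bool) (y : ℝ × ℝ) : st σ y ∈ src σ := by
  show 1 + sg σ * (st σ y).1 2 ≠ 0
  rw [st_den]
  positivity

lemma sti_st (σ : Bool) (y : ℝ × ℝ) : sti σ (st σ y) = y := by
  have h : (1 + y.1 ^ 2 + y.2 ^ 2) ≠ 0 := by positivity
  unfold sti
  rw [st_den, st_0, st_1]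
  ext <;> simp only <;> field_simp

lemma S2_sq (w : S2) : w.1 0 ^ 2 + w.1 1 ^ 2 + w.1 2 ^ 2 = 1 := by
  have h := mem_sphere_zero_iff_norm.1 w.2
  rw [EuclideanSpace.norm_eq, Real.sqrt_eq_one, Fin.sum_univ_three] at h
  simpa only [Real.norm_eq_abs, sq_abs] using h

lemma st_sti (σ : Bool) {w : S2} (h : w ∈ src σ) : st σ (sti σ w) = w := by
  have h0 : 1 + sg σ * w.1 2 ≠ 0 := h
  have h1 := S2_sq w
  have h2 := sg_sq σ
  have h3 : 1 + (sti σ w).1 ^ 2 + (sti σ w).2 ^ 2 = 2 / (1 + sg σ * w.1 2) := by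
    simp only [sti]
    field_simp
    linear_combination h1 + w.1 2 ^ 2 * h2
  have h4 : 1 - (sti σ w).1 ^ 2 - (sti σ w).2 ^ 2 = 2 * (sg σ * w.1 2) / (1 + sg σ * w.1 2) := by
    have : 1 - (sti σ w).1 ^ 2 - (sti σ w).2 ^ 2 = 2 - (1 + (sti σ w).1 ^ 2 + (sti σ w).2 ^ 2) := by
      ring
    rw [this, h3]
    field_simp
    ring
  apply Subtype.ext
  ext i
  fin_cases i
  · show (st σ (sti σ w)).1 0 = w.1 0
    rw [st_0, h3]; simp only [sti]; field_simp
  · show (st σ (sti σ w)).1 1 = w.1 1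
    rw [st_1, h3]; simp only [sti]; field_simp
  · show (st σ (sti σ w)).1 2 = w.1 2
    rw [st_2, h3, h4]
    field_simp
    linear_combination w.1 2 * h2

lemma cont_coord (i : Fin 3) : Continuous fun w : S2 => w.1 i := by fun_prop

lemma isOpen_src (σ : Bool) : IsOpen (src σ) :=
  isOpen_ne_fun (continuous_const.add (continuous_const.mul (cont_coord 2))) continuous_const

lemma sti_cont (σ : Bool) : ContinuousOn (sti σ) (src σ) := by
  have h : Continuous fun w : S2 => 1 + sg σ * w.1 2 :=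
    continuous_const.add (continuous_const.mul (cont_coord 2))
  exact ((cont_coord 0).continuousOn.div h.continuousOn fun _ h => h).prodMk
    ((cont_coord 1).continuousOn.div h.continuousOn fun _ h => h)

/-- the stereographic parametrisation as a map to the Euclidean space -/
noncomputable def stv (σ : Bool) (y : ℝ × ℝ) : EuclideanSpace ℝ (Fin 3) := (st σ y).1

lemma stv_smooth (σ : Bool) : ContDiff ℝ ∞ (stv σ) := by
  have h : ∀ y : ℝ × ℝ, (1 + y.1 ^ 2 + y.2 ^ 2) ≠ 0 := fun y => by positivity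
  rw [contDiff_euclidean]
  intro i
  fin_cases i
  · show ContDiff ℝ ∞ fun y : ℝ × ℝ => 2 * y.1 / (1 + y.1 ^ 2 + y.2 ^ 2)
    exact ContDiff.div (by fun_prop) (by fun_prop) h
  · show ContDiff ℝ ∞ fun y : ℝ × ℝ => 2 * y.2 / (1 + y.1 ^ 2 + y.2 ^ 2)
    exact ContDiff.div (by fun_prop) (by fun_prop) h
  · show ContDiff ℝ ∞ fun y : ℝ × ℝ => sg σ * ((1 - y.1 ^ 2 - y.2 ^ 2) / (1 + y.1 ^ 2 + y.2 ^ 2))
    exact contDiff_const.mul (ContDiff.div (by fun_prop) (by fun_prop) h)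

lemma st_cont (σ : Bool) : Continuous (st σ) :=
  Continuous.subtype_mk (stv_smooth σ).continuous _

lemma src_cover (w : S2) : ∃ σ, w ∈ src σ := by
  by_cases h : 1 + w.1 2 = 0
  · refine ⟨false, ?_⟩
    show 1 + sg false * w.1 2 ≠ 0
    simp only [sg, cond_false]
    linarith
  · refine ⟨true, ?_⟩
    show 1 + sg true * w.1 2 ≠ 0
    simpa only [sg, cond_true, one_mul] using h

/-- smooth charts of the plane -/
structure PC where
  ξ : OpenPartialHomeomorph P2 P2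
  sm : ContDiffOn ℝ ∞ ξ ξ.source
  sm' : ContDiffOn ℝ ∞ ξ.symm ξ.target

/-- the identity chart -/
def PC.id : PC := ⟨OpenPartialHomeomorph.refl P2, contDiffOn_id, contDiffOn_id⟩

/-- the first two coordinates -/
def p2 (y : R4) : P2 := (y.1, y.2.1)

/-- the chart of the product of the plane and the sphere -/
noncomputable def chart (c : PC × Bool) : OpenPartialHomeomorph (P2 × S2) R4 where
  toFun p := ((c.1.ξ p.1).1, (c.1.ξ p.1).2, sti c.2 p.2)
  invFun y := (c.1.ξ.symm (p2 y), st c.2 y.2.2)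
  source := c.1.ξ.source ×ˢ src c.2
  target := {y | p2 y ∈ c.1.ξ.target}
  map_source' _ h := c.1.ξ.map_source h.1
  map_target' _ h := ⟨c.1.ξ.map_target h, st_src _ _⟩
  left_inv' _ h := Prod.ext (c.1.ξ.left_inv h.1) (st_sti _ h.2)
  right_inv' y h := by
    have h1 : c.1.ξ (c.1.ξ.symm (p2 y)) = p2 y := c.1.ξ.right_inv h
    simp only [h1, sti_st]
    rfl
  open_source := c.1.ξ.open_source.prod (isOpen_src _)
  open_target := c.1.ξ.open_target.preimage (by unfold p2; fun_prop)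
  continuousOn_toFun := by
    have h1 : ContinuousOn (fun p : P2 × S2 => c.1.ξ p.1) (c.1.ξ.source ×ˢ src c.2) :=
      c.1.ξ.continuousOn.comp continuousOn_fst fun _ h => h.1
    exact h1.fst.prodMk (h1.snd.prodMk ((sti_cont _).comp continuousOn_snd fun _ h => h.2))
  continuousOn_invFun := by
    have hp : Continuous p2 := by unfold p2; fun_prop
    have h1 : ContinuousOn (fun y : R4 => c.1.ξ.symm (p2 y)) {y | p2 y ∈ c.1.ξ.target} :=
      c.1.ξ.continuousOn_symm.comp hp.continuousOn fun _ h => h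
    have h2 : Continuous (fun y : R4 => st c.2 y.2.2) := (st_cont _).comp (by fun_prop)
    exact h1.prodMk h2.continuousOn

/-- the point of the plane with coordinates y -/
noncomputable def bq (c : PC × Bool) (y : R4) : P2 := c.1.ξ.symm (p2 y)

/-- the (u,v) components of the vector with components a -/
noncomputable def bv (c : PC × Bool) (y a : R4) : P2 := fderiv ℝ c.1.ξ.symm (p2 y) (p2 a)

/-- the conformal factor of the round metric -/
noncomputable def cf (y : R4) : ℝ := 4 / (1 + y.2.2.1 ^ 2 + y.2.2.2 ^ 2) ^ 2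

/-- the metric - O du dv + r^2 (round metric) in the chart c -/
noncomputable def gS (S : Fld) (c : PC × Bool) (y a b : R4) : ℝ :=
  -(S.O (bq c y) / 2) * ((bv c y a).1 * (bv c y b).2 + (bv c y a).2 * (bv c y b).1) +
    S.r (bq c y) ^ 2 * cf y * (a.2.2.1 * b.2.2.1 + a.2.2.2 * b.2.2.2)

/-- the vector field d_u + d_v in the chart c -/
noncomputable def XS (c : PC × Bool) (y : R4) : R4 :=
  ((fderiv ℝ c.1.ξ (bq c y) (1, 1)).1, (fderiv ℝ c.1.ξ (bq c y) (1, 1)).2, 0, 0)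

/-- the spacetime of S -/
noncomputable def sp (S : Fld) : Spc where
  pt := P2 × S2
  Chart := PC × Bool
  toE := chart
  cover p := by
    obtain ⟨σ, h⟩ := src_cover p.2
    exact ⟨(PC.id, σ), mem_univ _, h⟩
  g := gS S
  X := XS

/-- the Maxwell field of charge e in the chart c -/
noncomputable def FF (e : ℝ) (S : Fld) (c : PC × Bool) (y a b : R4) : ℝ :=
  -(e * S.O (bq c y) / (2 * S.r (bq c y) ^ 2)) *
    ((bv c y a).1 * (bv c y b).2 - (bv c y a).2 * (bv c y b).1)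

/-- the scalar field -/
def phi (S : Fld) (x : (sp S).pt) : ℝ := S.p x.1

/-- the embedding of the initial hypersurface -/
def jj (S : Fld) (z : ℝ × S2) : (sp S).pt := ((-z.1, z.1), z.2)

section
variable (S : Fld) (c : PC × Bool)

lemma sp_g : (sp S).g c = gS S c := rfl
lemma sp_X : (sp S).X c = XS c := rfl
lemma sp_on (p : P2 × S2) : On (M := sp S) c p ↔ p.1 ∈ c.1.ξ.source ∧ p.2 ∈ src c.2 := Iff.rfl
lemma sp_tgt (y : R4) : y ∈ tgt (M := sp S) c ↔ p2 y ∈ c.1.ξ.target := Iff.rfl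
lemma sp_co (p : P2 × S2) :
    co (M := sp S) c p = ((c.1.ξ p.1).1, (c.1.ξ p.1).2, sti c.2 p.2) := rfl
lemma sp_inv (y : R4) : inv (M := sp S) c y = (bq c y, st c.2 y.2.2) := rfl

end

lemma bq_id (σ : Bool) (y : R4) : bq (PC.id, σ) y = p2 y := rfl

lemma bv_id (σ : Bool) (y a : R4) : bv (PC.id, σ) y a = p2 a := by
  show fderiv ℝ (_root_.id : P2 → P2) (p2 y) (p2 a) = p2 a
  rw [fderiv_id]; rfl

lemma XS_id (σ : Bool) (y : R4) : XS (PC.id, σ) y = (1, 1, 0, 0) := by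
  have h : fderiv ℝ (PC.id).ξ (bq (PC.id, σ) y) (1, 1) = (1, 1) := by
    show fderiv ℝ (_root_.id : P2 → P2) _ (1, 1) = (1, 1)
    rw [fderiv_id]; rfl
  simp only [XS, h]

lemma gS_id (S : Fld) (σ : Bool) (y a b : R4) : gS S (PC.id, σ) y a b =
    -(S.O (p2 y) / 2) * (a.1 * b.2.1 + a.2.1 * b.1) +
      S.r (p2 y) ^ 2 * cf y * (a.2.2.1 * b.2.2.1 + a.2.2.2 * b.2.2.2) := by
  simp only [gS, bv_id, bq_id]; rfl

lemma FF_id (e : ℝ) (S : Fld) (σ : Bool) (y a b : R4) : FF e S (PC.id, σ) y a b =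
    -(e * S.O (p2 y) / (2 * S.r (p2 y) ^ 2)) * (a.1 * b.2.1 - a.2.1 * b.1) := by
  simp only [FF, bv_id, bq_id]; rfl

end Vale.Agent.P354E
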