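import Vale.Agent.P354E.Corner1
import Vale.Agent.P354E.GeoDefs
import Vale.Agent.P354G.Conn

/-! The chart in which the bifurcate Cauchy horizon is at finite coordinates. -/

open scoped ContDiff
open MeasureTheory Set Filter Topology

namespace Vale.Agent.P354E.Cn

open Vale.Agent.P354n (R4 InLp)
open Vale.Agent.P354G (LD)

/-- a coordinate on the line with derivative F, which tends to 0 at infinity -/
structure Ch (F : ℝ → ℝ) (ξ : OpenPartialHomeomorph ℝ ℝ) : Prop where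
  src : ξ.source = univ
  sm : ContDiff ℝ ∞ ξ
  der : ∀ x, HasDerivAt ξ (F x) x
  pos : ∀ x, 0 < F x
  lim : Tendsto ξ atTop (𝓝 0)

lemma exists_ch {F : ℝ → ℝ} {x0 : ℝ} (hF : ContDiff ℝ ∞ F) (hp : ∀ x, 0 < F x) (hL : L1 x0 F) :
    ∃ ξ, Ch F ξ := by
  obtain ⟨U, hU⟩ : ∃ U : ℝ → ℝ, U = fun x => (∫ y in x0..x, F y) - ∫ y in Ioi x0, F y := ⟨_, rfl⟩
  have h1 : ∀ x, HasStrictDerivAt U (F x) x := fun x => by
    rw [hU]; exact (hF.continuous.integral_hasStrictDerivAt x0 x).sub_const _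
  have h2 : StrictMono U := strictMono_of_hasDerivAt_pos (fun x => (h1 x).hasDerivAt) hp
  have h3 : IsOpenEmbedding U := .of_continuous_injective_isOpenMap
    (continuous_iff_continuousAt.2 fun x => (h1 x).hasDerivAt.continuousAt) h2.injective
    (isOpenMap_of_hasStrictDerivAt h1 fun x => (hp x).ne')
  refine ⟨h3.toOpenPartialHomeomorph U, rfl, ?_, fun x => (h1 x).hasDerivAt, hp, ?_⟩
  · change ContDiff ℝ ∞ U
    rw [contDiff_infty_iff_deriv]
    refine ⟨fun x => (h1 x).hasDerivAt.differentiableAt, ?_⟩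
    rwa [show deriv U = F from funext fun x => (h1 x).hasDerivAt.deriv]
  · change Tendsto U _ _
    have := (intervalIntegral_tendsto_integral_Ioi x0 (hL.int.mono_set Ioi_subset_Ici_self)
      tendsto_id).sub_const (∫ y in Ioi x0, F y)
    rw [sub_self] at this
    rw [hU]; exact this

namespace Ch

variable {F : ℝ → ℝ} {ξ : OpenPartialHomeomorph ℝ ℝ}

lemma mono (h : Ch F ξ) : StrictMono ξ := strictMono_of_hasDerivAt_pos h.der h.pos

lemma neg (h : Ch F ξ) (x : ℝ) : ξ x < 0 :=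
  (h.mono (lt_add_one x)).trans_le (h.mono.monotone.ge_of_tendsto h.lim _)

lemma left (h : Ch F ξ) (x : ℝ) : ξ.symm (ξ x) = x := ξ.left_inv (h.src ▸ mem_univ x)

lemma mem (h : Ch F ξ) (x : ℝ) : ξ x ∈ ξ.target := ξ.map_source (h.src ▸ mem_univ x)

lemma image (h : Ch F ξ) (x0 : ℝ) : ξ '' Ioi x0 = Ioo (ξ x0) 0 := by
  refine Subset.antisymm ?_ fun y hy => ?_
  · rintro _ ⟨x, hx, rfl⟩
    exact ⟨h.mono hx, h.neg x⟩
  · obtain ⟨x, hx1, hx2⟩ := ((h.lim.eventually (lt_mem_nhds hy.2)).and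
      (eventually_ge_atTop x0)).exists
    obtain ⟨z, hz, e⟩ := intermediate_value_Ioo hx2 h.sm.continuous.continuousOn ⟨hy.1, hx1⟩
    exact ⟨z, hz.1, e⟩

lemma inv (h : Ch F ξ) {x0 y : ℝ} (hy : y ∈ Ioo (ξ x0) 0) : y ∈ ξ.target ∧ x0 < ξ.symm y := by
  rw [← h.image] at hy
  obtain ⟨x, hx, rfl⟩ := hy
  exact ⟨h.mem x, by rwa [h.left]⟩

lemma sm' (h : Ch F ξ) : ContDiffOn ℝ ∞ ξ.symm ξ.target := fun _ hy =>
  (ξ.contDiffAt_symm_deriv (h.pos _).ne' hy (h.der _) h.sm.contDiffAt).contDiffWithinAt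

lemma der' (h : Ch F ξ) {y : ℝ} (hy : y ∈ ξ.target) : HasDerivAt ξ.symm (F (ξ.symm y))⁻¹ y :=
  ξ.hasDerivAt_symm hy (h.pos _).ne' (h.der _)

lemma top (h : Ch F ξ) {l : Filter ℝ} {x : ℝ → ℝ} (hx : Tendsto (fun t => ξ (x t)) l (𝓝 0)) :
    Tendsto x l atTop :=
  tendsto_atTop.2 fun b => (hx.eventually (lt_mem_nhds (h.neg b))).mono fun _ ht =>
    (h.mono.lt_iff_lt.1 ht).le

lemma fin (h : Ch F ξ) {l : Filter ℝ} {x : ℝ → ℝ} {y : ℝ} (hy : y ∈ ξ.target)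
    (hx : Tendsto (fun t => ξ (x t)) l (𝓝 y)) : Tendsto x l (𝓝 (ξ.symm y)) :=
  ((ξ.symm.continuousAt hy).tendsto.comp hx).congr fun _ => h.left _

/-- an integrable function in the new coordinate -/
lemma transfer (h : Ch F ξ) (hF : Continuous F) {x0 : ℝ} {G : ℝ → ℝ} (hG : L1 x0 G) :
    ∃ k : ℝ → ℝ, Measurable k ∧ (∀ y, 0 ≤ k y) ∧ IntegrableOn k (Ioo (ξ x0) 0) ∧
      ∀ y ∈ Ioo (ξ x0) 0, k y = G (ξ.symm y) * (F (ξ.symm y))⁻¹ := by
  classical
  have c1 : ContinuousOn ξ.symm (Ioo (ξ x0) 0) :=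
    ξ.continuousOn_symm.mono fun y hy => (h.inv hy).1
  have c2 : ContinuousOn (fun y => G (ξ.symm y) * (F (ξ.symm y))⁻¹) (Ioo (ξ x0) 0) :=
    (hG.cont.comp c1 fun y hy => (h.inv hy).2.le).mul
      ((hF.comp_continuousOn c1).inv₀ fun y _ => (h.pos _).ne')
  refine ⟨(Ioo (ξ x0) 0).piecewise _ 0,
    c2.measurable_piecewise continuousOn_const measurableSet_Ioo, fun y => ?_, ?_,
    fun y hy => piecewise_eq_of_mem _ _ _ hy⟩
  · by_cases hy : y ∈ Ioo (ξ x0) 0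
    · rw [piecewise_eq_of_mem _ _ _ hy]
      exact mul_nonneg (hG.nonneg _ (h.inv hy).2.le) (inv_pos.2 (h.pos _)).le
    · rw [piecewise_eq_of_notMem _ _ _ hy]; rfl
  · refine IntegrableOn.congr_fun (f := fun y => G (ξ.symm y) * (F (ξ.symm y))⁻¹) ?_
      (fun y hy => by rw [piecewise_eq_of_mem _ _ _ hy]) measurableSet_Ioo
    rw [← h.image, integrableOn_image_iff_integrableOn_abs_deriv_smul measurableSet_Ioi
      (fun x _ => (h.der x).hasDerivWithinAt) h.mono.injective.injOn]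
    refine (hG.int.mono_set Ioi_subset_Ici_self).congr_fun (fun x _ => ?_) measurableSet_Ioi
    have := (h.pos x).ne'
    simp only [h.left, abs_of_pos (h.pos x), smul_eq_mul]
    field_simp

end Ch

section

variable {F G : ℝ → ℝ} {ξ η : OpenPartialHomeomorph ℝ ℝ}

/-- the product chart -/
def pc (h : Ch F ξ) (h' : Ch G η) : PC where
  ξ := ξ.prod η
  sm := ((h.sm.comp contDiff_fst).prodMk (h'.sm.comp contDiff_snd)).contDiffOn
  sm' := (h.sm'.comp contDiffOn_fst fun _ hq => hq.1).prodMk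
    (h'.sm'.comp contDiffOn_snd fun _ hq => hq.2)

variable (h : Ch F ξ) (h' : Ch G η) (σ : Bool) {y : R4}

lemma bq_pc (y : R4) : bq (pc h h', σ) y = (ξ.symm y.1, η.symm y.2.1) := rfl

lemma bv_pc (h1 : y.1 ∈ ξ.target) (h2 : y.2.1 ∈ η.target) (a : R4) :
    bv (pc h h', σ) y a = (a.1 * (F (ξ.symm y.1))⁻¹, a.2.1 * (G (η.symm y.2.1))⁻¹) := by
  have k1 : HasFDerivAt (fun q : P2 => ξ.symm q.1) _ (p2 y) :=
    (h.der' h1).hasFDerivAt.comp (p2 y) hasFDerivAt_fst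
  have k2 : HasFDerivAt (fun q : P2 => η.symm q.2) _ (p2 y) :=
    (h'.der' h2).hasFDerivAt.comp (p2 y) hasFDerivAt_snd
  have k3 : HasFDerivAt (pc h h').ξ.symm _ (p2 y) := k1.prodMk k2
  simp only [bv]
  rw [k3.fderiv]
  rfl

lemma XS_pc (y : R4) : (XS (pc h h', σ) y).2.1 = G (η.symm y.2.1) := by
  have k1 : HasFDerivAt (fun q : P2 => ξ q.1) _ (bq (pc h h', σ) y) :=
    (h.der _).hasFDerivAt.comp _ hasFDerivAt_fst
  have k2 : HasFDerivAt (fun q : P2 => η q.2) _ (bq (pc h h', σ) y) :=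
    (h'.der _).hasFDerivAt.comp _ hasFDerivAt_snd
  have k3 : HasFDerivAt (pc h h').ξ _ (bq (pc h h', σ) y) := k1.prodMk k2
  simp only [XS]
  rw [k3.fderiv]
  exact one_mul _

lemma ld_u {f : P2 → ℝ} {d : ℝ} (h1 : y.1 ∈ ξ.target) (hf : Du f (bq (pc h h', σ) y) d) :
    LD (fun y => f (bq (pc h h', σ) y)) y P354n.du (d * (F (ξ.symm y.1))⁻¹) := by
  have k1 : HasDerivAt (fun t : ℝ => ξ.symm (y.1 + t)) (F (ξ.symm y.1))⁻¹ 0 :=
    HasDerivAt.comp_const_add y.1 0 (by rw [add_zero]; exact h.der' h1)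
  have k2 := HasDerivAt.comp_of_eq (0 : ℝ) hf k1 (by rw [add_zero]; rfl)
  refine k2.congr_of_eventuallyEq (Eventually.of_forall fun t => ?_)
  simp [bq_pc, P354n.du]

lemma ld_v {f : P2 → ℝ} {d : ℝ} (h2 : y.2.1 ∈ η.target) (hf : Dv f (bq (pc h h', σ) y) d) :
    LD (fun y => f (bq (pc h h', σ) y)) y P354n.dv (d * (G (η.symm y.2.1))⁻¹) := by
  have k1 : HasDerivAt (fun t : ℝ => η.symm (y.2.1 + t)) (G (η.symm y.2.1))⁻¹ 0 :=
    HasDerivAt.comp_const_add y.2.1 0 (by rw [add_zero]; exact h'.der' h2)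
  have k2 := HasDerivAt.comp_of_eq (0 : ℝ) hf k1 (by rw [add_zero]; rfl)
  refine k2.congr_of_eventuallyEq (Eventually.of_forall fun t => ?_)
  simp [bq_pc, P354n.dv]

lemma ld_a (f : P2 → ℝ) {a : R4} (h1 : a.1 = 0) (h2 : a.2.1 = 0) (y : R4) :
    LD (fun y => f (bq (pc h h', σ) y)) y a 0 := by
  refine (hasDerivAt_const (0 : ℝ) (f (bq (pc h h', σ) y))).congr_of_eventuallyEq
    (Eventually.of_forall fun t => ?_)
  simp [bq_pc, h1, h2]

end

end Vale.Agent.P354E.Cn
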