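import Vale.Agent.P354E.Corner2
import Vale.Agent.P354F.Cauchy
import Vale.Agent.P354F.Trans
import Vale.Agent.P354F.GIface

/-! Curves which end at the bifurcation sphere of the Cauchy horizons. -/

open scoped ContDiff
open MeasureTheory Set Filter Topology

namespace Vale.Agent.P354E.Cn

open Vale.Agent.P354n (R4 InLp IsDNBox cornerBox nullBox form EndsAt IsFutureCurve)
open Vale.Agent.P354G (LD ld_cf sa s3 s4 sd sd_pos)

/-- the coefficient of du dv in the new chart -/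
noncomputable def c3 (S : Fld) (u0 v0 : ℝ) (q : P2) : ℝ :=
  Real.exp (S.w q - S.w (q.1, v0) - S.w (u0, q.2))

/-- the coefficients of the metric -/
noncomputable def CC (S : Fld) (u0 v0 : ℝ) (c : PC × Bool) (i : ℕ) (y : R4) : ℝ :=
  if i = 0 ∨ i = 2 then S.r (bq c y) ^ 2 * cf y else if i = 3 then c3 S u0 v0 (bq c y) else 0

lemma CC_cases (S : Fld) (u0 v0 : ℝ) (c : PC × Bool) (i : ℕ) :
    CC S u0 v0 c i = (fun y => S.r (bq c y) ^ 2 * cf y) ∨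
      CC S u0 v0 c i = (fun y => c3 S u0 v0 (bq c y)) ∨ CC S u0 v0 c i = fun _ => 0 := by
  unfold CC
  by_cases h : i = 0 ∨ i = 2
  · simp [h]
  by_cases h' : i = 3 <;> simp [h, h']

lemma c3_eq (S : Fld) (u0 v0 : ℝ) (q : P2) :
    S.O q = c3 S u0 v0 q * (S.O (q.1, v0) * S.O (u0, q.2)) := by
  unfold c3 Fld.O
  rw [← Real.exp_add, ← Real.exp_add]; ring_nf

lemma cf_le (y : R4) : cf y ≤ 4 := by
  unfold cf
  exact div_le_self (by norm_num) (one_le_pow₀ (by nlinarith [sq_nonneg y.2.2.1, sq_nonneg y.2.2.2]))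

lemma sa_le (y a : R4) : |sa y a| ≤ 2 * ‖a‖ := by
  have h := sd_pos y
  have h1 : |s3 y| ≤ 1 := by
    unfold s3
    rw [abs_div, abs_of_pos h, div_le_one h, abs_le]
    unfold sd
    constructor <;> nlinarith [sq_nonneg (y.2.2.1 - 1), sq_nonneg (y.2.2.1 + 1), sq_nonneg y.2.2.2]
  have h2 : |s4 y| ≤ 1 := by
    unfold s4
    rw [abs_div, abs_of_pos h, div_le_one h, abs_le]
    unfold sd
    constructor <;> nlinarith [sq_nonneg (y.2.2.2 - 1), sq_nonneg (y.2.2.2 + 1), sq_nonneg y.2.2.1]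
  have h3 : |a.2.2.1| ≤ ‖a‖ := (norm_fst_le a.2.2).trans ((norm_snd_le a.2).trans (norm_snd_le a))
  have h4 : |a.2.2.2| ≤ ‖a‖ := (norm_snd_le a.2.2).trans ((norm_snd_le a.2).trans (norm_snd_le a))
  refine (abs_add_le _ _).trans ?_
  rw [abs_mul, abs_mul]
  linarith [mul_le_mul h1 h3 (abs_nonneg _) zero_le_one, mul_le_mul h2 h4 (abs_nonneg _) zero_le_one]

lemma norm_ang {a : R4} (h1 : a.1 = 0) (h2 : a.2.1 = 0) : ‖a‖ ^ 2 ≤ a.2.2.1 ^ 2 + a.2.2.2 ^ 2 := by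
  have h : ‖a‖ ≤ √(a.2.2.1 ^ 2 + a.2.2.2 ^ 2) := by
    simp only [Prod.norm_def, h1, h2, norm_zero, max_le_iff, Real.norm_eq_abs]
    exact ⟨Real.sqrt_nonneg _, Real.sqrt_nonneg _, Real.abs_le_sqrt (by linarith [sq_nonneg a.2.2.2]),
      Real.abs_le_sqrt (by linarith [sq_nonneg a.2.2.1])⟩
  exact (pow_le_pow_left₀ (norm_nonneg _) h 2).trans_eq (Real.sq_sqrt (by positivity))

lemma coords {x z : R4} {ρ : ℝ} (h : ‖x - z‖ < ρ) : |x.1 - z.1| < ρ ∧ |x.2.1 - z.2.1| < ρ ∧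
    |x.2.2.1 - z.2.2.1| < ρ ∧ |x.2.2.2 - z.2.2.2| < ρ := by
  simpa only [Prod.norm_def, max_lt_iff, Real.norm_eq_abs, Prod.fst_sub, Prod.snd_sub] using h

lemma cf_ge {x z : R4} {ρ : ℝ} (h : ‖x - z‖ < ρ) :
    4 / (1 + 2 * (‖z‖ + ρ) ^ 2) ^ 2 ≤ cf x := by
  have h0 : ‖x‖ ≤ ‖z‖ + ρ := by linarith [norm_sub_norm_le x z]
  have h3 : |x.2.2.1| ≤ ‖z‖ + ρ :=
    (norm_fst_le x.2.2).trans ((norm_snd_le x.2).trans ((norm_snd_le x).trans h0))
  have h4 : |x.2.2.2| ≤ ‖z‖ + ρ :=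
    (norm_snd_le x.2.2).trans ((norm_snd_le x.2).trans ((norm_snd_le x).trans h0))
  have h5 := pow_le_pow_left₀ (abs_nonneg _) h3 2
  have h6 := pow_le_pow_left₀ (abs_nonneg _) h4 2
  rw [sq_abs] at h5 h6
  unfold cf
  exact div_le_div_of_nonneg_left (by norm_num) (by positivity)
    (pow_le_pow_left₀ (by positivity) (by linarith) 2)

section

variable {e c K u0 v0 ρ : ℝ} {S : Fld} {F G : ℝ → ℝ} {ξ η : OpenPartialHomeomorph ℝ ℝ}

lemma c3_v {q : P2} (h : IsSol e S univ) :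
    Dv (c3 S u0 v0) q (c3 S u0 v0 q * (S.wv q - S.wv (u0, q.2))) := by
  have h1 : Dv (fun q : P2 => S.w (u0, q.2)) q (S.wv (u0, q.2)) := (h.sol (u0, q.2) trivial).w_v
  have h2 : Dv (fun q : P2 => S.w (q.1, v0)) q 0 := hasDerivAt_const q.2 (S.w (q.1, v0))
  exact Dv.congr_d (HasDerivAt.exp (((h.sol q trivial).w_v.sub h2).sub h1)) (by rw [sub_zero]; rfl)

lemma c3_u {q : P2} (h : IsSol e S univ) :
    Du (c3 S u0 v0) q (c3 S u0 v0 q * (S.wu q - S.wu (q.1, v0))) := by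
  have h1 : Du (fun q : P2 => S.w (q.1, v0)) q (S.wu (q.1, v0)) := (h.sol (q.1, v0) trivial).w_u
  have h2 : Du (fun q : P2 => S.w (u0, q.2)) q 0 := hasDerivAt_const q.1 (S.w (u0, q.2))
  exact Du.congr_d (HasDerivAt.exp (((h.sol q trivial).w_u.sub h1).sub h2)) (by rw [sub_zero]; rfl)

lemma bd1 {r l K g i f : ℝ} (h0 : 0 ≤ r) (h1 : r ≤ K) (h2 : |l| ≤ g) (h3 : 0 < i) (h4 : 0 < f)
    (h5 : f ≤ 4) : |2 * r * l * i * f| ≤ 8 * K * (g * i) := by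
  have h6 := (abs_nonneg _).trans h2
  have h7 := h0.trans h1
  rw [abs_mul, abs_mul, abs_mul, abs_of_pos h3, abs_of_pos h4, abs_of_nonneg (by positivity)]
  calc _ ≤ 2 * K * g * i * 4 := by gcongr
    _ = _ := by ring

lemma bd2 {a l K g i : ℝ} (h0 : 0 ≤ a) (h1 : a ≤ K) (h2 : |l| ≤ g) (h3 : 0 < i) :
    |a * l * i| ≤ K * (g * i) := by
  have h7 := h0.trans h1
  rw [abs_mul, abs_mul, abs_of_pos h3, abs_of_nonneg h0, ← mul_assoc]
  gcongr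

theorem box (h : IsSol e S univ) (hs : Smooth S univ) (hc : 0 < c) (LF : L1 u0 F) (LG : L1 v0 G)
    (H : ∀ u v, u0 ≤ u → v0 ≤ v →
      c ≤ S.r (u, v) ∧ S.r (u, v) ≤ K ∧ |S.w (u, v) - S.w (u, v0) - S.w (u0, v)| ≤ K ∧
      |S.l (u, v)| ≤ G v ∧ |S.wv (u, v) - S.wv (u0, v)| ≤ G v ∧
      |S.n (u, v)| ≤ F u ∧ |S.wu (u, v) - S.wu (u, v0)| ≤ F u)
    (hξ : Ch (fun u => S.O (u, v0)) ξ) (hη : Ch (fun v => S.O (u0, v)) η) (ρ1 : ξ u0 ≤ -ρ)
    (ρ2 : η v0 ≤ -ρ) (σ : Bool) {z : R4} (z1 : z.1 = 0) (z2 : z.2.1 = 0) :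
    ∃ K' k, IsDNBox (sp S) (pc hξ hη, σ) (CC S u0 v0 (pc hξ hη, σ)) (cornerBox z ρ) ρ K' k k := by
  obtain ⟨k1, m1, p1, i1, e1⟩ := hξ.transfer (cU h.cont.O v0) LF
  obtain ⟨k2, m2, p2', i2, e2⟩ := hη.transfer (cV h.cont.O u0) LG
  have K0 : 0 < K := hc.trans_le ((H _ _ le_rfl le_rfl).1.trans (H _ _ le_rfl le_rfl).2.1)
  have mem : ∀ x ∈ cornerBox z ρ, x.1 ∈ Ioo (ξ u0) 0 ∧ x.2.1 ∈ Ioo (η v0) 0 := fun x hx => by
    obtain ⟨a1, a2, -⟩ := coords hx.1.1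
    rw [z1, sub_zero] at a1
    rw [z2, sub_zero] at a2
    exact ⟨⟨by linarith [(abs_lt.1 a1).1], hx.2⟩, ⟨by linarith [(abs_lt.1 a2).1], hx.1.2⟩⟩
  have sub : cornerBox z ρ ⊆ {y : R4 | p2 y ∈ (pc hξ hη).ξ.target} := fun x hx =>
    ⟨(hξ.inv (mem x hx).1).1, (hη.inv (mem x hx).2).1⟩
  have hb := (P354F.bq_smoothOn (pc hξ hη, σ)).mono sub
  have sr := contDiffOn_univ.1 hs.r
  have sw := contDiffOn_univ.1 hs.w
  obtain ⟨B, hB, B0⟩ : ∃ B, B = (1 + 2 * (‖z‖ + ρ) ^ 2) ^ 2 ∧ 0 < B := ⟨_, rfl, by positivity⟩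
  have E0 := Real.exp_pos K
  have B1 : 0 < B / (4 * c ^ 2) := by positivity
  have K2 : 0 < 16 * K ^ 2 := by positivity
  refine ⟨Real.exp K + B / (4 * c ^ 2) + 16 * K ^ 2, fun y => (8 * K + Real.exp K) * (k1 y + k2 y),
    sub, fun i => ?_, fun x hx => ?_, ?_⟩
  · rcases CC_cases S u0 v0 (pc hξ hη, σ) i with h' | h' | h' <;> rw [h']
    · exact ((sr.comp_contDiffOn hb).pow 2).mul P354F.cf_smooth.contDiffOn
    · exact (((sw.comp_contDiffOn hb).sub (sw.comp_contDiffOn (hb.fst.prodMk contDiffOn_const))).sub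
        (sw.comp_contDiffOn (contDiffOn_const.prodMk hb.snd))).exp
    · exact contDiffOn_const
  · obtain ⟨t1, u1⟩ := hξ.inv (mem x hx).1
    obtain ⟨t2, u2⟩ := hη.inv (mem x hx).2
    obtain ⟨a1, a2, a3, a4, a5, a6, a7⟩ := H _ _ u1.le u2.le
    rw [← bq_pc hξ hη σ x] at a1 a2 a4 a6
    have a8 := abs_le.1 a3
    have b1 : c3 S u0 v0 (bq (pc hξ hη, σ) x) ≤ Real.exp K := Real.exp_le_exp.2 a8.2
    have b2 : Real.exp (-K) ≤ c3 S u0 v0 (bq (pc hξ hη, σ) x) := Real.exp_le_exp.2 a8.1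
    have b3 : 0 < c3 S u0 v0 (bq (pc hξ hη, σ) x) := Real.exp_pos _
    have f0 := P354G.cf_pos x
    have f1 := cf_le x
    have r0 := hc.trans_le a1
    have hf : ∀ a, form (CC S u0 v0 (pc hξ hη, σ)) x a = S.r (bq (pc hξ hη, σ) x) ^ 2 * cf x *
        (a.2.2.1 ^ 2 + a.2.2.2 ^ 2) - c3 S u0 v0 (bq (pc hξ hη, σ) x) * a.1 * a.2.1 := fun a => by
      simp [form, P354n.h1, P354n.h2, CC, P354n.c1, P354n.c2, P354n.cu, P354n.cv]
      ring
    have o1 := O_pos S (ξ.symm x.1, v0)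
    have o2 := O_pos S (u0, η.symm x.2.1)
    refine ⟨fun a => ?_, ?_, ?_, fun a h1 h2 => ⟨?_, fun i _ => ?_⟩, fun i hi => ?_, fun i _ => ?_⟩
    · rw [hf]
      change gS S _ x a a = _
      unfold gS
      rw [bv_pc hξ hη σ t1 t2, c3_eq S u0 v0 (bq _ x)]
      simp only [bq_pc]
      field_simp
      ring
    · change 0 < (XS _ x).2.1
      rw [XS_pc]; exact o2
    · change 1 ≤ _ * c3 S u0 v0 (bq (pc hξ hη, σ) x)
      calc 1 = Real.exp K * Real.exp (-K) := by rw [← Real.exp_add]; simp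
        _ ≤ _ := mul_le_mul (by linarith) b2 (Real.exp_pos _).le (by linarith)
    · have h1' : a.1 = 0 := h1
      rw [hf, h1', mul_zero, zero_mul, sub_zero]
      refine (norm_ang h1 h2).trans ?_
      rw [← mul_assoc]
      refine le_mul_of_one_le_left (by positivity) ?_
      have := cf_ge hx.1.1
      rw [← hB] at this
      calc 1 = B / (4 * c ^ 2) * (c ^ 2 * (4 / B)) := by field_simp
        _ ≤ _ := by gcongr; linarith
    · rcases CC_cases S u0 v0 (pc hξ hη, σ) i with h' | h' | h' <;> rw [h']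
      · have : S.r (bq (pc hξ hη, σ) x) ^ 2 * cf x ≤ K ^ 2 * 4 := by gcongr
        refine ⟨by rw [abs_of_pos (by positivity)]; linarith, ?_⟩
        rw [((ld_a hξ hη σ (fun q => S.r q ^ 2) h1 h2 x).mul (ld_cf x a)).deriv_eq, zero_mul,
          zero_add, abs_mul, abs_mul, abs_of_pos (by positivity), abs_of_pos (by positivity)]
        have := sa_le x a
        calc _ ≤ K ^ 2 * (2 * 4 * (2 * ‖a‖)) := by gcongr
          _ = 16 * K ^ 2 * ‖a‖ := by ring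
          _ ≤ _ := by gcongr; linarith
      · refine ⟨by rw [abs_of_pos b3]; linarith, ?_⟩
        rw [(ld_a hξ hη σ (c3 S u0 v0) h1 h2 x).deriv_eq, abs_zero]; positivity
      · refine ⟨by rw [abs_zero]; positivity, ?_⟩
        rw [(LD.const 0 x a).deriv_eq, abs_zero]; positivity
    · have e1 : CC S u0 v0 (pc hξ hη, σ) i = fun _ => 0 := by
        rcases hi with rfl | rfl <;> rfl
      have e2 : CC S u0 v0 (pc hξ hη, σ) (i + 2) = fun _ => 0 := by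
        rcases hi with rfl | rfl <;> rfl
      rw [e1, e2, (LD.const 0 x _).deriv_eq, (LD.const 0 x _).deriv_eq, sub_zero, abs_zero]
      positivity
    · have q1 := e1 _ (mem x hx).1
      have q2 := e2 _ (mem x hx).2
      have q3 := p1 x.2.1
      have q4 := p2' x.1
      have q5 := p1 x.1
      have q6 := p2' x.2.1
      have w1 : ∀ a, a ≤ 8 * K * k2 x.2.1 ∨ a ≤ Real.exp K * k2 x.2.1 →
          a ≤ (8 * K + Real.exp K) * (k1 x.2.1 + k2 x.2.1) := fun a ha =>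
        ha.elim (fun h => h.trans (by gcongr <;> linarith)) fun h => h.trans (by gcongr <;> linarith)
      have w2 : ∀ a, a ≤ 8 * K * k1 x.1 ∨ a ≤ Real.exp K * k1 x.1 →
          a ≤ (8 * K + Real.exp K) * (k1 x.1 + k2 x.1) := fun a ha =>
        ha.elim (fun h => h.trans (by gcongr <;> linarith)) fun h => h.trans (by gcongr <;> linarith)
      have sol := h.sol (bq (pc hξ hη, σ) x) trivial
      rcases CC_cases S u0 v0 (pc hξ hη, σ) i with h' | h' | h' <;> rw [h']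
      · rw [((ld_v hξ hη σ t2 sol.r_v.sq).mul (ld_cf x _)).deriv_eq,
          ((ld_u hξ hη σ t1 sol.r_u.sq).mul (ld_cf x _)).deriv_eq]
        have s1 : sa x P354n.dv = 0 := by simp [sa, P354n.dv]
        have s2 : sa x P354n.du = 0 := by simp [sa, P354n.du]
        rw [s1, s2, mul_zero, mul_zero, add_zero, add_zero]
        exact ⟨w1 _ (Or.inl (q2 ▸ bd1 r0.le a2 a4 (inv_pos.2 o2) f0 f1)),
          w2 _ (Or.inl (q1 ▸ bd1 r0.le a2 a6 (inv_pos.2 o1) f0 f1))⟩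
      · rw [(ld_v hξ hη σ t2 (c3_v h)).deriv_eq, (ld_u hξ hη σ t1 (c3_u h)).deriv_eq]
        exact ⟨w1 _ (Or.inr (q2 ▸ bd2 b3.le b1 a5 (inv_pos.2 o2))),
          w2 _ (Or.inr (q1 ▸ bd2 b3.le b1 a7 (inv_pos.2 o1)))⟩
      · rw [(LD.const 0 x _).deriv_eq, (LD.const 0 x _).deriv_eq, abs_zero]
        exact ⟨w1 _ (Or.inl (by positivity)), w2 _ (Or.inl (by positivity))⟩
  · intro f hf
    rw [or_self] at hf
    subst hf
    refine ⟨(m1.add m2).const_mul _, (memLp_one_iff_integrable.2 ?_).2⟩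
    exact ((i1.mono_set (Ioo_subset_Ioo_left ρ1)).add
      (i2.mono_set (Ioo_subset_Ioo_left ρ2))).const_mul _

lemma quad_mono (h : IsSol e S univ) {v1 : ℝ} (hq : Quad S u0 v0) (hv : v0 ≤ v1) : Quad S u0 v1 := by
  obtain ⟨h0, C, f, g, a1, a2, a3, a4, a5, a6, H⟩ := hq
  refine ⟨by linarith, C, f, g, a1, a2.mono (Ici_subset_Ici.2 hv), a3,
    a4.mono_set (Ici_subset_Ici.2 hv), a5, fun v h => a6 v (hv.trans h), fun u v hu h1 => ?_⟩
  obtain ⟨b1, b2, b3, b4, b5⟩ := H u v hu (hv.trans h1)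
  exact ⟨b1, b2, b3, (intervalIntegral.integral_mono_interval hv h1 le_rfl
    (Eventually.of_forall fun _ => abs_nonneg _)
    ((cV h.cont.pv u).abs.intervalIntegrable _ _)).trans b4, b5⟩

/-- the angular part of a curve in the quadrant converges -/
lemma ang_conv (hc : 0 < c)
    (H : ∀ u v, u0 ≤ u → v0 ≤ v → c ≤ S.r (u, v) ∧ S.w (u, v) - S.w (u, v0) - S.w (u0, v) ≤ K)
    (hξ : Ch (fun u => S.O (u, v0)) ξ) (hη : Ch (fun v => S.O (u0, v)) η) {a : ℝ → P2 × S2}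
    (ha : IsFutureCurve (sp S) 0 (Ico 0 1) a) {y1 y2 : ℝ}
    (hu : ∀ᶠ t in 𝓝[<] 1, u0 ≤ (a t).1.1) (hv : ∀ᶠ t in 𝓝[<] 1, v0 ≤ (a t).1.2)
    (h1 : Tendsto (fun t => ξ (a t).1.1) (𝓝[<] 1) (𝓝 y1))
    (h2 : Tendsto (fun t => η (a t).1.2) (𝓝[<] 1) (𝓝 y2)) :
    ∃ w : S2, Tendsto (fun t => (a t).2) (𝓝[<] 1) (𝓝 w) := by
  have h := P354F.cur_of_curve (uniqueDiffOn_Ico 0 1) Ioo_subset_Ico_self ha
  obtain ⟨a', ha'⟩ : ∃ a', a' = deriv fun s => P354F.emb (a s) := ⟨_, rfl⟩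
  rw [← ha'] at h
  obtain ⟨t0, h0, h3, h4⟩ := P354F.ev_Ioo (hu.and hv)
  have E0 := Real.exp_pos K
  obtain ⟨w, hw⟩ := P354F.conv_of_dom (W := fun t => (P354F.emb (a t)).2.2)
    (W' := fun t => (a' t).2.2)
    (f := fun t => (Real.exp K + 1) / c * (ξ (a t).1.1 + η (a t).1.2))
    (f' := fun t => (Real.exp K + 1) / c *
      (S.O ((a t).1.1, v0) * (a' t).1 + S.O (u0, (a t).1.2) * (a' t).2.1)) h3
    (fun t ht => by
      have ht' : t ∈ Ioo (0:ℝ) 1 := ⟨h0.trans_lt ht.1, ht.2⟩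
      refine ⟨h.dw ht', (((hξ.der _).comp t (h.du ht')).add
        ((hη.der _).comp t (h.dv ht'))).const_mul _, ?_⟩
      obtain ⟨k1, k2, k3⟩ := h.tl t ht'
      obtain ⟨k4, k5⟩ := H _ _ (h4 t ht).1 (h4 t ht).2
      have k6 : c3 S u0 v0 (a t).1 ≤ Real.exp K := Real.exp_le_exp.2 k5
      have k7 : -(S.O (a t).1 * (a' t).1 * (a' t).2.1) + S.r (a t).1 ^ 2 * ‖(a' t).2.2‖ ^ 2 < 0 := k1
      rw [c3_eq S u0 v0] at k7
      have o1 := mul_pos (O_pos S ((a t).1.1, v0)) k2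
      have o2 := mul_pos (O_pos S (u0, (a t).1.2)) k3
      generalize S.O ((a t).1.1, v0) = p at *
      generalize S.O (u0, (a t).1.2) = q at *
      rw [div_mul_eq_mul_div, le_div_iff₀ hc]
      refine abs_le_of_sq_le_sq' ?_ (by positivity) |>.2
      have k8 : (‖(a' t).2.2‖ * c) ^ 2 ≤ S.r (a t).1 ^ 2 * ‖(a' t).2.2‖ ^ 2 := by
        rw [mul_pow, mul_comm]
        exact mul_le_mul_of_nonneg_right (pow_le_pow_left₀ hc.le k4 2) (sq_nonneg _)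
      have k9 : c3 S u0 v0 (a t).1 * (p * (a' t).1 * (q * (a' t).2.1)) ≤
          (Real.exp K + 1) ^ 2 * (p * (a' t).1 + q * (a' t).2.1) ^ 2 :=
        mul_le_mul (by nlinarith) (by nlinarith [mul_pos o1 o2]) (mul_pos o1 o2).le (sq_nonneg _)
      rw [mul_pow (Real.exp K + 1)]
      linarith)
    ((h1.add h2).const_mul _)
  have hn : ‖w‖ = 1 := tendsto_nhds_unique hw.norm
    (tendsto_const_nhds.congr fun t => (P354F.emb_norm _).symm)
  exact ⟨⟨w, mem_sphere_zero_iff_norm.2 hn⟩, tendsto_subtype_rng.2 hw⟩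

end

theorem gCorner (h3 : P354F.GFront) : P354F.GCorner := by
  intro e S h hs ⟨⟨c, hc, hr⟩, V, uH, vH, R1, R2, B1, B2⟩ a ha hu hv
  obtain ⟨v0', hq'⟩ := R1.2.2 V R1.1
  obtain ⟨v0, hq, hv0⟩ : ∃ v0, Quad S V v0 ∧ V ≤ v0 :=
    ⟨max v0' V, quad_mono h hq' (le_max_left _ _), le_max_right _ _⟩
  obtain ⟨K, F, G, LF, LG, L1', L2', H⟩ := quad_est h hc hr hq
  have sO : ContDiff ℝ ∞ S.O := (contDiffOn_univ.1 hs.w).exp
  obtain ⟨ξ, hξ⟩ := exists_ch (sO.comp (contDiff_id.prodMk contDiff_const)) (fun _ => O_pos S _) L1'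
  obtain ⟨η, hη⟩ := exists_ch (sO.comp (contDiff_const.prodMk contDiff_id)) (fun _ => O_pos S _) L2'
  obtain ⟨ρ, ρ0, ρ1, ρ2⟩ : ∃ ρ, 0 < ρ ∧ ξ V ≤ -ρ ∧ η v0 ≤ -ρ :=
    ⟨min (-ξ V) (-η v0), lt_min (neg_pos.2 (hξ.neg _)) (neg_pos.2 (hη.neg _)),
      by linarith [min_le_left (-ξ V) (-η v0)], by linarith [min_le_right (-ξ V) (-η v0)]⟩
  have l1 := hξ.lim.comp hu
  have l2 := hη.lim.comp hv
  obtain ⟨w, hw⟩ := ang_conv hc (fun u v h1 h2 => ⟨(H u v h1 h2).1, (abs_le.1 (H u v h1 h2).2.2.1).2⟩)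
    hξ hη ha (hu.eventually (eventually_ge_atTop _)) (hv.eventually (eventually_ge_atTop _)) l1 l2
  obtain ⟨σ, hσ⟩ := src_cover w
  obtain ⟨K', k, hb⟩ := box (z := (0, 0, sti σ w)) h hs hc LF LG H hξ hη ρ1 ρ2 σ rfl rfl
  have hw' := (isOpen_src σ).mem_nhds hσ
  have l3 : Tendsto (fun t => P354n.co (M := sp S) (pc hξ hη, σ) (a t)) (𝓝[<] 1)
      (𝓝 (0, 0, sti σ w)) :=
    l1.prodMk_nhds (l2.prodMk_nhds (((sti_cont σ).continuousAt hw').tendsto.comp hw))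
  refine ⟨_, _, _, ρ, K', k, hb, rfl, rfl, ⟨?_, l3⟩, fun b hb' y hy y1 y2 y3 => ?_⟩
  · filter_upwards [hw.eventually hw', l3.eventually (Metric.ball_mem_nhds _ ρ0)] with t t1 t2
    exact ⟨⟨⟨hξ.src ▸ mem_univ _, hη.src ▸ mem_univ _⟩, t1⟩,
      ⟨by rwa [← dist_eq_norm], hη.neg _⟩, hξ.neg _⟩
  · have m1 : Tendsto (fun t => ξ (b t).1.1) (𝓝[<] 1) (𝓝 y.1) := hy.2.fst_nhds
    have m2 : Tendsto (fun t => η (b t).1.2) (𝓝[<] 1) (𝓝 y.2.1) := hy.2.snd_nhds.fst_nhds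
    obtain ⟨a1, a2, -⟩ := coords y1
    simp only [sub_zero] at a1 a2
    have y3' : y.1 + y.2.1 < 0 := y3
    rcases mul_eq_zero.1 y2 with h0 | h0
    · have h0' : y.1 = 0 := h0
      obtain ⟨t, u⟩ := hη.inv (x0 := v0) (y := y.2.1) ⟨by linarith [(abs_lt.1 a2).1], by linarith⟩
      exact P354F.front_of_sw (h3 e S.sw V vH (bSym.1 e S univ h) (bSym.2.2.2.1 S univ hs).1
        ⟨c, hc, fun q hq => hr q.swap (by rw [add_comm]; exact hq)⟩ R2 B2 _ (P354F.curve_sw hb') _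
        (by linarith [R2.1]) (hη.fin t m2) (hξ.top (h0' ▸ m1)))
    · have h0' : y.2.1 = 0 := h0
      obtain ⟨t, u⟩ := hξ.inv (x0 := V) (y := y.1) ⟨by linarith [(abs_lt.1 a1).1], by linarith⟩
      exact h3 e S V uH h hs ⟨c, hc, hr⟩ R1 B1 b hb' _ (by linarith [R1.1]) (hξ.fin t m1)
        (hη.top (h0' ▸ m2))

end Vale.Agent.P354E.Cn
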