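import Vale.Agent.P354E.Iface

open scoped ContDiff
open MeasureTheory Set Filter Topology

namespace Vale.Agent.P354E

/-- one term of wn -/
noncomputable def w1 (s : ℝ) (j : ℕ) (F : ℝ → ℝ) : ENNReal :=
  ⨆ x : ℝ, ENNReal.ofReal (√(1 + x ^ 2) ^ (s + j) * |iteratedDeriv j F x|)

lemma wn_eq (s : ℝ) (m : ℕ) (F : ℝ → ℝ) : wn s m F = ∑ j ∈ Finset.range (m + 1), w1 s j F := rfl

lemma rho_pos (x : ℝ) : 0 < √(1 + x ^ 2) := Real.sqrt_pos.2 (by positivity)

lemma one_le_rho (x : ℝ) : 1 ≤ √(1 + x ^ 2) := Real.one_le_sqrt.2 (by nlinarith [sq_nonneg x])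

lemma abs_le_rho (x : ℝ) : |x| ≤ √(1 + x ^ 2) := Real.abs_le_sqrt (by linarith)

lemma rho_le (x : ℝ) : √(1 + x ^ 2) ≤ 1 + |x| := by
  rw [Real.sqrt_le_left (by positivity)]
  nlinarith [abs_nonneg x, sq_abs x]

lemma w1_add_le (s : ℝ) (j : ℕ) {F G : ℝ → ℝ} (hF : ContDiff ℝ ∞ F) (hG : ContDiff ℝ ∞ G) :
    w1 s j (F + G) ≤ w1 s j F + w1 s j G := by
  refine iSup_le fun x => ?_
  have h1 : iteratedDeriv j (F + G) x = iteratedDeriv j F x + iteratedDeriv j G x :=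
    iteratedDeriv_add (hF.contDiffAt.of_le (by exact_mod_cast le_top))
      (hG.contDiffAt.of_le (by exact_mod_cast le_top))
  have hp : 0 ≤ √(1 + x ^ 2) ^ (s + j) := (Real.rpow_pos_of_pos (rho_pos x) _).le
  calc ENNReal.ofReal (√(1 + x ^ 2) ^ (s + j) * |iteratedDeriv j (F + G) x|)
      ≤ ENNReal.ofReal (√(1 + x ^ 2) ^ (s + j) * |iteratedDeriv j F x| +
        √(1 + x ^ 2) ^ (s + j) * |iteratedDeriv j G x|) := by
        refine ENNReal.ofReal_le_ofReal ?_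
        rw [h1, ← mul_add]
        exact mul_le_mul_of_nonneg_left (abs_add_le _ _) hp
    _ ≤ _ := by
        refine ENNReal.ofReal_add_le.trans (add_le_add ?_ ?_)
        · exact le_iSup (fun x : ℝ => ENNReal.ofReal (√(1 + x ^ 2) ^ (s + j) *
            |iteratedDeriv j F x|)) x
        · exact le_iSup (fun x : ℝ => ENNReal.ofReal (√(1 + x ^ 2) ^ (s + j) *
            |iteratedDeriv j G x|)) x

lemma w1_neg (s : ℝ) (j : ℕ) (F : ℝ → ℝ) : w1 s j (-F) = w1 s j F := by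
  unfold w1
  congr 1
  funext x
  rw [iteratedDeriv_neg, abs_neg]

lemma w1_zero (s : ℝ) (j : ℕ) : w1 s j 0 = 0 := by
  unfold w1
  simp

lemma w1_comp_neg (s : ℝ) (j : ℕ) (F : ℝ → ℝ) : w1 s j (fun x => F (-x)) = w1 s j F := by
  unfold w1
  have h : ∀ x : ℝ, |iteratedDeriv j (fun x => F (-x)) x| = |iteratedDeriv j F (-x)| := by
    intro x
    rw [iteratedDeriv_comp_neg, smul_eq_mul, abs_mul, abs_pow, abs_neg, abs_one, one_pow, one_mul]
  refine le_antisymm (iSup_le fun x => ?_) (iSup_le fun x => ?_)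
  · rw [h]
    have := le_iSup (fun x : ℝ => ENNReal.ofReal (√(1 + x ^ 2) ^ (s + j) *
      |iteratedDeriv j F x|)) (-x)
    simpa only [neg_sq] using this
  · have := le_iSup (fun x : ℝ => ENNReal.ofReal (√(1 + x ^ 2) ^ (s + j) *
      |iteratedDeriv j (fun x => F (-x)) x|)) (-x)
    rw [h, neg_neg, neg_sq] at this
    exact this

lemma wn_add_le (s : ℝ) (m : ℕ) {F G : ℝ → ℝ} (hF : ContDiff ℝ ∞ F) (hG : ContDiff ℝ ∞ G) :
    wn s m (F + G) ≤ wn s m F + wn s m G := by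
  rw [wn_eq, wn_eq, wn_eq, ← Finset.sum_add_distrib]
  exact Finset.sum_le_sum fun j _ => w1_add_le s j hF hG

lemma wn_neg (s : ℝ) (m : ℕ) (F : ℝ → ℝ) : wn s m (-F) = wn s m F := by
  rw [wn_eq, wn_eq]
  exact Finset.sum_congr rfl fun j _ => w1_neg s j F

lemma wn_zero (s : ℝ) (m : ℕ) : wn s m 0 = 0 := by
  rw [wn_eq]
  exact Finset.sum_eq_zero fun j _ => w1_zero s j

lemma wn_comp_neg (s : ℝ) (m : ℕ) (F : ℝ → ℝ) : wn s m (fun x => F (-x)) = wn s m F := by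
  rw [wn_eq, wn_eq]
  exact Finset.sum_congr rfl fun j _ => w1_comp_neg s j F

lemma wn_mono (s : ℝ) {m m' : ℕ} (h : m ≤ m') (F : ℝ → ℝ) : wn s m F ≤ wn s m' F := by
  rw [wn_eq, wn_eq]
  exact Finset.sum_le_sum_of_subset (Finset.range_mono (by omega))

lemma wn_sub_comm (s : ℝ) (m : ℕ) (F G : ℝ → ℝ) : wn s m (F - G) = wn s m (G - F) := by
  rw [← wn_neg, neg_sub]

lemma wn_tri (s : ℝ) (m : ℕ) {F G H : ℝ → ℝ} (hF : ContDiff ℝ ∞ F) (hG : ContDiff ℝ ∞ G)
    (hH : ContDiff ℝ ∞ H) : wn s m (F - H) ≤ wn s m (F - G) + wn s m (G - H) := by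
  have : F - H = (F - G) + (G - H) := by abel
  rw [this]
  exact wn_add_le s m (hF.sub hG) (hG.sub hH)

lemma w1_le_wn (s : ℝ) {j m : ℕ} (h : j ≤ m) (F : ℝ → ℝ) : w1 s j F ≤ wn s m F := by
  rw [wn_eq]
  exact Finset.single_le_sum (f := fun j => w1 s j F) (fun _ _ => zero_le)
    (Finset.mem_range.2 (by omega))

/-- pointwise bound from wn -/
lemma le_of_wn {s : ℝ} {j m : ℕ} (h : j ≤ m) {F : ℝ → ℝ} {η : ℝ} (hη : 0 ≤ η)
    (hF : wn s m F ≤ ENNReal.ofReal η) (x : ℝ) :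
    √(1 + x ^ 2) ^ (s + j) * |iteratedDeriv j F x| ≤ η := by
  have h1 : ENNReal.ofReal (√(1 + x ^ 2) ^ (s + j) * |iteratedDeriv j F x|) ≤ ENNReal.ofReal η :=
    (le_iSup (fun x : ℝ => ENNReal.ofReal (√(1 + x ^ 2) ^ (s + j) *
      |iteratedDeriv j F x|)) x).trans ((w1_le_wn s h F).trans hF)
  exact (ENNReal.ofReal_le_ofReal_iff hη).1 h1

/-- wn from pointwise bounds -/
lemma wn_le_of {s : ℝ} {m : ℕ} {F : ℝ → ℝ} {η : ℝ}
    (hF : ∀ j ≤ m, ∀ x : ℝ, √(1 + x ^ 2) ^ (s + j) * |iteratedDeriv j F x| ≤ η) :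
    wn s m F ≤ ENNReal.ofReal ((m + 1) * η) := by
  rw [wn_eq]
  calc ∑ j ∈ Finset.range (m + 1), w1 s j F
      ≤ ∑ j ∈ Finset.range (m + 1), ENNReal.ofReal η :=
        Finset.sum_le_sum fun j hj => iSup_le fun x =>
          ENNReal.ofReal_le_ofReal (hF j (by have := Finset.mem_range.1 hj; omega) x)
    _ = ENNReal.ofReal ((m + 1) * η) := by
        rw [Finset.sum_const, Finset.card_range, nsmul_eq_mul, ENNReal.ofReal_mul (by positivity)]
        congr 1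
        rw [show ((m : ℝ) + 1) = ((m + 1 : ℕ) : ℝ) by push_cast; ring, ENNReal.ofReal_natCast]

/-- smooth data -/
def Dat.Sm (d : Dat) : Prop :=
  ContDiff ℝ ∞ d.a ∧ ContDiff ℝ ∞ d.b ∧ ContDiff ℝ ∞ d.k ∧ ContDiff ℝ ∞ d.l ∧
    ContDiff ℝ ∞ d.f ∧ ContDiff ℝ ∞ d.g

lemma pm_self (om : ℝ) (m : ℕ) (d : Dat) : pm om m d d = 0 := by
  simp [pm, wn_zero]

lemma pm_comm (om : ℝ) (m : ℕ) (d d' : Dat) : pm om m d d' = pm om m d' d := by
  unfold pm
  rw [wn_sub_comm 1 m d.a, wn_sub_comm (-1) m d.b, wn_sub_comm 2 m d.k, wn_sub_comm 0 m d.l,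
    wn_sub_comm om m d.f, wn_sub_comm (om + 1) m d.g, abs_sub_comm]

lemma pm_tri (om : ℝ) (m : ℕ) {d d' d'' : Dat} (h : d.Sm) (h' : d'.Sm) (h'' : d''.Sm) :
    pm om m d d'' ≤ pm om m d d' + pm om m d' d'' := by
  unfold pm
  have e : ENNReal.ofReal |d.e - d''.e| ≤
      ENNReal.ofReal |d.e - d'.e| + ENNReal.ofReal |d'.e - d''.e| :=
    (ENNReal.ofReal_le_ofReal (abs_sub_le _ _ _)).trans ENNReal.ofReal_add_le
  have h1 := wn_tri 1 m h.1 h'.1 h''.1
  have h2 := wn_tri (-1) m h.2.1 h'.2.1 h''.2.1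
  have h3 := wn_tri 2 m h.2.2.1 h'.2.2.1 h''.2.2.1
  have h4 := wn_tri 0 m h.2.2.2.1 h'.2.2.2.1 h''.2.2.2.1
  have h5 := wn_tri om m h.2.2.2.2.1 h'.2.2.2.2.1 h''.2.2.2.2.1
  have h6 := wn_tri (om + 1) m h.2.2.2.2.2 h'.2.2.2.2.2 h''.2.2.2.2.2
  calc _ ≤ (wn 1 m (d.a - d'.a) + wn 1 m (d'.a - d''.a)) +
      (wn (-1) m (d.b - d'.b) + wn (-1) m (d'.b - d''.b)) +
      (wn 2 m (d.k - d'.k) + wn 2 m (d'.k - d''.k)) +
      (wn 0 m (d.l - d'.l) + wn 0 m (d'.l - d''.l)) +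
      (wn om m (d.f - d'.f) + wn om m (d'.f - d''.f)) +
      (wn (om + 1) m (d.g - d'.g) + wn (om + 1) m (d'.g - d''.g)) +
      (ENNReal.ofReal |d.e - d'.e| + ENNReal.ofReal |d'.e - d''.e|) := by gcongr
    _ = _ := by ring

lemma pm_mono (om : ℝ) {m m' : ℕ} (h : m ≤ m') (d d' : Dat) : pm om m d d' ≤ pm om m' d d' := by
  unfold pm
  gcongr <;> exact wn_mono _ h _

/-- the seven parts of pm -/
lemma pm_parts {om : ℝ} {m : ℕ} {d d' : Dat} {η : ENNReal} (h : pm om m d d' ≤ η) :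
    wn 1 m (d.a - d'.a) ≤ η ∧ wn (-1) m (d.b - d'.b) ≤ η ∧ wn 2 m (d.k - d'.k) ≤ η ∧
      wn 0 m (d.l - d'.l) ≤ η ∧ wn om m (d.f - d'.f) ≤ η ∧ wn (om + 1) m (d.g - d'.g) ≤ η ∧
      ENNReal.ofReal |d.e - d'.e| ≤ η := by
  unfold pm at h
  have k7 := le_add_self.trans h
  have j6 := le_self_add.trans h
  have k6 := le_add_self.trans j6
  have j5 := le_self_add.trans j6
  have k5 := le_add_self.trans j5
  have j4 := le_self_add.trans j5
  have k4 := le_add_self.trans j4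
  have j3 := le_self_add.trans j4
  have k3 := le_add_self.trans j3
  have j2 := le_self_add.trans j3
  exact ⟨le_self_add.trans j2, le_add_self.trans j2, k3, k4, k5, k6, k7⟩

variable {M e om : ℝ}

/-- the ball -/
def ball (d : Dset M e om) (m : ℕ) (ε : ENNReal) : Set (Dset M e om) := {d' | pm om m d'.1 d.1 < ε}

lemma isOpen_ball' (d : Dset M e om) (m : ℕ) (ε : ENNReal) : IsOpen (ball d m ε) :=
  TopologicalSpace.isOpen_generateFrom_of_mem ⟨d, m, ε, rfl⟩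

lemma mem_ball_self' (d : Dset M e om) (m : ℕ) {ε : ENNReal} (h : 0 < ε) : d ∈ ball d m ε := by
  show pm om m d.1 d.1 < ε
  rwa [pm_self]

lemma isOpen_iff_ball {s : Set (Dset M e om)} :
    IsOpen s ↔ ∀ d ∈ s, ∃ m ε, 0 < ε ∧ ball d m ε ⊆ s := by
  constructor
  · intro hs
    induction hs with
    | basic s hs =>
      obtain ⟨d0, m, ε, rfl⟩ := hs
      intro d hd
      have hd' : pm om m d.1 d0.1 < ε := hd
      obtain ⟨η, hη, h2⟩ := ENNReal.lt_iff_exists_add_pos_lt.1 hd'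
      refine ⟨m, η, by exact_mod_cast hη, fun d' hd'' => ?_⟩
      have h3 : pm om m d'.1 d.1 < η := hd''
      calc pm om m d'.1 d0.1 ≤ pm om m d'.1 d.1 + pm om m d.1 d0.1 :=
            pm_tri om m d'.2.smooth d.2.smooth d0.2.smooth
        _ ≤ η + pm om m d.1 d0.1 := by gcongr
        _ < ε := by rwa [add_comm]
    | univ => exact fun d _ => ⟨0, 1, one_pos, subset_univ _⟩
    | inter s t _ _ ihs iht =>
      intro d hd
      obtain ⟨m, ε, h1, h2⟩ := ihs d hd.1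
      obtain ⟨m', ε', h1', h2'⟩ := iht d hd.2
      refine ⟨max m m', min ε ε', lt_min h1 h1', fun d' hd' => ⟨h2 ?_, h2' ?_⟩⟩
      · exact ((pm_mono om (le_max_left _ _) _ _).trans_lt hd').trans_le (min_le_left _ _)
      · exact ((pm_mono om (le_max_right _ _) _ _).trans_lt hd').trans_le (min_le_right _ _)
    | sUnion S _ ih =>
      rintro d ⟨s, hs, hd⟩
      obtain ⟨m, ε, h1, h2⟩ := ih s hs d hd
      exact ⟨m, ε, h1, h2.trans (subset_sUnion_of_mem hs)⟩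
  · intro h
    refine isOpen_iff_forall_mem_open.2 fun d hd => ?_
    obtain ⟨m, ε, h1, h2⟩ := h d hd
    exact ⟨ball d m ε, h2, isOpen_ball' d m ε, mem_ball_self' d m h1⟩

/-- a positive real radius below a positive extended radius -/
lemma exists_real_lt {ε : ENNReal} (h : 0 < ε) : ∃ η : ℝ, 0 < η ∧ ENNReal.ofReal η < ε := by
  obtain ⟨η, h1, h2⟩ := ENNReal.lt_iff_exists_real_btwn.1 h
  exact ⟨η, ENNReal.ofReal_pos.1 h2.1, h2.2⟩

/-- reflected data -/
def Dat.fl (d : Dat) : Dat where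
  a x := d.a (-x)
  b x := d.b (-x)
  k x := d.k (-x)
  l x := d.l (-x)
  f x := d.f (-x)
  g x := d.g (-x)
  e := d.e

/-- time reversed data -/
def Dat.rv (d : Dat) : Dat where
  a := d.a
  b := d.b
  k := -d.k
  l := -d.l
  f := d.f
  g := -d.g
  e := d.e

lemma fl_fl (d : Dat) : d.fl.fl = d := by
  cases d
  simp [Dat.fl]

lemma rv_rv (d : Dat) : d.rv.rv = d := by
  cases d
  simp [Dat.rv]

lemma rn_fl (M e : ℝ) : (rn M e).fl = rn M e := by
  simp [Dat.fl, rn]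

lemma rn_rv (M e : ℝ) : (rn M e).rv = rn M e := by
  simp only [Dat.rv, rn]
  congr 1 <;> funext x <;> simp

lemma pm_fl (om : ℝ) (m : ℕ) (d d' : Dat) : pm om m d.fl d'.fl = pm om m d d' := by
  unfold pm
  rw [← wn_comp_neg 1 m (d.a - d'.a), ← wn_comp_neg (-1) m (d.b - d'.b),
    ← wn_comp_neg 2 m (d.k - d'.k), ← wn_comp_neg 0 m (d.l - d'.l),
    ← wn_comp_neg om m (d.f - d'.f), ← wn_comp_neg (om + 1) m (d.g - d'.g)]
  rfl

lemma pm_rv (om : ℝ) (m : ℕ) (d d' : Dat) : pm om m d.rv d'.rv = pm om m d d' := by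
  unfold pm
  rw [← wn_neg 2 m (d.k - d'.k), ← wn_neg 0 m (d.l - d'.l), ← wn_neg (om + 1) m (d.g - d'.g)]
  simp only [Dat.rv, neg_sub_neg, neg_sub]

lemma deriv_cneg (F : ℝ → ℝ) (x : ℝ) : deriv (fun y => F (-y)) x = -deriv F (-x) :=
  deriv_comp_neg F x

lemma IsData.fl {d : Dat} (h : IsData M e om d) : IsData M e om d.fl := by
  have hn : ContDiff ℝ ∞ (fun x : ℝ => -x) := contDiff_neg
  obtain ⟨h1, h2, h3, h4, h5, h6⟩ := h.smooth
  have eb : deriv d.fl.b = fun x => -deriv d.b (-x) := funext fun x => deriv_cneg d.b x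
  have ea : deriv d.fl.a = fun x => -deriv d.a (-x) := funext fun x => deriv_cneg d.a x
  have ef : deriv d.fl.f = fun x => -deriv d.f (-x) := funext fun x => deriv_cneg d.f x
  have ebb : ∀ x, deriv (deriv d.fl.b) x = deriv (deriv d.b) (-x) := by
    intro x
    rw [eb]
    have : (fun x => -deriv d.b (-x)) = fun x => (-deriv d.b) (-x) := rfl
    rw [this, deriv_cneg, deriv.neg, neg_neg]
  refine ⟨⟨h1.comp hn, h2.comp hn, h3.comp hn, h4.comp hn, h5.comp hn, h6.comp hn⟩,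
    fun x => h.pos (-x), fun m => ?_, fun x => ?_, fun x => ?_⟩
  · rw [← rn_fl, pm_fl]
    exact h.finite m
  · have := h.hamilton (-x)
    unfold Dat.scal Dat.trK Dat.sqK at this ⊢
    rw [ebb, eb, ea, ef]
    simp only [Dat.fl]
    rw [neg_sq, neg_sq, neg_mul_neg]
    exact this
  · have := h.momentum (-x)
    have e1 : deriv (fun y => d.fl.k y / d.fl.a y) x = -deriv (fun y => d.k y / d.a y) (-x) :=
      deriv_cneg (fun y => d.k y / d.a y) x
    have e2 : deriv d.fl.trK x = -deriv d.trK (-x) := deriv_cneg d.trK x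
    unfold Dat.divK at this ⊢
    rw [e1, e2, eb, ef]
    simp only [Dat.fl]
    linear_combination -this

lemma IsData.rv {d : Dat} (h : IsData M e om d) : IsData M e om d.rv := by
  obtain ⟨h1, h2, h3, h4, h5, h6⟩ := h.smooth
  refine ⟨⟨h1, h2, h3.neg, h4.neg, h5, h6.neg⟩, h.pos, fun m => ?_, fun x => ?_, fun x => ?_⟩
  · rw [← rn_rv, pm_rv]
    exact h.finite m
  · have := h.hamilton x
    unfold Dat.scal Dat.trK Dat.sqK at this ⊢
    simp only [Dat.rv, Pi.neg_apply]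
    linear_combination this
  · have := h.momentum x
    have e1 : (fun y => d.rv.k y / d.rv.a y) = -fun y => d.k y / d.a y := by
      funext y
      simp only [Dat.rv, Pi.neg_apply]
      ring
    have e2 : d.rv.trK = -d.trK := by
      funext y
      simp only [Dat.trK, Dat.rv, Pi.neg_apply]
      ring
    unfold Dat.divK at this ⊢
    rw [e1, e2, deriv.neg, deriv.neg]
    simp only [Dat.rv, Pi.neg_apply]
    linear_combination -this

/-- the reflection on the data space -/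
def flD (d : Dset M e om) : Dset M e om := ⟨d.1.fl, d.2.fl⟩
/-- the time reversal on the data space -/
def rvD (d : Dset M e om) : Dset M e om := ⟨d.1.rv, d.2.rv⟩

lemma flD_flD (d : Dset M e om) : flD (flD d) = d := Subtype.ext (fl_fl d.1)
lemma rvD_rvD (d : Dset M e om) : rvD (rvD d) = d := Subtype.ext (rv_rv d.1)

lemma continuous_of_iso {T : Dset M e om → Dset M e om}
    (h : ∀ m d d', pm om m (T d).1 (T d').1 = pm om m d.1 d'.1) : Continuous T := by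
  refine continuous_def.2 fun s hs => isOpen_iff_ball.2 fun d hd => ?_
  obtain ⟨m, ε, h1, h2⟩ := isOpen_iff_ball.1 hs (T d) hd
  refine ⟨m, ε, h1, fun d' hd' => h2 ?_⟩
  show pm om m (T d').1 (T d).1 < ε
  rw [h]
  exact hd'

lemma continuous_flD : Continuous (flD : Dset M e om → Dset M e om) :=
  continuous_of_iso fun m d d' => pm_fl om m d.1 d'.1

lemma continuous_rvD : Continuous (rvD : Dset M e om → Dset M e om) :=
  continuous_of_iso fun m d d' => pm_rv om m d.1 d'.1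

end Vale.Agent.P354E
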