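import Vale.Agent.P354E.DRn

open scoped ContDiff
open MeasureTheory Set Filter Topology

namespace Vale.Agent.P354E.Dt

abbrev J9 : Type := ℝ × ℝ × ℝ × ℝ × ℝ × ℝ × ℝ × ℝ × ℝ

/-- the jet of the data -/
noncomputable def jet (d : Dat) (x : ℝ) : J9 :=
  (d.a x, deriv d.a x, d.b x, deriv d.b x, d.k x, d.l x, d.f x, deriv d.f x, d.g x)

/-- the reduced data as a function of the jet -/
noncomputable def Phi (z : J9) : J9 :=
  (√z.2.2.1, Real.log z.1, z.2.2.2.2.2.2.1,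
    (z.2.2.2.1 / (2 * √z.2.2.1) + √z.1 * z.2.2.2.2.2.1 / √z.2.2.1) / 2,
    (-(z.2.2.2.1 / (2 * √z.2.2.1)) + √z.1 * z.2.2.2.2.2.1 / √z.2.2.1) / 2,
    (-(z.2.1 / z.1) + 2 * z.2.2.2.2.1 / √z.1) / 2, (z.2.1 / z.1 + 2 * z.2.2.2.2.1 / √z.1) / 2,
    (-z.2.2.2.2.2.2.2.1 + √z.1 * z.2.2.2.2.2.2.2.2) / 2,
    (z.2.2.2.2.2.2.2.1 + √z.1 * z.2.2.2.2.2.2.2.2) / 2)

lemma Phi_cont {z : J9} (h1 : 0 < z.1) (h2 : 0 < z.2.2.1) : ContinuousAt Phi z := by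
  have a1 : √z.1 ≠ 0 := (Real.sqrt_pos.2 h1).ne'
  have a2 : √z.2.2.1 ≠ 0 := (Real.sqrt_pos.2 h2).ne'
  have a3 : 2 * √z.2.2.1 ≠ 0 := mul_ne_zero two_ne_zero a2
  have a4 : z.1 ≠ 0 := h1.ne'
  unfold Phi
  fun_prop (disch := assumption)

lemma dist_J9 {z z' : J9} {ε : ℝ} : dist z z' ≤ ε ↔ |z.1 - z'.1| ≤ ε ∧ |z.2.1 - z'.2.1| ≤ ε ∧
    |z.2.2.1 - z'.2.2.1| ≤ ε ∧ |z.2.2.2.1 - z'.2.2.2.1| ≤ ε ∧ |z.2.2.2.2.1 - z'.2.2.2.2.1| ≤ ε ∧
    |z.2.2.2.2.2.1 - z'.2.2.2.2.2.1| ≤ ε ∧ |z.2.2.2.2.2.2.1 - z'.2.2.2.2.2.2.1| ≤ ε ∧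
    |z.2.2.2.2.2.2.2.1 - z'.2.2.2.2.2.2.2.1| ≤ ε ∧
    |z.2.2.2.2.2.2.2.2 - z'.2.2.2.2.2.2.2.2| ≤ ε := by
  simp only [Prod.dist_eq, max_le_iff, Real.dist_eq]

lemma dd_le (d d' : Dat) (x : ℝ) :
    dd (red d') (red d) (-x, x) ≤ 9 * dist (Phi (jet d' x)) (Phi (jet d x)) := by
  obtain ⟨a1, a2, a3, a4, a5, a6, a7, a8, a9⟩ :=
    dist_J9.1 (le_refl (dist (Phi (jet d' x)) (Phi (jet d x))))
  have : dd (red d') (red d) (-x, x) = |(Phi (jet d' x)).1 - (Phi (jet d x)).1| +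
      |(Phi (jet d' x)).2.1 - (Phi (jet d x)).2.1| +
      |(Phi (jet d' x)).2.2.1 - (Phi (jet d x)).2.2.1| +
      |(Phi (jet d' x)).2.2.2.1 - (Phi (jet d x)).2.2.2.1| +
      |(Phi (jet d' x)).2.2.2.2.1 - (Phi (jet d x)).2.2.2.2.1| +
      |(Phi (jet d' x)).2.2.2.2.2.1 - (Phi (jet d x)).2.2.2.2.2.1| +
      |(Phi (jet d' x)).2.2.2.2.2.2.1 - (Phi (jet d x)).2.2.2.2.2.2.1| +
      |(Phi (jet d' x)).2.2.2.2.2.2.2.1 - (Phi (jet d x)).2.2.2.2.2.2.2.1| +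
      |(Phi (jet d' x)).2.2.2.2.2.2.2.2 - (Phi (jet d x)).2.2.2.2.2.2.2.2| := rfl
  linarith

lemma loc_bd {s R η x : ℝ} {j m : ℕ} (hs : -1 ≤ s) (hj : j ≤ m) {F : ℝ → ℝ} (hη : 0 ≤ η)
    (hF : wn s m F ≤ ENNReal.ofReal η) (hx : x ∈ Icc (-R) R) :
    |iteratedDeriv j F x| ≤ (1 + R) * η := by
  have h1 := le_of_wn hj hη hF x
  have h2 : √(1 + x ^ 2) ^ (-1 : ℝ) ≤ √(1 + x ^ 2) ^ (s + j) :=
    Real.rpow_le_rpow_of_exponent_le (one_le_rho x) (by linarith [Nat.cast_nonneg (α := ℝ) j])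
  rw [Real.rpow_neg_one] at h2
  have h3 : √(1 + x ^ 2) ≤ 1 + R := (rho_le x).trans (by linarith [abs_le.2 hx])
  have h4 := rho_pos x
  have h5 : (√(1 + x ^ 2))⁻¹ * |iteratedDeriv j F x| ≤ η :=
    (mul_le_mul_of_nonneg_right h2 (abs_nonneg _)).trans h1
  rw [inv_mul_le_iff₀ h4] at h5
  exact h5.trans (mul_le_mul_of_nonneg_right h3 hη)

lemma it1_sub {F G : ℝ → ℝ} (hF : ContDiff ℝ ∞ F) (hG : ContDiff ℝ ∞ G) (x : ℝ) :
    iteratedDeriv 1 (F - G) x = deriv F x - deriv G x := by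
  rw [iteratedDeriv_one]
  exact ((hd hF x).sub (hd hG x)).deriv

lemma jet_cont {d : Dat} (h : d.Sm) : Continuous (jet d) := by
  obtain ⟨h1, h2, h3, h4, h5, h6⟩ := h
  exact h1.continuous.prodMk ((cd_deriv h1).continuous.prodMk (h2.continuous.prodMk
    ((cd_deriv h2).continuous.prodMk (h3.continuous.prodMk (h4.continuous.prodMk
    (h5.continuous.prodMk ((cd_deriv h5).continuous.prodMk h6.continuous)))))))

theorem dCont : DCont := by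
  intro M e om d R δ hom hδ
  have hK : IsCompact (jet d.1 '' Icc (-R) R) := isCompact_Icc.image (jet_cont d.2.smooth)
  have h1 := hK.uniformContinuousAt_of_continuousAt Phi (r := {p | dist p.1 p.2 < δ / 9})
    (by
      rintro _ ⟨x, -, rfl⟩
      exact Phi_cont (d.2.pos x).1 (d.2.pos x).2) (Metric.dist_mem_uniformity (by linarith))
  obtain ⟨γ, hγ, h2⟩ := Metric.mem_uniformity_dist.1 h1
  have hR : 0 < 1 + |R| := by positivity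
  have hη : 0 < min δ (γ / 2 / (1 + |R|)) := lt_min hδ (by positivity)
  refine ⟨ENNReal.ofReal (min δ (γ / 2 / (1 + |R|))), ENNReal.ofReal_pos.2 hη, fun d' hd' => ?_⟩
  obtain ⟨b1, b2, b3, b4, b5, b6, b7⟩ := pm_parts (le_of_lt hd')
  refine ⟨((ENNReal.ofReal_le_ofReal_iff hη.le).1 b7).trans (min_le_left _ _), fun x hx => ?_⟩
  have hx' : x ∈ Icc (-|R|) |R| := ⟨by linarith [le_abs_self R, hx.1], hx.2.trans (le_abs_self R)⟩
  have hb : (1 + |R|) * min δ (γ / 2 / (1 + |R|)) ≤ γ / 2 := by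
    have := mul_le_mul_of_nonneg_left (min_le_right δ (γ / 2 / (1 + |R|))) hR.le
    rwa [mul_div_cancel₀ _ hR.ne'] at this
  obtain ⟨s1, s2, s3, s4, s5, s6⟩ := d.2.smooth
  obtain ⟨t1, t2, t3, t4, t5, t6⟩ := d'.2.smooth
  have c1 := (loc_bd (j := 0) (by norm_num) (by norm_num) hη.le b1 hx').trans hb
  have c2 := (loc_bd (j := 1) (by norm_num) (by norm_num) hη.le b1 hx').trans hb
  have c3 := (loc_bd (j := 0) (by norm_num) (by norm_num) hη.le b2 hx').trans hb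
  have c4 := (loc_bd (j := 1) (by norm_num) (by norm_num) hη.le b2 hx').trans hb
  have c5 := (loc_bd (j := 0) (by norm_num) (by norm_num) hη.le b3 hx').trans hb
  have c6 := (loc_bd (j := 0) (by norm_num) (by norm_num) hη.le b4 hx').trans hb
  have c7 := (loc_bd (j := 0) (by linarith) (by norm_num) hη.le b5 hx').trans hb
  have c8 := (loc_bd (j := 1) (by linarith) (by norm_num) hη.le b5 hx').trans hb
  have c9 := (loc_bd (j := 0) (by linarith) (by norm_num) hη.le b6 hx').trans hb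
  rw [it1_sub t1 s1] at c2
  rw [it1_sub t2 s2] at c4
  rw [it1_sub t5 s5] at c8
  rw [iteratedDeriv_zero] at c1 c3 c5 c6 c7 c9
  have c : dist (jet d'.1 x) (jet d.1 x) ≤ γ / 2 := dist_J9.2 ⟨c1, c2, c3, c4, c5, c6, c7, c8, c9⟩
  have := h2 (a := jet d.1 x) (b := jet d'.1 x) (by rw [dist_comm]; linarith) ⟨x, hx, rfl⟩
  have h3 : dist (Phi (jet d.1 x)) (Phi (jet d'.1 x)) < δ / 9 := this
  rw [dist_comm] at h3
  linarith [dd_le d.1 d'.1 x]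

end Vale.Agent.P354E.Dt
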