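import Vale.Agent.P354E.Omega

open scoped ContDiff
open MeasureTheory Set Filter Topology

namespace Vale.Agent.P354E

variable {M e : ℝ}

lemma rn_sig (hM : |e| < M) : 0 < M ^ 2 - e ^ 2 := by
  have h0 := abs_nonneg e
  have h1 : |e| ^ 2 = e ^ 2 := sq_abs e
  nlinarith

lemma rn_Mpos (hM : |e| < M) : 0 < M := (abs_nonneg e).trans_lt hM

lemma rn_arg (hM : |e| < M) (x : ℝ) : 0 < x ^ 2 + M ^ 2 - e ^ 2 := by
  have := rn_sig hM
  nlinarith [sq_nonneg x]

/-- the square root in the Reissner-Nordstroem data -/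
noncomputable def rs (M e x : ℝ) : ℝ := √(x ^ 2 + M ^ 2 - e ^ 2)

lemma rs_pos (hM : |e| < M) (x : ℝ) : 0 < rs M e x := Real.sqrt_pos.2 (rn_arg hM x)

lemma rs_sq (hM : |e| < M) (x : ℝ) : rs M e x ^ 2 = x ^ 2 + M ^ 2 - e ^ 2 :=
  Real.sq_sqrt (rn_arg hM x).le

lemma rs_neg (x : ℝ) : rs M e (-x) = rs M e x := by simp [rs]

lemma rs_ge (x : ℝ) : √(M ^ 2 - e ^ 2) ≤ rs M e x :=
  Real.sqrt_le_sqrt (by nlinarith [sq_nonneg x])

lemma abs_le_rs (hM : |e| < M) (x : ℝ) : |x| ≤ rs M e x :=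
  Real.abs_le_sqrt (by linarith [rn_sig hM])

lemma rs_deriv (hM : |e| < M) (x : ℝ) : HasDerivAt (rs M e) (x / rs M e x) x := by
  have h1 : HasDerivAt (fun x : ℝ => x ^ 2 + M ^ 2 - e ^ 2) (2 * x) x := by
    simpa using ((hasDerivAt_pow 2 x).add_const (M ^ 2)).sub_const (e ^ 2)
  have h2 := h1.sqrt (rn_arg hM x).ne'
  have h3 := rs_pos hM x
  have e1 : 2 * x / (2 * √(x ^ 2 + M ^ 2 - e ^ 2)) = x / rs M e x := by
    unfold rs at h3 ⊢
    field_simp
  rw [e1] at h2
  exact h2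

lemma rs_smooth (hM : |e| < M) : ContDiff ℝ ∞ (rs M e) := by
  have h1 : ContDiff ℝ ∞ (fun x : ℝ => x ^ 2 + M ^ 2 - e ^ 2) := by fun_prop
  exact h1.sqrt (fun x => (rn_arg hM x).ne')

lemma rm_pos (he : e ≠ 0) (hM : |e| < M) : 0 < rm M e := by
  have h1 : √(M ^ 2 - e ^ 2) < M := by
    rw [Real.sqrt_lt' (rn_Mpos hM)]
    have : 0 < e ^ 2 := by positivity
    linarith
  unfold rm; linarith

lemma rm_lt (hM : |e| < M) : rm M e < M := by
  have := Real.sqrt_pos.2 (rn_sig hM)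
  unfold rm; linarith

lemma lt_rp (hM : |e| < M) : M < rp M e := by
  have := Real.sqrt_pos.2 (rn_sig hM)
  unfold rp; linarith

lemma rp_rm (hM : |e| < M) (r : ℝ) :
    (r - rp M e) * (r - rm M e) = r ^ 2 - 2 * M * r + e ^ 2 := by
  have := Real.sq_sqrt (rn_sig hM).le
  unfold rp rm
  nlinarith

lemma rnF_r (q : P2) : (rnF M e).r q = M + rs M e q.2 := rfl
lemma rnF_l (q : P2) : (rnF M e).l q = q.2 / (2 * rs M e q.2) := rfl
lemma rnF_n (q : P2) : (rnF M e).n q = -(q.2 / (2 * rs M e q.2)) := rfl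

lemma rnF_w (hM : |e| < M) (q : P2) :
    (rnF M e).w q = 2 * Real.log (M + rs M e q.2) - 2 * Real.log (rs M e q.2) := by
  have h1 := rs_pos hM q.2
  have h2 := rn_Mpos hM
  have h3 : (rnF M e).w q = Real.log ((M + rs M e q.2) ^ 2 / (q.2 ^ 2 + M ^ 2 - e ^ 2)) := rfl
  rw [h3, ← rs_sq hM, Real.log_div (by positivity) (by positivity), Real.log_pow, Real.log_pow]
  norm_num

lemma rnF_O (hM : |e| < M) (q : P2) :
    (rnF M e).O q = (M + rs M e q.2) ^ 2 / rs M e q.2 ^ 2 := by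
  have h1 := rs_pos hM q.2
  have h2 := rn_Mpos hM
  have h3 : (rnF M e).w q = Real.log ((M + rs M e q.2) ^ 2 / (q.2 ^ 2 + M ^ 2 - e ^ 2)) := rfl
  unfold Fld.O
  rw [h3, ← rs_sq hM, Real.exp_log (by positivity)]

lemma rnF_wv (hM : |e| < M) (q : P2) : (rnF M e).wv q =
    q.2 / ((M + rs M e q.2) * rs M e q.2) - q.2 / rs M e q.2 ^ 2 := by
  rw [rs_sq hM]; rfl

lemma rnF_wu (hM : |e| < M) (q : P2) : (rnF M e).wu q =
    -(q.2 / ((M + rs M e q.2) * rs M e q.2) - q.2 / rs M e q.2 ^ 2) := by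
  rw [rs_sq hM]; rfl

lemma rnF_G1 (hM : |e| < M) (q : P2) : G1 e (rnF M e) q =
    -(M * (M + rs M e q.2) - e ^ 2) / (2 * rs M e q.2 ^ 2 * (M + rs M e q.2)) := by
  have h1 := rs_pos hM q.2
  have h2 := rn_Mpos hM
  have h3 := rs_sq hM q.2
  have h4 : e ^ 2 = q.2 ^ 2 + M ^ 2 - rs M e q.2 ^ 2 := by linarith
  unfold G1
  rw [rnF_O hM, rnF_r, rnF_l, rnF_n]
  generalize rs M e q.2 = s at *
  rw [h4]
  field_simp
  ring

lemma rnF_mass (hM : |e| < M) (q : P2) : mass e (rnF M e) q = M := by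
  have h1 := rs_pos hM q.2
  have h2 := rn_Mpos hM
  have h3 := rs_sq hM q.2
  have h4 : e ^ 2 = q.2 ^ 2 + M ^ 2 - rs M e q.2 ^ 2 := by linarith
  unfold mass
  rw [rnF_O hM, rnF_r, rnF_l, rnF_n]
  generalize rs M e q.2 = s at *
  rw [h4]
  field_simp
  ring

theorem isRDat_rnF (hM : |e| < M) : IsRDat e (rnF M e) := by
  have hs := rs_smooth hM
  have hp := rs_pos hM
  have hMp := rn_Mpos hM
  have hr : ∀ x, 0 < M + rs M e x := fun x => by have := hp x; positivity
  have hl : ContDiff ℝ ∞ (fun x : ℝ => x / (2 * rs M e x)) :=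
    contDiff_id.div (contDiff_const.mul hs) (fun x => by have := hp x; positivity)
  have hwv : ContDiff ℝ ∞
      (fun x : ℝ => x / ((M + rs M e x) * rs M e x) - x / rs M e x ^ 2) :=
    (contDiff_id.div ((contDiff_const.add hs).mul hs)
      (fun x => by have := hp x; have := hr x; positivity)).sub
      (contDiff_id.div (hs.pow 2) (fun x => by have := hp x; positivity))
  have dl : ∀ x, HasDerivAt (fun x : ℝ => x / (2 * rs M e x))
      (1 / (2 * rs M e x) - x ^ 2 / (2 * rs M e x ^ 3)) x := fun x => by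
    have h1 := hp x
    have h2 := (hasDerivAt_id x).div ((rs_deriv hM x).const_mul 2) (by positivity)
    have e1 : (1 * (2 * rs M e x) - id x * (2 * (x / rs M e x))) / (2 * rs M e x) ^ 2 =
        1 / (2 * rs M e x) - x ^ 2 / (2 * rs M e x ^ 3) := by
      simp only [id]; field_simp
    rw [e1] at h2
    exact h2
  have key : ∀ x, 1 / (2 * rs M e x) - x ^ 2 / (2 * rs M e x ^ 3) =
      x / (2 * rs M e x) * (x / ((M + rs M e x) * rs M e x) - x / rs M e x ^ 2) -
      -(M * (M + rs M e x) - e ^ 2) / (2 * rs M e x ^ 2 * (M + rs M e x)) := fun x => by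
    have h1 := hp x
    have h2 := hr x
    have h3 := rs_sq hM x
    have h4 : e ^ 2 = x ^ 2 + M ^ 2 - rs M e x ^ 2 := by linarith
    generalize rs M e x = s at *
    rw [h4]
    field_simp
    ring
  refine ⟨?_, fun x => hr x, fun x => ?_, fun x => ?_, fun x => ?_, fun x => ?_, fun x => ?_⟩
  · intro f hf
    simp only [List.mem_cons, List.not_mem_nil, or_false] at hf
    rcases hf with rfl | rfl | rfl | rfl | rfl | rfl | rfl | rfl | rfl
    · exact contDiff_const.add hs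
    · simp only [rnF_w hM]
      exact (contDiff_const.mul ((contDiff_const.add hs).log (fun x => (hr x).ne'))).sub
        (contDiff_const.mul (hs.log (fun x => (hp x).ne')))
    · exact contDiff_const
    · exact hl
    · exact hl.neg
    · simp only [rnF_wu hM]; exact hwv.neg
    · simp only [rnF_wv hM]; exact hwv
    · exact contDiff_const
    · exact contDiff_const
  · have h1 := (rs_deriv hM x).const_add M
    have h2 := hp x
    have e1 : x / rs M e x = (rnF M e).l (-x, x) - (rnF M e).n (-x, x) := by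
      rw [rnF_l, rnF_n]; field_simp; ring
    rw [e1] at h1
    exact h1
  · simp only [rnF_w hM, rnF_wv hM, rnF_wu hM]
    have h1 := ((((rs_deriv hM x).const_add M).log (hr x).ne').const_mul 2).sub
      (((rs_deriv hM x).log (hp x).ne').const_mul 2)
    have h2 := hp x
    have h3 := hr x
    have e1 : 2 * (x / rs M e x / (M + rs M e x)) - 2 * (x / rs M e x / rs M e x) =
        x / ((M + rs M e x) * rs M e x) - x / rs M e x ^ 2 -
          -(x / ((M + rs M e x) * rs M e x) - x / rs M e x ^ 2) := by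
      field_simp; ring
    rw [e1] at h1
    exact h1
  · have e1 : (rnF M e).pv (-x, x) - (rnF M e).pu (-x, x) = 0 := by simp [rnF]
    rw [e1]
    exact hasDerivAt_const x (0 : ℝ)
  · have h1 := dl x
    have e1 : (rnF M e).l (-x, x) * (rnF M e).wv (-x, x) -
        (rnF M e).r (-x, x) * (rnF M e).pv (-x, x) ^ 2 - G1 e (rnF M e) (-x, x) =
        1 / (2 * rs M e x) - x ^ 2 / (2 * rs M e x ^ 3) := by
      have : (rnF M e).pv (-x, x) = 0 := rfl
      rw [key, rnF_G1 hM, rnF_l, rnF_wv hM, this]; ring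
    rw [e1]
    exact h1
  · have h1 := (dl x).neg
    have e1 : G1 e (rnF M e) (-x, x) - ((rnF M e).n (-x, x) * (rnF M e).wu (-x, x) -
        (rnF M e).r (-x, x) * (rnF M e).pu (-x, x) ^ 2) =
        -(1 / (2 * rs M e x) - x ^ 2 / (2 * rs M e x ^ 3)) := by
      have : (rnF M e).pu (-x, x) = 0 := rfl
      rw [key, rnF_G1 hM, rnF_n, rnF_wu hM, this]; ring
    rw [e1]
    exact h1

/-- l / O on the initial line -/
noncomputable def rnP (M e x : ℝ) : ℝ := -(x * rs M e x) / (2 * (M + rs M e x) ^ 2)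

lemma rnF_lO (hM : |e| < M) (q : P2) : (rnF M e).l q / (rnF M e).O q = rnP M e (-q.2) := by
  have h1 := rs_pos hM q.2
  have h2 := rn_Mpos hM
  rw [rnF_O hM, rnF_l, rnP, rs_neg]
  field_simp

lemma rnF_nO (hM : |e| < M) (q : P2) : (rnF M e).n q / (rnF M e).O q = rnP M e q.2 := by
  have h1 := rs_pos hM q.2
  have h2 := rn_Mpos hM
  rw [rnF_O hM, rnF_n, rnP]
  field_simp

lemma rnP_zero : rnP M e 0 = 0 := by simp [rnP]

lemma rnP_neg (hM : |e| < M) {x : ℝ} (hx : 0 < x) : rnP M e x < 0 := by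
  have h1 := rs_pos hM x
  have h2 := rn_Mpos hM
  unfold rnP
  exact div_neg_of_neg_of_pos (neg_neg_of_pos (by positivity)) (by positivity)

lemma rnP_pos (hM : |e| < M) {x : ℝ} (hx : x < 0) : 0 < rnP M e x := by
  have h1 := rs_pos hM x
  have h2 := rn_Mpos hM
  unfold rnP
  exact div_pos (by nlinarith) (by positivity)

lemma rnP_ge (hM : |e| < M) (x : ℝ) : -(1 / 2) ≤ rnP M e x := by
  have h1 := rs_pos hM x
  have h2 := rn_Mpos hM
  have h3 := (le_abs_self x).trans (abs_le_rs hM x)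
  unfold rnP
  rw [le_div_iff₀ (by positivity)]
  nlinarith

end Vale.Agent.P354E
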