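import Vale.Agent.P354E.DIface
import Vale.Agent.P354E.RN1

open scoped ContDiff
open MeasureTheory Set Filter Topology

namespace Vale.Agent.P354E

namespace DF

lemma adiv {p q K : ℝ} (hq : 0 < q) (h : |p| ≤ K * q) : |p / q| ≤ K := by
  rw [abs_div, abs_of_pos hq, div_le_iff₀ hq]; exact h

lemma le_of_sq_le_sq' {p q : ℝ} (hq : 0 ≤ q) (h : p ^ 2 ≤ q ^ 2) : p ≤ q :=
  (le_abs_self p).trans (abs_le_of_sq_le_sq' h hq |> fun h => abs_le.2 h)

lemma amul {p q P Q : ℝ} (hp : |p| ≤ P) (hq : |q| ≤ Q) : |p * q| ≤ P * Q := by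
  rw [abs_mul]; exact mul_le_mul hp hq (abs_nonneg _) ((abs_nonneg _).trans hp)

lemma mass_est {x r r0 D D0 E a a0 e e' η : ℝ} (hx : 1 ≤ x) (hη : 0 < η) (hη1 : η ≤ 1 / 100)
    (h1 : x ≤ r0) (h2 : r0 ≤ 5 / 2 * x) (hr : |r - r0| ≤ 2 * η) (hD0 : |D0| ≤ 1)
    (hD : |D - D0| ≤ 5 * (η / x)) (hE : |E| ≤ 6 * (η / x)) (ha0 : 1 ≤ a0)
    (ha : |a - a0| ≤ η / x) (he : |e| ≤ x) (he' : |e' - e| ≤ η) :
    |r / 2 * (1 + e' ^ 2 / r ^ 2 + (E ^ 2 - D ^ 2) / a) -
      r0 / 2 * (1 + e ^ 2 / r0 ^ 2 - D0 ^ 2 / a0)| ≤ 200 * η := by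
  set θ := η / x with hθ
  have hθx : θ * x = η := by rw [hθ]; field_simp
  have hθ0 : 0 < θ := by positivity
  have hθη : θ ≤ η := div_le_self hη.le hx
  have r1 := abs_le.1 hr
  have a1 := abs_le.1 ha
  have rl : x / 2 ≤ r := by linarith
  have ru : r ≤ 3 * x := by linarith
  have rp : 0 < r := by linarith
  have r0p : 0 < r0 := by linarith
  have al : 1 / 2 ≤ a := by linarith
  have ap : 0 < a := by linarith
  have a0p : 0 < a0 := by linarith
  have ar : |r| ≤ 3 * x := by rw [abs_of_pos rp]; exact ru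
  have hs : |e' + e| ≤ 3 * x := by
    have : e' + e = (e' - e) + 2 * e := by ring
    rw [this]
    refine (abs_add_le _ _).trans ?_
    rw [abs_mul, abs_two]
    linarith
  have hDs : |D + D0| ≤ 3 := by
    have : D + D0 = (D - D0) + 2 * D0 := by ring
    rw [this]
    refine (abs_add_le _ _).trans ?_
    rw [abs_mul, abs_two]
    linarith
  have hr' : |r0 - r| ≤ 2 * η := by rw [abs_sub_comm]; exact hr
  have ha' : |a0 - a| ≤ θ := by rw [abs_sub_comm]; exact ha
  have t1 : |(e' - e) * (e' + e) / r| ≤ 6 * η := adiv rp ((amul he' hs).trans (by nlinarith))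
  have t2 : |e * e * (r0 - r) / (r * r0)| ≤ 4 * η :=
    adiv (by positivity) ((amul (amul he he) hr').trans (by
      have : x / 2 * x ≤ r * r0 := mul_le_mul rl h1 (by linarith) rp.le
      nlinarith))
  have t3 : |r * E * E / a| ≤ 216 / 100 * η :=
    adiv ap ((amul (amul ar hE) hE).trans (by
      have : 3 * x * (6 * θ) * (6 * θ) = 108 * η * θ := by rw [← hθx]; ring
      rw [this]
      nlinarith))
  have t4 : |(r - r0) * D0 * D0 / a0| ≤ 2 * η :=
    adiv a0p ((amul (amul hr hD0) hD0).trans (by nlinarith))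
  have t5 : |r * (D - D0) * (D + D0) / a| ≤ 90 * η :=
    adiv ap ((amul (amul ar hD) hDs).trans (by
      have : 3 * x * (5 * θ) * 3 = 45 * η := by rw [← hθx]; ring
      rw [this]
      nlinarith))
  have t6 : |r * (a0 - a) * D0 * D0 / (a * a0)| ≤ 6 * η :=
    adiv (by positivity) ((amul (amul (amul ar ha') hD0) hD0).trans (by
      have : 3 * x * θ * 1 * 1 = 3 * η := by rw [← hθx]; ring
      rw [this]
      have : 1 / 2 * 1 ≤ a * a0 := mul_le_mul al ha0 (by norm_num) ap.le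
      nlinarith))
  have e1 : r / 2 * (1 + e' ^ 2 / r ^ 2 + (E ^ 2 - D ^ 2) / a) -
      r0 / 2 * (1 + e ^ 2 / r0 ^ 2 - D0 ^ 2 / a0) = ((r - r0) + (e' - e) * (e' + e) / r +
      e * e * (r0 - r) / (r * r0) + r * E * E / a - (r - r0) * D0 * D0 / a0 -
      r * (D - D0) * (D + D0) / a - r * (a0 - a) * D0 * D0 / (a * a0)) / 2 := by
    field_simp; ring
  rw [e1, abs_le]
  have := abs_le.1 t1
  have := abs_le.1 t2
  have := abs_le.1 t3
  have := abs_le.1 t4
  have := abs_le.1 t5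
  have := abs_le.1 t6
  constructor <;> linarith

/-- weights -/
lemma wt {s t η y x : ℝ} {k : ℕ} (hx : 1 ≤ x) (hk : (k : ℝ) ≤ t) (hs : s = t)
    (h : √(1 + x ^ 2) ^ s * |y| ≤ η) : |y| ≤ η / x ^ k := by
  subst hs
  have h1 : x ^ k ≤ √(1 + x ^ 2) ^ s := by
    calc x ^ k ≤ √(1 + x ^ 2) ^ k :=
          pow_le_pow_left₀ (by linarith) ((le_abs_self x).trans (abs_le_rho x)) k
      _ = √(1 + x ^ 2) ^ (k : ℝ) := (Real.rpow_natCast _ _).symm
      _ ≤ _ := Real.rpow_le_rpow_of_exponent_le (one_le_rho x) hk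
  rw [le_div_iff₀ (by positivity), mul_comm]
  exact (mul_le_mul_of_nonneg_right h1 (abs_nonneg y)).trans h

lemma far_pt {x M e e' s a b b1 L η rb rp : ℝ} (hx : 1 ≤ x) (hMx : M ≤ x) (he : |e| < M)
    (hs : 0 < s) (hs2 : s ^ 2 = x ^ 2 + M ^ 2 - e ^ 2) (hη : 0 < η) (hη1 : η ≤ 1 / 100)
    (hrp : rp ≤ M + s) (hrb : 2 * η < rp - rb) (ha : |a - (M + s) ^ 2 / s ^ 2| ≤ η / x)
    (hb : |b - (M + s) ^ 2| ≤ 2 * η * x) (hb1 : |b1 - 2 * (M + s) * (x / s)| ≤ η) (hL : |L| ≤ η)
    (he' : |e' - e| ≤ η) {r A l n : ℝ} (hr : 0 < r) (hr2 : r ^ 2 = b) (hA : 0 < A)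
    (hA2 : A ^ 2 = a) (hl : l = (b1 / (2 * r) + A * L / r) / 2)
    (hn : n = (-(b1 / (2 * r)) + A * L / r) / 2) :
    x / 2 ≤ r ∧ r ≤ 3 * x ∧ rb < r ∧ 1 / 8 ≤ -n ∧ -n ≤ 1 ∧ |l| ≤ 1 ∧ 8 / 5 * -n ≤ a ∧
      a ≤ 16 * -n ∧ |r / 2 * (1 + e' ^ 2 / r ^ 2 + 4 * l * n / a) - M| ≤ 200 * η ∧ A ≤ 3 := by
  have hM := rn_Mpos he
  have hσ := rn_sig he
  have sx : x ≤ s := le_of_sq_le_sq' hs.le (by linarith)
  have sx2 : s ≤ 3 / 2 * x := le_of_sq_le_sq' (by linarith) (by
    have := pow_le_pow_left₀ hM.le hMx 2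
    nlinarith [sq_nonneg e, sq_nonneg x])
  have hθ : η / x ≤ η := div_le_self hη.le hx
  have hθ0 : 0 < η / x := by positivity
  set r0 := M + s with hr0
  have h1 : x ≤ r0 := by linarith
  have h2 : r0 ≤ 5 / 2 * x := by linarith
  have r0p : 0 < r0 := by linarith
  have hrr : |r - r0| ≤ 2 * η := by
    have e1 : r - r0 = (b - r0 ^ 2) / (r + r0) := by rw [← hr2]; field_simp; ring
    rw [e1]
    exact adiv (by positivity) (hb.trans (mul_le_mul_of_nonneg_left (by linarith) (by linarith)))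
  have r1 := abs_le.1 hrr
  have rl : x / 2 ≤ r := by linarith
  have D0l : 2 / 3 ≤ x / s := by rw [le_div_iff₀ hs]; linarith
  have D0u : x / s ≤ 1 := by rw [div_le_iff₀ hs]; linarith
  have hD0 : |x / s| ≤ 1 := abs_le.2 ⟨by linarith, D0u⟩
  have a0l : 1 ≤ r0 ^ 2 / s ^ 2 := by
    rw [le_div_iff₀ (by positivity), one_mul]
    exact pow_le_pow_left₀ hs.le (by linarith) 2
  have a0u : r0 ^ 2 / s ^ 2 ≤ 4 := by
    rw [div_le_iff₀ (by positivity)]
    have := pow_le_pow_left₀ r0p.le (by linarith : r0 ≤ 2 * s) 2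
    linarith
  have a1 := abs_le.1 ha
  have ap : 0 < a := by linarith
  have A3 : A ≤ 3 := le_of_sq_le_sq' (by norm_num) (by linarith)
  have hθr : η ≤ 2 * (η / x) * r := by
    have : η = 2 * (η / x) * (x / 2) := by field_simp
    calc η = 2 * (η / x) * (x / 2) := this
      _ ≤ _ := mul_le_mul_of_nonneg_left rl (by positivity)
  have hD : |b1 / (2 * r) - x / s| ≤ 5 * (η / x) := by
    have e1 : b1 / (2 * r) - x / s =
        ((b1 - 2 * r0 * (x / s)) + 2 * ((r0 - r) * (x / s))) / (2 * r) := by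
      field_simp; ring
    rw [e1]
    refine adiv (by positivity) ((abs_add_le _ _).trans ?_)
    have := amul (abs_sub_comm r r0 ▸ hrr) hD0
    rw [abs_mul 2, abs_two]
    linarith
  have hE : |A * L / r| ≤ 6 * (η / x) := by
    refine adiv hr ((amul (abs_le.2 ⟨by linarith, A3⟩) hL).trans ?_)
    linarith
  have hm := mass_est hx hη hη1 h1 h2 hrr hD0 hD hE a0l ha (by linarith) he'
  have e2 : r0 / 2 * (1 + e ^ 2 / r0 ^ 2 - (x / s) ^ 2 / (r0 ^ 2 / s ^ 2)) = M := by
    have h4 : e ^ 2 = x ^ 2 + M ^ 2 - s ^ 2 := by linarith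
    rw [h4]
    field_simp
    rw [hr0]
    ring
  have e3 : 4 * l * n = (A * L / r) ^ 2 - (b1 / (2 * r)) ^ 2 := by rw [hl, hn]; ring
  have d1 := abs_le.1 hD
  have d2 := abs_le.1 hE
  rw [e2, ← e3] at hm
  refine ⟨rl, by linarith, by linarith, by linarith, by linarith, ?_, by linarith, by linarith,
    hm, A3⟩
  rw [abs_le]
  constructor <;> linarith

end DF

open DF in
theorem dFar : DFar := by
  intro M e om rb V ε hM hom hrb hV hMV hε
  have hMp := rn_Mpos hM
  obtain ⟨η, hη, g1, g2, g3, g4⟩ : ∃ η : ℝ, 0 < η ∧ η ≤ 1 / 100 ∧ 200 * η ≤ ε ∧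
      2 * η < rp M e - rb ∧ (2 * M + 1) * η ≤ ε := by
    have p1 : 0 < (rp M e - rb) / 4 := by linarith
    refine ⟨min (min (1 / 100) (ε / 200)) (min ((rp M e - rb) / 4) (ε / (2 * M + 1))),
      by positivity, (min_le_left _ _).trans (min_le_left _ _), ?_, ?_, ?_⟩
    · have := (min_le_left (min (1 / 100) (ε / 200))
        (min ((rp M e - rb) / 4) (ε / (2 * M + 1)))).trans (min_le_right _ _)
      linarith
    · have := (min_le_right (min (1 / 100) (ε / 200))
        (min ((rp M e - rb) / 4) (ε / (2 * M + 1)))).trans (min_le_left _ _)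
      linarith
    · have := (min_le_right (min (1 / 100) (ε / 200))
        (min ((rp M e - rb) / 4) (ε / (2 * M + 1)))).trans (min_le_right _ _)
      rw [le_div_iff₀ (by positivity)] at this
      linarith
  refine ⟨η, hη, fun d hd hp => ?_⟩
  obtain ⟨pa, pb, -, pl, pf, pg, pe⟩ := pm_parts hp
  have he' : |d.e - e| ≤ η := (ENNReal.ofReal_le_ofReal_iff hη.le).1 pe
  refine ⟨fun x hx => ?_, ?_⟩
  · have hx1 : 1 ≤ x := hV.trans hx
    have hs := rs_pos hM x
    obtain ⟨sa, sb, -, -, sf, -⟩ := hd.smooth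
    have db0 : HasDerivAt (rn M e).b (2 * (M + rs M e x) * (x / rs M e x)) x := by
      have := ((rs_deriv hM x).const_add M).fun_pow 2
      simp only [Nat.cast_ofNat, Nat.add_one_sub_one, pow_one] at this
      exact this
    have db : HasDerivAt d.b (deriv d.b x) x := (sb.differentiable (by simp) x).hasDerivAt
    have df : HasDerivAt d.f (deriv d.f x) x := (sf.differentiable (by simp) x).hasDerivAt
    have qa := wt (k := 1) (t := 1) hx1 (by norm_num) (by norm_num)
      (le_of_wn (j := 0) (by norm_num) hη.le pa x)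
    have qb := le_of_wn (j := 0) (by norm_num) hη.le pb x
    have qb1 := wt (k := 0) (t := 0) hx1 (by norm_num) (by norm_num)
      (le_of_wn (j := 1) le_rfl hη.le pb x)
    have ql := wt (k := 0) (t := 0) hx1 (by norm_num) (by norm_num)
      (le_of_wn (j := 0) (by norm_num) hη.le pl x)
    have qf := wt (k := 2) (t := om) hx1 (by norm_num; exact hom) (by norm_num)
      (le_of_wn (j := 0) (by norm_num) hη.le pf x)
    have qf1 := wt (k := 3) (t := om + 1) hx1 (by norm_num; linarith) (by norm_num)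
      (le_of_wn (j := 1) le_rfl hη.le pf x)
    have qg := wt (k := 3) (t := om + 1) hx1 (by norm_num; linarith) (by norm_num)
      (le_of_wn (j := 0) (by norm_num) hη.le pg x)
    rw [iteratedDeriv_one, (db.sub db0).deriv] at qb1
    have df0 : HasDerivAt (rn M e).f 0 x := hasDerivAt_const x (0 : ℝ)
    rw [iteratedDeriv_one, (df.sub df0).deriv, sub_zero] at qf1
    simp only [iteratedDeriv_zero, Pi.sub_apply, pow_zero, div_one, pow_one] at qa qb qb1 ql qf qg
    have ea : (rn M e).a x = (M + rs M e x) ^ 2 / rs M e x ^ 2 := by rw [rs_sq hM]; rfl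
    have eb : (rn M e).b x = (M + rs M e x) ^ 2 := rfl
    have el : (rn M e).l x = 0 := rfl
    have ef : (rn M e).f x = 0 := rfl
    have eg : (rn M e).g x = 0 := rfl
    rw [ea] at qa
    rw [el, sub_zero] at ql
    rw [ef, sub_zero] at qf
    rw [eg, sub_zero] at qg
    have qb' : |d.b x - (M + rs M e x) ^ 2| ≤ 2 * η * x := by
      rw [eb] at qb
      have h1 : (-1 + ((0 : ℕ) : ℝ)) = -1 := by norm_num
      rw [h1, Real.rpow_neg_one, inv_mul_le_iff₀ (rho_pos x)] at qb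
      have h2 := rho_le x
      rw [abs_of_pos (by linarith : 0 < x)] at h2
      nlinarith
    have hrp : rp M e ≤ M + rs M e x := by
      have := rs_ge (M := M) (e := e) x
      unfold rp
      linarith
    obtain ⟨k1, k2, k3, k4, k5, k6, k7, k8, k9, k10⟩ := far_pt hx1 (hMV.trans hx) hM hs
      (rs_sq hM x) hη g1 hrp g3 qa qb' qb1 ql he' (Real.sqrt_pos.2 (hd.pos x).2)
      (Real.sq_sqrt (hd.pos x).2.le) (Real.sqrt_pos.2 (hd.pos x).1)
      (Real.sq_sqrt (hd.pos x).1.le) (l := (red d).l (-x, x)) (n := (red d).n (-x, x)) rfl rfl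
    have eO : (red d).O (-x, x) = d.a x := Real.exp_log (hd.pos x).1
    have hA : |√(d.a x)| ≤ 3 := by rw [abs_of_nonneg (Real.sqrt_nonneg _)]; exact k10
    have hg := abs_le.1 (amul hA qg)
    have hf := abs_le.1 qf1
    have hε3 : 2 * (η / x ^ 3) ≤ ε / x ^ 3 := by
      rw [← mul_div_assoc]
      exact div_le_div_of_nonneg_right (by linarith) (by positivity)
    refine ⟨k1, k2, k3, k4, k5, k6, by rw [eO]; exact k7, by rw [eO]; exact k8, ?_,
      qf.trans (div_le_div_of_nonneg_right (by linarith) (by positivity)), ?_, ?_⟩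
    · unfold mass
      rw [eO]
      exact k9.trans g2
    · change |(-deriv d.f x + √(d.a x) * d.g x) / 2| ≤ _
      rw [abs_le]
      constructor <;> linarith
    · change |(deriv d.f x + √(d.a x) * d.g x) / 2| ≤ _
      rw [abs_le]
      constructor <;> linarith
  · have h1 : |d.e + e| ≤ 2 * M + 1 := by
      have : d.e + e = (d.e - e) + 2 * e := by ring
      rw [this]
      refine (abs_add_le _ _).trans ?_
      rw [abs_mul, abs_two]
      linarith
    have h2 : d.e ^ 2 - e ^ 2 = (d.e + e) * (d.e - e) := by ring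
    rw [h2]
    exact (amul h1 he').trans g4

end Vale.Agent.P354E
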