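import Vale.Agent.P354E.DBasic

open scoped ContDiff
open MeasureTheory Set Filter Topology

namespace Vale.Agent.P354E

/-- data give reduced data -/
def DRed : Prop := ∀ M e om d, IsData M e om d → IsRDat d.e (red d)

/-- the Reissner-Nordstroem data -/
def DRn : Prop :=
  ∀ M e om, |e| < M → IsData M e om (rn M e) ∧ ∀ x : ℝ, dd (red (rn M e)) (rnF M e) (-x, x) = 0

/-- the reduced data depend continuously on the data -/
def DCont : Prop :=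
  ∀ M e om (d : Dset M e om) (R δ : ℝ), 0 ≤ om → 0 < δ → ∃ η, 0 < η ∧ ∀ d' ∈ ball d 1 η,
    |d'.1.e - d.1.e| ≤ δ ∧ ∀ x ∈ Icc (-R) R, dd (red d'.1) (red d.1) (-x, x) ≤ δ

/-- the ends -/
def DFar : Prop :=
  ∀ M e om rb V ε : ℝ, |e| < M → 2 ≤ om → rb < rp M e → 1 ≤ V → M ≤ V → 0 < ε → ∃ η : ℝ, 0 < η ∧
    ∀ d, IsData M e om d → pm om 1 d (rn M e) ≤ ENNReal.ofReal η →
      Far M rb V ε d.e (red d) ∧ |d.e ^ 2 - e ^ 2| ≤ ε

/-- the pulse -/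
def DPulse : Prop :=
  ∀ M e om (d : Dset M e om) (m : ℕ), |e| < M → 2 ≤ om → ∃ (k : ℕ) (C x0 : ℝ) (χ : ℝ → ℝ), 2 ≤ C ∧
    Continuous χ ∧ (∀ y, 0 ≤ χ y) ∧ 0 < ∫ y in (0 : ℝ)..1, χ y ∧
    ∀ R h P L, x0 ≤ R → 1 ≤ R → 0 < h → h ≤ 1 → 0 < P → C * (R / h) ^ k * P ≤ 1 → C * R ^ k ≤ L →
      ∃ d' : Dset M e om, pm om m d'.1 d.1 ≤ ENNReal.ofReal (C * (R / h) ^ k * P) ∧
        d'.1.e = d.1.e ∧ (∀ x, x ≤ R → dd (red d'.1) (red d.1) (-x, x) = 0) ∧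
        ∀ x ∈ Icc R (R + h), (red d'.1).r (-x, x) = (red d.1).r (-x, x) ∧
          |(red d'.1).w (-x, x) - (red d.1).w (-x, x)| ≤ L * h * P ∧
          |(red d'.1).l (-x, x) - (red d.1).l (-x, x)| ≤ L * h * P ∧
          |(red d'.1).n (-x, x) - (red d.1).n (-x, x)| ≤ L * h * P ∧
          |(red d'.1).wv (-x, x) - (red d.1).wv (-x, x)| ≤ L * P ∧
          |(red d'.1).pu (-x, x) - (red d.1).pu (-x, x)| ≤ L * P ∧
          |(red d'.1).pv (-x, x) - (red d.1).pv (-x, x)| ≤ L * P ∧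
          P * χ ((x - R) / h) / C - L * h * P ≤ (red d'.1).pv (-x, x) - (red d.1).pv (-x, x)

/-- small balls about the Reissner-Nordstroem data are Baire spaces -/
def DBaire : Prop :=
  ∀ M e om (d0 : Dset M e om), |e| < M → d0.1 = rn M e → ∃ η0 : ℝ, 0 < η0 ∧ ∀ η, η ≤ η0 →
    BaireSpace (ball d0 1 (ENNReal.ofReal η))

end Vale.Agent.P354E
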