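import Vale.Agent.P354E.DIface

open scoped ContDiff
open MeasureTheory Set Filter Topology

namespace Vale.Agent.P354E.Dt

lemma cd_deriv {F : ℝ → ℝ} (h : ContDiff ℝ ∞ F) : ContDiff ℝ ∞ (deriv F) :=
  (contDiff_infty_iff_deriv.1 h).2

lemma hd {F : ℝ → ℝ} (h : ContDiff ℝ ∞ F) (x : ℝ) : HasDerivAt F (deriv F x) x :=
  ((contDiff_infty_iff_deriv.1 h).1 x).hasDerivAt

lemma mom_eq {M e om : ℝ} {d : Dat} (h : IsData M e om d) (x : ℝ) :
    deriv d.b x / d.b x * (d.k x / d.a x - d.l x / d.b x) -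
      2 * ((deriv d.l x * d.b x - d.l x * deriv d.b x) / d.b x ^ 2) = 2 * d.g x * deriv d.f x := by
  obtain ⟨h1, h2, h3, h4, h5, h6⟩ := h.smooth
  have a1 : HasDerivAt (fun y => d.k y / d.a y) (deriv (fun y => d.k y / d.a y) x) x :=
    ((hd h3 x).div (hd h1 x) (h.pos x).1.ne').differentiableAt.hasDerivAt
  have a2 : HasDerivAt d.trK (deriv (fun y => d.k y / d.a y) x +
      2 * ((deriv d.l x * d.b x - d.l x * deriv d.b x) / d.b x ^ 2)) x :=
    a1.add (((hd h4 x).div (hd h2 x) (h.pos x).2.ne').const_mul 2)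
  have := h.momentum x
  rw [a2.deriv] at this
  unfold Dat.divK at this
  linear_combination this

theorem dRed : DRed := by
  intro M e om d h
  obtain ⟨h1, h2, h3, h4, h5, h6⟩ := h.smooth
  have ha : ∀ x, d.a x ≠ 0 := fun x => (h.pos x).1.ne'
  have hb : ∀ x, d.b x ≠ 0 := fun x => (h.pos x).2.ne'
  have hA : ∀ x, √(d.a x) ≠ 0 := fun x => (Real.sqrt_pos.2 (h.pos x).1).ne'
  have hR : ∀ x, √(d.b x) ≠ 0 := fun x => (Real.sqrt_pos.2 (h.pos x).2).ne'
  have sA : ContDiff ℝ ∞ fun x => √(d.a x) := h1.sqrt ha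
  have sR : ContDiff ℝ ∞ fun x => √(d.b x) := h2.sqrt hb
  have s1 : ContDiff ℝ ∞ fun x => deriv d.b x / (2 * √(d.b x)) :=
    (cd_deriv h2).div (contDiff_const.mul sR) fun x => mul_ne_zero two_ne_zero (hR x)
  have s2 : ContDiff ℝ ∞ fun x => √(d.a x) * d.l x / √(d.b x) := (sA.mul h4).div sR hR
  have s3 : ContDiff ℝ ∞ fun x => deriv d.a x / d.a x := (cd_deriv h1).div h1 ha
  have s4 : ContDiff ℝ ∞ fun x => 2 * d.k x / √(d.a x) := (contDiff_const.mul h3).div sA hA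
  have s5 : ContDiff ℝ ∞ fun x => √(d.a x) * d.g x := sA.mul h6
  have dA : ∀ x, HasDerivAt (fun x => √(d.a x)) (deriv d.a x / (2 * √(d.a x))) x :=
    fun x => (hd h1 x).sqrt (ha x)
  have dR : ∀ x, HasDerivAt (fun x => √(d.b x)) (deriv d.b x / (2 * √(d.b x))) x :=
    fun x => (hd h2 x).sqrt (hb x)
  have d1 := fun x => (hd (cd_deriv h2) x).div ((dR x).const_mul 2)
    (mul_ne_zero two_ne_zero (hR x))
  have d2 := fun x => ((dA x).mul (hd h4 x)).div (dR x) (hR x)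
  have key : ∀ x, ∃ A R : ℝ, A ≠ 0 ∧ R ≠ 0 ∧ √(d.a x) = A ∧ √(d.b x) = R ∧ d.a x = A ^ 2 ∧
      d.b x = R ^ 2 := fun x => ⟨_, _, hA x, hR x, rfl, rfl, (Real.sq_sqrt (h.pos x).1.le).symm,
        (Real.sq_sqrt (h.pos x).2.le).symm⟩
  refine ⟨?_, fun x => Real.sqrt_pos.2 (h.pos x).2, fun x => ?_, fun x => ?_, fun x => ?_,
    fun x => ?_, fun x => ?_⟩
  · intro f hf
    simp only [List.mem_cons, List.not_mem_nil, or_false] at hf
    rcases hf with rfl | rfl | rfl | rfl | rfl | rfl | rfl | rfl | rfl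
    · exact sR
    · exact h1.log ha
    · exact h5
    · exact (s1.add s2).div_const 2
    · exact (s1.neg.add s2).div_const 2
    · exact (s3.neg.add s4).div_const 2
    · exact (s3.add s4).div_const 2
    · exact ((cd_deriv h5).neg.add s5).div_const 2
    · exact ((cd_deriv h5).add s5).div_const 2
  · refine HasDerivAt.congr_deriv (dR x) ?_
    simp only [red]
    ring
  · refine HasDerivAt.congr_deriv ((hd h1 x).log (ha x)) ?_
    simp only [red]
    ring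
  · refine HasDerivAt.congr_deriv (hd h5 x) ?_
    simp only [red]
    ring
  · refine HasDerivAt.congr_deriv (((d1 x).add (d2 x)).div_const 2) ?_
    have c1 := h.hamilton x
    have c2 := mom_eq h x
    simp only [red, G1, Fld.O, Real.exp_log (h.pos x).1, Pi.mul_apply]
    simp only [Dat.scal, Dat.trK, Dat.sqK] at c1
    obtain ⟨A, R, a1, a2, a3, a4, a5, a6⟩ := key x
    rw [a3, a4]
    rw [a5, a6] at c1 c2
    rw [a5]
    have e1 : deriv (deriv d.b) x = (2 / R ^ 2 + deriv d.b x ^ 2 / (2 * A ^ 2 * (R ^ 2) ^ 2) +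
        deriv d.a x * deriv d.b x / ((A ^ 2) ^ 2 * R ^ 2) +
        (d.k x / A ^ 2 + 2 * (d.l x / R ^ 2)) ^ 2 - ((d.k x / A ^ 2) ^ 2 + 2 * (d.l x / R ^ 2) ^ 2) -
        (2 * d.g x ^ 2 + 2 * deriv d.f x ^ 2 / A ^ 2 + 2 * d.e ^ 2 / (R ^ 2) ^ 2)) *
        (A ^ 2 * R ^ 2) / 2 := by
      rw [← c1]
      field_simp
      ring
    have e2 : deriv d.l x = (deriv d.b x / R ^ 2 * (d.k x / A ^ 2 - d.l x / R ^ 2) +
        2 * (d.l x * deriv d.b x) / (R ^ 2) ^ 2 - 2 * d.g x * deriv d.f x) * R ^ 2 / 2 := by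
      rw [← c2]
      field_simp
      ring
    rw [e1, e2]
    field_simp
    ring
  · refine HasDerivAt.congr_deriv (((d1 x).neg.add (d2 x)).div_const 2) ?_
    have c1 := h.hamilton x
    have c2 := mom_eq h x
    simp only [red, G1, Fld.O, Real.exp_log (h.pos x).1, Pi.mul_apply]
    simp only [Dat.scal, Dat.trK, Dat.sqK] at c1
    obtain ⟨A, R, a1, a2, a3, a4, a5, a6⟩ := key x
    rw [a3, a4]
    rw [a5, a6] at c1 c2
    rw [a5]
    have e1 : deriv (deriv d.b) x = (2 / R ^ 2 + deriv d.b x ^ 2 / (2 * A ^ 2 * (R ^ 2) ^ 2) +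
        deriv d.a x * deriv d.b x / ((A ^ 2) ^ 2 * R ^ 2) +
        (d.k x / A ^ 2 + 2 * (d.l x / R ^ 2)) ^ 2 - ((d.k x / A ^ 2) ^ 2 + 2 * (d.l x / R ^ 2) ^ 2) -
        (2 * d.g x ^ 2 + 2 * deriv d.f x ^ 2 / A ^ 2 + 2 * d.e ^ 2 / (R ^ 2) ^ 2)) *
        (A ^ 2 * R ^ 2) / 2 := by
      rw [← c1]
      field_simp
      ring
    have e2 : deriv d.l x = (deriv d.b x / R ^ 2 * (d.k x / A ^ 2 - d.l x / R ^ 2) +
        2 * (d.l x * deriv d.b x) / (R ^ 2) ^ 2 - 2 * d.g x * deriv d.f x) * R ^ 2 / 2 := by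
      rw [← c2]
      field_simp
      ring
    rw [e1, e2]
    field_simp
    ring

end Vale.Agent.P354E.Dt
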