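import Vale.Agent.P354E.DRed
import Vale.Agent.P354E.Asm1

open scoped ContDiff
open MeasureTheory Set Filter Topology

namespace Vale.Agent.P354E.Dt

variable {M e : ℝ}

lemma rad_pos (hM : |e| < M) (x : ℝ) : 0 < x ^ 2 + M ^ 2 - e ^ 2 := by
  have h1 : e ^ 2 < M ^ 2 := by
    rw [← sq_abs e]
    exact pow_lt_pow_left₀ hM (abs_nonneg e) two_ne_zero
  nlinarith [sq_nonneg x]

lemma M_pos (hM : |e| < M) : 0 < M := (abs_nonneg e).trans_lt hM

/-- the square root -/
noncomputable def sq' (M e x : ℝ) : ℝ := √(x ^ 2 + M ^ 2 - e ^ 2)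

lemma sq'_pos (hM : |e| < M) (x : ℝ) : 0 < sq' M e x := Real.sqrt_pos.2 (rad_pos hM x)

lemma sq'_sq (hM : |e| < M) (x : ℝ) : sq' M e x ^ 2 = x ^ 2 + M ^ 2 - e ^ 2 :=
  Real.sq_sqrt (rad_pos hM x).le

lemma sq'_smooth (hM : |e| < M) : ContDiff ℝ ∞ (sq' M e) :=
  ContDiff.sqrt (f := fun x : ℝ => x ^ 2 + M ^ 2 - e ^ 2) (by fun_prop) fun x => (rad_pos hM x).ne'

lemma sq'_deriv (hM : |e| < M) (x : ℝ) : HasDerivAt (sq' M e) (x / sq' M e x) x := by
  have h1 : HasDerivAt (fun x : ℝ => x ^ 2 + M ^ 2 - e ^ 2) (2 * x) x := by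
    simpa using ((hasDerivAt_pow 2 x).add_const (M ^ 2)).sub_const (e ^ 2)
  refine (h1.sqrt (rad_pos hM x).ne').congr_deriv ?_
  have := sq'_pos hM x
  unfold sq' at this ⊢
  field_simp

lemma rn_a (hM : |e| < M) : (rn M e).a = fun x => (M + sq' M e x) ^ 2 / sq' M e x ^ 2 := by
  funext x
  rw [sq'_sq hM]
  rfl

lemma rn_b : (rn M e).b = fun x => (M + sq' M e x) ^ 2 := rfl

lemma rn_b1 (hM : |e| < M) : deriv (rn M e).b = fun x => 2 * (M + sq' M e x) * (x / sq' M e x) := by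
  funext x
  rw [rn_b]
  have := ((sq'_deriv hM x).const_add M).pow 2
  refine Eq.trans this.deriv ?_
  simp

lemma rn_b2 (hM : |e| < M) (x : ℝ) : deriv (deriv (rn M e).b) x =
    2 * (x / sq' M e x) * (x / sq' M e x) +
      2 * (M + sq' M e x) * ((sq' M e x - x * (x / sq' M e x)) / sq' M e x ^ 2) := by
  rw [rn_b1 hM]
  have := ((((sq'_deriv hM x).const_add M).const_mul 2).mul
    ((hasDerivAt_id x).div (sq'_deriv hM x) (sq'_pos hM x).ne')).deriv
  refine Eq.trans this ?_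
  simp

lemma rn_a1 (hM : |e| < M) (x : ℝ) : deriv (rn M e).a x =
    -(2 * M * (M + sq' M e x) * x / sq' M e x ^ 4) := by
  rw [rn_a hM]
  have h0 := (sq'_pos hM x).ne'
  have := ((((sq'_deriv hM x).const_add M).pow 2).div ((sq'_deriv hM x).pow 2)
    (pow_ne_zero 2 h0)).deriv
  refine Eq.trans this ?_
  simp only [Pi.pow_apply]
  field_simp
  ring

lemma rn_sm (hM : |e| < M) : (rn M e).Sm := by
  refine ⟨?_, ?_, contDiff_const, contDiff_const, contDiff_const, contDiff_const⟩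
  · rw [rn_a hM]
    exact ((contDiff_const.add (sq'_smooth hM)).pow 2).div ((sq'_smooth hM).pow 2)
      fun x => pow_ne_zero 2 (sq'_pos hM x).ne'
  · exact (contDiff_const.add (sq'_smooth hM)).pow 2

theorem dRn : DRn := by
  intro M e om hM
  have hM0 := M_pos hM
  have hp : ∀ x, 0 < M + sq' M e x := fun x => by linarith [sq'_pos hM x]
  refine ⟨⟨rn_sm hM, fun x => ⟨?_, ?_⟩, fun m => ?_, fun x => ?_, fun x => ?_⟩, fun x => ?_⟩
  · rw [rn_a hM]
    have := sq'_pos hM x
    have := hp x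
    positivity
  · exact pow_pos (hp x) 2
  · rw [pm_self]
    exact ENNReal.zero_lt_top
  · have h0 := (sq'_pos hM x).ne'
    have h1 := (hp x).ne'
    have h2 := sq'_sq hM x
    unfold Dat.scal Dat.trK Dat.sqK
    rw [rn_b2 hM, rn_b1 hM, rn_a1 hM, rn_a hM, rn_b]
    have e1 : (rn M e).k x = 0 := rfl
    have e2 : (rn M e).l x = 0 := rfl
    have e3 : (rn M e).g x = 0 := rfl
    have e4 : deriv (rn M e).f x = 0 := deriv_const _ _
    have e5 : (rn M e).e = e := rfl
    rw [e1, e2, e3, e4, e5]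
    have e6 : e ^ 2 = x ^ 2 + M ^ 2 - sq' M e x ^ 2 := by linarith
    rw [e6]
    field_simp
    ring
  · have e1 : (rn M e).trK = fun _ => 0 := by
      funext y
      simp [Dat.trK, rn]
    have e2 : (fun y => (rn M e).k y / (rn M e).a y) = fun _ => 0 := by
      funext y
      simp [rn]
    unfold Dat.divK
    rw [e1, e2]
    simp [rn]
  · have h0 := (sq'_pos hM x).ne'
    have h1 := (hp x).ne'
    have h2 := sq'_sq hM x
    have e1 : √((rn M e).b x) = M + sq' M e x := Real.sqrt_sq (hp x).le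
    have e4 : deriv (rn M e).f x = 0 := deriv_const _ _
    refine dd_zero_of ⟨e1, rfl, rfl, ?_, ?_, ?_, ?_, ?_, ?_⟩
    all_goals
      simp only [red, rnF]
      try rw [show √(x ^ 2 + M ^ 2 - e ^ 2) = sq' M e x from rfl]
    · rw [e1, rn_b1 hM, show (rn M e).l x = 0 from rfl]
      field_simp
      ring
    · rw [e1, rn_b1 hM, show (rn M e).l x = 0 from rfl]
      field_simp
      ring
    · rw [rn_a1 hM, rn_a hM, show (rn M e).k x = 0 from rfl, ← h2]
      field_simp
      ring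
    · rw [rn_a1 hM, rn_a hM, show (rn M e).k x = 0 from rfl, ← h2]
      field_simp
      ring
    · rw [e4, show (rn M e).g x = 0 from rfl]
      ring
    · rw [e4, show (rn M e).g x = 0 from rfl]
      ring

end Vale.Agent.P354E.Dt
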