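import Vale.Agent.P354E.Calc

open scoped ContDiff
open MeasureTheory Set Filter Topology

namespace Vale.Agent.P354E

variable {e : ℝ} {S : Fld} {D : Set P2}

/-- a continuous function on D is bounded on a compact piece of the initial line -/
lemma bdd_diag (hD : IsDom D) {f : P2 → ℝ} (hf : ContinuousOn f D) (a b : ℝ) :
    ∃ B, 0 ≤ B ∧ ∀ x ∈ Icc a b, |f (-x, x)| ≤ B := by
  obtain ⟨B, hB⟩ := (isCompact_Icc (a := a) (b := b)).exists_bound_of_continuousOn
    (contOn_x hf (fun s _ => hD.diag s))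
  exact ⟨max B 0, le_max_right _ _, fun x hx => (hB x hx).trans (le_max_left _ _)⟩

/-- a continuous function on D is bounded on the triangle of a point of D -/
lemma bdd_Tri (hD : IsDom D) {f : P2 → ℝ} (hf : ContinuousOn f D) {p : P2} (hp : p ∈ D) :
    ∃ B, 0 ≤ B ∧ ∀ q ∈ Tri p, |f q| ≤ B := by
  obtain ⟨B, hB⟩ := (isCompact_Tri p).exists_bound_of_continuousOn (hf.mono (hD.tri p hp))
  exact ⟨max B 0, le_max_right _ _, fun x hx => (hB x hx).trans (le_max_left _ _)⟩

lemma exists_K (h : IsSol e S D) (hD : IsDom D) {V : ℝ} (hn : ∀ x, V ≤ x → S.n (-x, x) < 0)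
    (b : ℝ) : ∃ K, 0 ≤ K ∧ ∀ u v, (u, v) ∈ D → 0 ≤ u + v → V ≤ v → v ≤ b →
      S.n (u, v) < 0 ∧ S.O (u, v) ≤ K * -S.n (u, v) := by
  have hc : ContinuousOn (fun x : ℝ => S.O (-x, x) / -S.n (-x, x)) (Icc V b) :=
    (contOn_x h.cont.O (fun s _ => hD.diag s)).div
      (contOn_x h.cont.n (fun s _ => hD.diag s)).neg
      (fun x hx => (neg_pos.2 (hn x hx.1)).ne')
  obtain ⟨B, hB⟩ := (isCompact_Icc (a := V) (b := b)).exists_bound_of_continuousOn hc
  refine ⟨max B 0, le_max_right _ _, fun u v hq ht hV hb => ?_⟩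
  have hseg := hD.seg_u hq (a := -v) (by linarith)
  refine ⟨h.n_neg (by linarith) hseg (hn v hV), h.O_le_n (by linarith) hseg (le_max_right _ _) ?_⟩
  have h1 := (le_abs_self _).trans ((hB v ⟨hV, hb⟩).trans (le_max_left B 0))
  rwa [div_le_iff₀ (neg_pos.2 (hn v hV))] at h1

lemma omega_aux (h : IsSol e S D) (hD : IsDom D) {V c : ℝ} {p : P2} (hV : (V, V) ∈ D)
    (hn : ∀ x, V ≤ x → S.n (-x, x) < 0) (hl : ∀ x, V ≤ x → S.l (x, -x) < 0) (hc : 0 < c)
    (hr : ∀ q ∈ D ∩ Tri p, c ≤ S.r q) :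
    ∃ C, ∀ q ∈ D ∩ Tri p, V ≤ q.2 → S.O q ≤ C := by
  obtain ⟨K, hK0, hK⟩ := exists_K h hD hn p.2
  obtain ⟨L, hL0, hL⟩ := exists_K h.sw hD.sw (V := V) hl p.1
  obtain ⟨B1, hB10, hB1⟩ := bdd_diag hD (h.cont.r.mul h.cont.n) (-p.1) p.2
  obtain ⟨B2, hB20, hB2⟩ := bdd_diag hD h.cont.r (-p.1) p.2
  obtain ⟨B3, hB30, hB3⟩ := bdd_Tri hD (h.cont.r.mul h.cont.n) hV
  set k := K / (4 * c) with hk
  have hk0 : 0 ≤ k := by positivity
  set E := Real.exp (k * (p.2 - V)) with hE
  have hE0 : 0 < E := Real.exp_pos _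
  -- the bound for r N
  have key : ∀ u v, (u, v) ∈ D → (u, v) ∈ Tri p → V ≤ v →
      -(S.r (u, v) * S.n (u, v)) ≤ B1 + L / 4 * B2 + (B1 + B3) * E := by
    intro u v hq hT hv
    obtain ⟨hu1, hv1, ht⟩ := hT
    simp only at hu1 hv1 ht
    rcases le_total V u with hu | hu
    · have hseg := hD.seg_v hq (a := -u) (by linarith)
      have hm := anti_v (f := fun q => -(S.r q * S.n q) + L / 4 * S.r q)
        (g := fun q => -(-(S.O q / 4) * (1 - e ^ 2 / S.r q ^ 2)) + L / 4 * S.l q)
        (a := -u) (b := v) (u := u) (by linarith)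
        (fun s hs => ((h.sol _ (hseg s hs)).rn_v.neg).add ((h.sol _ (hseg s hs)).r_v.const_mul _))
        (fun s hs => by
          have h1 := (hL s u (hseg s hs) (by linarith [hs.1]) hu hu1).2
          have h2 : S.O (u, s) ≤ L * -S.l (u, s) := h1
          have h3 := O_pos S (u, s)
          have h4 : 0 ≤ S.O (u, s) / 4 * (e ^ 2 / S.r (u, s) ^ 2) := by positivity
          nlinarith)
      have a1 := hB1 (-u) ⟨by linarith, by linarith⟩
      have a2 := hB2 (-u) ⟨by linarith, by linarith⟩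
      simp only [neg_neg, Pi.mul_apply] at a1 a2 hm
      have a3 := h.pos hq
      have a4 : L / 4 * S.r (u, -u) ≤ L / 4 * B2 :=
        mul_le_mul_of_nonneg_left ((le_abs_self _).trans a2) (by positivity)
      have a5 : 0 ≤ L / 4 * S.r (u, v) := by positivity
      have a6 : 0 ≤ (B1 + B3) * E := by positivity
      linarith [neg_abs_le (S.r (u, -u) * S.n (u, -u))]
    · set v0 := max V (-u) with hv0
      have hv0v : v0 ≤ v := max_le hv (by linarith)
      have hv0V : V ≤ v0 := le_max_left _ _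
      have hv0u : -u ≤ v0 := le_max_right _ _
      have hseg := hD.seg_v hq (a := v0) (by linarith)
      have hm := le_of_deriv_nonpos
        (F := fun s => -(S.r (u, s) * S.n (u, s)) * Real.exp (-k * s))
        (F' := fun s => -(-(S.O (u, s) / 4) * (1 - e ^ 2 / S.r (u, s) ^ 2)) * Real.exp (-k * s) +
          -(S.r (u, s) * S.n (u, s)) * (Real.exp (-k * s) * -k)) hv0v
        (fun s hs => by
          have h1 : HasDerivAt (fun s => Real.exp (-k * s)) (Real.exp (-k * s) * -k) s := by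
            simpa using ((hasDerivAt_id s).const_mul (-k)).exp
          exact HasDerivAt.mul ((h.sol _ (hseg s hs)).rn_v.neg) h1)
        (fun s hs => by
          obtain ⟨h1, h2⟩ := hK u s (hseg s hs) (by linarith [hs.1]) (by linarith [hs.1])
            (by linarith [hs.2])
          have h3 := O_pos S (u, s)
          have h4 : 0 ≤ S.O (u, s) / 4 * (e ^ 2 / S.r (u, s) ^ 2) := by positivity
          have h5 := hr (u, s) ⟨hseg s hs, hu1, by simp only; linarith [hs.2],
            by simp only; linarith [hs.1]⟩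
          have h6 : K * -S.n (u, s) / 4 ≤ k * (S.r (u, s) * -S.n (u, s)) := by
            have : K * -S.n (u, s) / 4 = k * (c * -S.n (u, s)) := by
              rw [hk]; field_simp
            rw [this]
            exact mul_le_mul_of_nonneg_left (mul_le_mul_of_nonneg_right h5 (by linarith)) hk0
          have h7 := Real.exp_pos (-k * s)
          have h8 : -(-(S.O (u, s) / 4) * (1 - e ^ 2 / S.r (u, s) ^ 2)) -
              k * (S.r (u, s) * -S.n (u, s)) ≤ 0 := by nlinarith
          nlinarith)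
      have a0 : -(S.r (u, v0) * S.n (u, v0)) ≤ B1 + B3 := by
        rcases le_total V (-u) with hh | hh
        · have e1 : v0 = -u := max_eq_right hh
          have a1 := hB1 (-u) ⟨by linarith, by linarith⟩
          simp only [neg_neg, Pi.mul_apply] at a1
          rw [e1]
          linarith [neg_abs_le (S.r (u, -u) * S.n (u, -u))]
        · have e1 : v0 = V := max_eq_left hh
          have a1 := hB3 (u, V) ⟨hu, le_rfl, by simp only; linarith⟩
          simp only [Pi.mul_apply] at a1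
          rw [e1]
          linarith [neg_abs_le (S.r (u, V) * S.n (u, V))]
      have a1 : -(S.r (u, v) * S.n (u, v)) ≤ (B1 + B3) * E := by
        have b1 : Real.exp (-k * v0) ≤ E * Real.exp (-k * v) := by
          rw [hE, ← Real.exp_add]
          apply Real.exp_le_exp.2
          nlinarith
        have b2 := Real.exp_pos (-k * v)
        have b3 := Real.exp_pos (-k * v0)
        have b4 : -(S.r (u, v) * S.n (u, v)) * Real.exp (-k * v) ≤
            (B1 + B3) * E * Real.exp (-k * v) := by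
          calc _ ≤ -(S.r (u, v0) * S.n (u, v0)) * Real.exp (-k * v0) := hm
            _ ≤ (B1 + B3) * Real.exp (-k * v0) := mul_le_mul_of_nonneg_right a0 b3.le
            _ ≤ (B1 + B3) * (E * Real.exp (-k * v)) :=
              mul_le_mul_of_nonneg_left b1 (by positivity)
            _ = _ := by ring
        exact le_of_mul_le_mul_right b4 b2
      have a2 : 0 ≤ L / 4 * B2 := by positivity
      linarith
  refine ⟨K * ((B1 + L / 4 * B2 + (B1 + B3) * E) / c), ?_⟩
  rintro ⟨u, v⟩ ⟨hq, hT⟩ hv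
  obtain ⟨h1, h2⟩ := hK u v hq hT.2.2 hv hT.2.1
  refine h2.trans (mul_le_mul_of_nonneg_left ?_ hK0)
  rw [le_div_iff₀ hc]
  have h3 := key u v hq hT hv
  have h4 := hr (u, v) ⟨hq, hT⟩
  nlinarith

theorem bOmega : BOmega := by
  intro e S D V p c h hD _ hV hs hc hr
  obtain ⟨C1, hC1⟩ := omega_aux h hD hV (fun x hx => (hs x hx).1) (fun x hx => (hs x hx).2) hc hr
  obtain ⟨C2, hC2⟩ := omega_aux (p := p.swap) h.sw hD.sw (V := V) hV (fun x hx => (hs x hx).2)
    (fun x hx => (hs x hx).1) hc (fun q hq => hr q.swap ⟨hq.1, mem_Tri_swap.1 hq.2⟩)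
  obtain ⟨C3, _, hC3⟩ := bdd_Tri hD h.cont.w hV
  refine ⟨max (max C1 C2) C3, fun q hq => ?_⟩
  have hw : S.w q ≤ S.O q := by
    have := Real.add_one_le_exp (S.w q)
    unfold Fld.O; linarith
  rcases le_total V q.2 with h2 | h2
  · exact hw.trans ((hC1 q hq h2).trans ((le_max_left _ _).trans (le_max_left _ _)))
  rcases le_total V q.1 with h1 | h1
  · exact hw.trans ((hC2 q.swap ⟨hq.1, mem_Tri_swap.2 hq.2⟩ h1).trans
      ((le_max_right _ _).trans (le_max_left _ _)))
  · exact ((le_abs_self _).trans (hC3 q ⟨h1, h2, hq.2.2.2⟩)).trans (le_max_right _ _)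

end Vale.Agent.P354E
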