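import Vale.Agent.P354E.Calc

open scoped ContDiff
open MeasureTheory Set Filter Topology

namespace Vale.Agent.P354E

/-- the one dimensional estimate behind block OSC -/
lemma osc_line {p pv y y1 O : ℝ → ℝ} {c N R R' : ℝ} (hc : 0 < c) (hR : R ≤ R')
    (cO : Continuous O) (cy : Continuous y) (hO : ∀ s, 0 < O s)
    (hp : ∀ s, HasDerivAt p (pv s) s) (hy : ∀ s, HasDerivAt y (y1 s) s)
    (hy1 : ∀ s, R ≤ s → c * pv s ^ 2 / O s ≤ y1 s) (hy0 : 0 ≤ y R)
    (hN : ∫ s in R..(R' + 1), y s ^ 2 * O s ≤ N) :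
    2 * (p R' - p R) ≤ ((N + 1) / 2 + 3 / 8 * N + 3 / 4 + 4 / c) *
      √(√(∫ s in R..(R' + 1), O s)) := by
  have cI : Continuous (fun s => y s ^ 2 * O s) := (cy.pow 2).mul cO
  set σ : ℝ → ℝ := fun s => ∫ x in s..(R' + 1), O x with hσ
  set I : ℝ → ℝ := fun s => ∫ x in s..(R' + 1), y x ^ 2 * O x with hI
  have dσ : ∀ s, HasDerivAt σ (-O s) s := fun s =>
    intervalIntegral.integral_hasDerivAt_left (cO.intervalIntegrable _ _)
      (cO.stronglyMeasurableAtFilter _ _) cO.continuousAt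
  have dI : ∀ s, HasDerivAt I (-(y s ^ 2 * O s)) s := fun s =>
    intervalIntegral.integral_hasDerivAt_left (cI.intervalIntegrable _ _)
      (cI.stronglyMeasurableAtFilter _ _) cI.continuousAt
  have σpos : ∀ s, s ≤ R' → 0 < σ s := fun s hs =>
    intervalIntegral.intervalIntegral_pos_of_pos (cO.intervalIntegrable _ _) hO (by linarith)
  set t : ℝ → ℝ := fun s => √(√(σ s)) with ht
  have tpos : ∀ s, s ≤ R' → 0 < t s := fun s hs => Real.sqrt_pos.2 (Real.sqrt_pos.2 (σpos s hs))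
  have t2 : ∀ s, t s ^ 2 = √(σ s) := fun s => Real.sq_sqrt (Real.sqrt_nonneg _)
  have t4 : ∀ s, s ≤ R' → t s ^ 4 = σ s := fun s hs => by
    have : t s ^ 4 = (t s ^ 2) ^ 2 := by ring
    rw [this, t2, Real.sq_sqrt (σpos s hs).le]
  have dt : ∀ s, s ≤ R' → HasDerivAt t (-O s / (4 * t s ^ 3)) s := fun s hs => by
    have h1 := ((dσ s).sqrt (σpos s hs).ne').sqrt (Real.sqrt_pos.2 (σpos s hs)).ne'
    have h2 := tpos s hs
    have e1 : -O s / (2 * √(σ s)) / (2 * √(√(σ s))) = -O s / (4 * t s ^ 3) := by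
      change -O s / (2 * √(σ s)) / (2 * t s) = _
      rw [← t2]; field_simp; ring
    rw [e1] at h1
    exact h1
  have ymono : ∀ a b, R ≤ a → a ≤ b → y a ≤ y b := fun a b ha hab =>
    le_of_deriv_nonneg hab (fun s _ => hy s) fun s hs => by
      have h1 := hy1 s (ha.trans hs.1)
      have h2 := hO s
      have h3 : 0 ≤ c * pv s ^ 2 / O s := by positivity
      linarith
  set t0 := t R with ht0
  have t0pos : 0 < t0 := tpos R hR
  have main := le_of_deriv_nonpos (a := R) (b := R')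
    (F := fun s => 2 * p s - (y s * t s ^ 3 - 3 / 8 * t0 * I s - 3 / 4 / t0 * t s ^ 2 -
      4 / c * t s))
    (F' := fun s => 2 * pv s - ((y1 s * t s ^ 3 + y s * (3 * t s ^ 2 * (-O s / (4 * t s ^ 3)))) -
      3 / 8 * t0 * -(y s ^ 2 * O s) - 3 / 4 / t0 * (2 * t s * (-O s / (4 * t s ^ 3))) -
      4 / c * (-O s / (4 * t s ^ 3)))) hR
    (fun s hs => by
      have h1 := dt s hs.2
      have h3 : HasDerivAt (fun s => t s ^ 3) (3 * t s ^ 2 * (-O s / (4 * t s ^ 3))) s := by
        simpa using h1.fun_pow 3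
      have h2 : HasDerivAt (fun s => t s ^ 2) (2 * t s * (-O s / (4 * t s ^ 3))) s := by
        simpa using h1.fun_pow 2
      exact ((hp s).const_mul 2).sub (((((hy s).mul h3).sub ((dI s).const_mul _)).sub
        (h2.const_mul _)).sub (h1.const_mul _)))
    (fun s hs => by
      have h1 := tpos s hs.2
      have h2 := hO s
      have h3 := mul_le_mul_of_nonneg_right (hy1 s hs.1) (pow_pos h1 3).le
      generalize t s = τ at *
      have e1 : 2 * pv s - ((y1 s * τ ^ 3 + y s * (3 * τ ^ 2 * (-O s / (4 * τ ^ 3)))) -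
          3 / 8 * t0 * -(y s ^ 2 * O s) - 3 / 4 / t0 * (2 * τ * (-O s / (4 * τ ^ 3))) -
          4 / c * (-O s / (4 * τ ^ 3))) = -(y1 s * τ ^ 3 - c * pv s ^ 2 / O s * τ ^ 3) -
          (c * pv s * τ ^ 3 - O s) ^ 2 / (c * O s * τ ^ 3) -
          3 / 8 * O s * (t0 * y s * τ - 1) ^ 2 / (t0 * τ ^ 2) := by
        field_simp; ring
      have h4 : 0 ≤ (c * pv s * τ ^ 3 - O s) ^ 2 / (c * O s * τ ^ 3) := by positivity
      have h5 : 0 ≤ 3 / 8 * O s * (t0 * y s * τ - 1) ^ 2 / (t0 * τ ^ 2) := by positivity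
      rw [e1]
      linarith)
  have Inn : 0 ≤ I R' := intervalIntegral.integral_nonneg (by linarith) fun s _ => by
    have := hO s
    positivity
  have Imono : I R' ≤ I R := le_of_deriv_nonpos hR (fun s _ => dI s) fun s _ => by
    have := hO s
    simp only [neg_nonpos]
    positivity
  have hN' : I R ≤ N := hN
  have yR' : 0 ≤ y R' := hy0.trans (ymono R R' le_rfl hR)
  have b1 : y R' ^ 2 * σ R' ≤ I R' := by
    simp only [hσ, hI]
    rw [← intervalIntegral.integral_const_mul]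
    refine intervalIntegral.integral_mono_on (by linarith)
      ((continuous_const.mul cO).intervalIntegrable _ _) (cI.intervalIntegrable _ _) fun s hs => ?_
    exact mul_le_mul_of_nonneg_right (pow_le_pow_left₀ yR' (ymono R' s hR hs.1) 2) (hO s).le
  have t1pos := tpos R' le_rfl
  have tle : t R' ≤ t0 := le_of_deriv_nonpos hR (fun s hs => dt s hs.2) fun s hs => by
    have := hO s
    have := tpos s hs.2
    exact div_nonpos_of_nonpos_of_nonneg (by linarith) (by positivity)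
  have b2 : y R' * t R' ^ 2 ≤ (N + 1) / 2 := by
    rw [← t4 R' le_rfl] at b1
    nlinarith [sq_nonneg (y R' * t R' ^ 2 - 1)]
  have b3 : y R' * t R' ^ 3 ≤ (N + 1) / 2 * t0 := by
    have : y R' * t R' ^ 3 = y R' * t R' ^ 2 * t R' := by ring
    rw [this]
    exact mul_le_mul b2 tle t1pos.le (by linarith)
  have b4 : 0 ≤ y R * t0 ^ 3 := by positivity
  have b5 : 3 / 8 * t0 * I R ≤ 3 / 8 * t0 * N := mul_le_mul_of_nonneg_left hN' (by positivity)
  have b6 : 0 ≤ 3 / 8 * t0 * I R' := by positivity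
  have b7 : 3 / 4 / t0 * t0 ^ 2 = 3 / 4 * t0 := by field_simp
  have b8 : 0 ≤ 3 / 4 / t0 * t R' ^ 2 := by positivity
  have b9 : 0 ≤ 4 / c * t R' := by positivity
  change 2 * (p R' - p R) ≤ _ * t0
  simp only [← ht0] at main
  nlinarith

theorem bOsc : BOsc := by
  intro c C N hc
  refine ⟨((|N| + 1) / 2 + 3 / 8 * |N| + 3 / 4 + 4 / c) * (|C| + 1), ?_⟩
  intro e S V R R' h hV hU hN hR hR'
  have cl : ∀ {f : P2 → ℝ}, ContinuousOn f univ → Continuous (fun s => f (V, s)) :=
    fun hf => (continuousOn_univ.1 hf).comp (by fun_prop)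
  have cO := cl h.cont.O
  have cy : Continuous (fun s => -(S.l (V, s) / S.O (V, s))) :=
    ((cl h.cont.l).div cO (fun s => O_ne S _)).neg
  have hy : ∀ s, HasDerivAt (fun s => -(S.l (V, s) / S.O (V, s)))
      (- -(S.r (V, s) * S.pv (V, s) ^ 2 / S.O (V, s))) s :=
    fun s => (h.sol (V, s) (mem_univ _)).lO_v.neg
  have hy1 : ∀ s, R ≤ s → c * S.pv (V, s) ^ 2 / S.O (V, s) ≤
      - -(S.r (V, s) * S.pv (V, s) ^ 2 / S.O (V, s)) := fun s hs => by
    rw [neg_neg]
    exact div_le_div_of_nonneg_right (mul_le_mul_of_nonneg_right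
      (hU.1 (V, s) (by simp only; linarith)) (sq_nonneg _)) (O_pos S _).le
  have hy0 : 0 ≤ -(S.l (V, R) / S.O (V, R)) :=
    neg_nonneg.2 (div_nonpos_of_nonpos_of_nonneg (hU.2 R hR).1.le (O_pos S _).le)
  have e1 : ∀ s, (-(S.l (V, s) / S.O (V, s))) ^ 2 * S.O (V, s) = S.l (V, s) ^ 2 / S.O (V, s) :=
    fun s => by have := O_ne S (V, s); field_simp
  have cI : Continuous (fun s => S.l (V, s) ^ 2 / S.O (V, s)) :=
    ((cl h.cont.l).pow 2).div cO (fun s => O_ne S _)
  have hN' : ∫ s in R..(R' + 1), (-(S.l (V, s) / S.O (V, s))) ^ 2 * S.O (V, s) ≤ |N| := by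
    simp only [e1]
    have a1 := intervalIntegral.integral_add_adjacent_intervals (μ := volume)
      (cI.intervalIntegrable V R) (cI.intervalIntegrable R (R' + 1))
    have a2 : 0 ≤ ∫ s in V..R, S.l (V, s) ^ 2 / S.O (V, s) :=
      intervalIntegral.integral_nonneg hR fun s _ => by
        have := O_pos S (V, s)
        positivity
    linarith [hN (R' + 1) (by linarith), le_abs_self N]
  have k1 := osc_line (p := fun s => S.p (V, s)) (pv := fun s => S.pv (V, s)) hc hR' cO cy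
    (fun s => O_pos S _) (fun s => (h.sol (V, s) (mem_univ _)).p_v) hy hy1 hy0 hN'
  have k2 := osc_line (p := fun s => -S.p (V, s)) (pv := fun s => -S.pv (V, s)) hc hR' cO cy
    (fun s => O_pos S _) (fun s => (h.sol (V, s) (mem_univ _)).p_v.neg) hy
    (fun s hs => by rw [neg_sq]; exact hy1 s hs) hy0 hN'
  have k3 : √(√(∫ s in R..(R' + 1), S.O (V, s))) ≤ (|C| + 1) * Real.exp (-(c / 4) * R) := by
    have a1 := (hU.2 R hR).2.1 (R' + 1) (by linarith)
    have a2 : Real.exp (-c * R) = (Real.exp (-(c / 4) * R) ^ 2) ^ 2 := by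
      rw [← pow_mul, ← Real.exp_nat_mul]; congr 1; push_cast; ring
    have a3 := Real.exp_pos (-(c / 4) * R)
    have a4 := abs_nonneg C
    refine Real.sqrt_le_iff.2 ⟨by positivity, Real.sqrt_le_iff.2 ⟨by positivity, a1.trans ?_⟩⟩
    rw [a2, mul_pow, mul_pow]
    refine mul_le_mul_of_nonneg_right ?_ (by positivity)
    have a5 : |C| + 1 ≤ (|C| + 1) ^ 2 := by nlinarith
    nlinarith [le_abs_self C]
  have k4 : 0 ≤ (|N| + 1) / 2 + 3 / 8 * |N| + 3 / 4 + 4 / c := by positivity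
  have k5 := mul_le_mul_of_nonneg_left k3 k4
  have k6 : 0 ≤ ((|N| + 1) / 2 + 3 / 8 * |N| + 3 / 4 + 4 / c) * ((|C| + 1) *
    Real.exp (-(c / 4) * R)) := by positivity
  rw [mul_assoc, abs_le]
  constructor <;> linarith

end Vale.Agent.P354E
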