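import Vale.Agent.P354E.Pulse3

open scoped ContDiff
open MeasureTheory Set Filter Topology

namespace Vale.Agent.P354E.Dt

variable {X s c : ℝ} {d : Dat} {I : Set Ix} {i : Ix} {m : ℕ} {F : Ix → ℝ → ℝ} {M e om : ℝ}

lemma Fam.sub {J : Set Ix} (hF : Fam X d c I) (hJ : J ⊆ I) : Fam X d c J :=
  ⟨fun i hi => hF.adm i (hJ hi), hF.pos, hF.low, fun i hi => hF.lowJ i (hJ hi),
    fun i hi => hF.upJ i (hJ hi)⟩

lemma fam_exists (h : DS X d) :
    ∃ (c C : ℝ) (k : ℕ), 0 ≤ C ∧ Fam X d c {i | Adm X i ∧ C * Lam i ^ k * i.P ≤ 1} := by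
  have o := h.one
  obtain ⟨K, k0, k1⟩ := (h.a 0).bd o
  obtain ⟨-, C, k, c0, h1⟩ := (h.Gi (I := {i | Adm X i}) (fun _ hi => hi) 0).mono o
    (show (-1 : ℝ) ≤ 0 by norm_num)
  have hc : 0 < (2 * (K + 1))⁻¹ := by positivity
  have hc1 : (2 * (K + 1))⁻¹ ≤ 1 := inv_le_one_of_one_le₀ (by linarith)
  have low : ∀ x, X < x → 2 * (2 * (K + 1))⁻¹ ≤ (d.a x)⁻¹ := fun x hx => by
    have a1 := (le_abs_self _).trans (k1 x hx)
    rw [Real.rpow_zero, mul_one] at a1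
    rw [show 2 * (2 * (K + 1))⁻¹ = (K + 1)⁻¹ by field_simp]
    exact inv_anti₀ (by linarith [h.a0 x hx]) (by linarith)
  have up : ∀ x, X < x → (d.a x)⁻¹ ≤ 2 := fun x hx => by
    have := inv_anti₀ (by norm_num : (0 : ℝ) < 1 / 2) (h.a0 x hx)
    linarith [show (1 / 2 : ℝ)⁻¹ = 2 by norm_num]
  have key : ∀ i, Adm X i → C * (2 * (K + 1)) * Lam i ^ k * i.P ≤ 1 → ∀ x, X < x →
      |i.P * Gi d i x| ≤ (2 * (K + 1))⁻¹ := fun i ha hi x hx => by
    have a1 := h1 i ha x hx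
    rw [Real.rpow_zero, mul_one] at a1
    rw [abs_mul, abs_of_pos ha.P0, ← one_div, le_div_iff₀ (by positivity)]
    have a2 := mul_le_mul_of_nonneg_left a1 (show 0 ≤ i.P * (2 * (K + 1)) by
      have := ha.P0
      positivity)
    linarith
  refine ⟨(2 * (K + 1))⁻¹, C * (2 * (K + 1)), k, by positivity, fun i hi => hi.1, hc,
    fun x hx => by linarith [low x hx], fun i hi x hx => ?_, fun i hi x hx => ?_⟩
  · linarith [low x hx, (abs_le.1 (key i hi.1 hi.2 x hx)).1]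
  · linarith [up x hx, (abs_le.1 (key i hi.1 hi.2 x hx)).2]

lemma wn_ps (hX : 1 ≤ X) (hI : ∀ i ∈ I, Adm X i) (hs : 0 ≤ s) (h : PS X I m (-s) F)
    (h0 : ∀ i ∈ I, ∀ x, x ≤ i.R → F i x = 0) : ∃ (C : ℝ) (k : ℕ), 0 ≤ C ∧ ∀ i ∈ I, ∀ G : ℝ → ℝ,
      (∀ x, G x = i.P * F i x) → wn s m G ≤ ENNReal.ofReal (C * Lam i ^ k * i.P) := by
  obtain ⟨h1, C, k, c0, h2⟩ := h
  refine ⟨(m + 1) * (2 ^ (s + m) * (2 ^ m * C)), k, by positivity, fun i hi G hG => ?_⟩
  have ha := hI i hi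
  have a1 := Sy.mul (by linarith) (Sm.const X i.P) (h1 i hi) (Sy.const (by linarith) i.P) (h2 i hi)
  rw [zero_add, abs_of_pos ha.P0] at a1
  refine (wn_of_sy hX hs (R := i.R) (by linarith [ha.R]) (fun x hx => by
    rw [hG, h0 i hi x hx, mul_zero]) (a1.congr fun x _ => hG x)).trans (le_of_eq ?_)
  congr 1
  ring

lemma pm_bound (hom : 2 ≤ om) (hp : ∀ x, 0 < d.a x) (h : DS X d) (hF : Fam X d c I) {K : ℝ}
    (hU : ∀ i ∈ I, Sy X m 0 K fun x => i.P * Gi d i x) : ∃ (C : ℝ) (k : ℕ), 0 ≤ C ∧ ∀ i ∈ I,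
      pm om m (pul d i) d ≤ ENNReal.ofReal (C * Lam i ^ k * i.P) := by
  have o := h.one
  have hI := hF.adm
  have hJ := fun i hi => hF.J hp (i := i) hi
  obtain ⟨s1, K1, a1⟩ := h.ia m
  obtain ⟨K2, a2⟩ := Sy.inv o m (K1 + K) hF.pos
  have gi := h.Gi hI m
  have s2 : ∀ i ∈ I, Sm X fun x => i.P * Gi d i x := fun i hi => (Sm.const X _).mul (gi.1 i hi)
  have pa : PS X I m 0 fun i => (pul d i).a := by
    refine PS.unif o (fun i hi => (s1.add (s2 i hi)).inv fun x _ => (hJ i hi x).ne') (K := K2)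
      fun i hi => ?_
    have := a2 0 _ (s1.add (s2 i hi)) (Sy.add s1 (s2 i hi) a1 (hU i hi)) fun x hx => by
      rw [Real.rpow_zero, mul_one]
      exact (hF.lowJ i hi x hx).trans (le_abs_self _)
    rwa [neg_zero] at this
  have Ha : PS X I m (-1) fun i x => -1 * (Gi d i x * d.a x * (pul d i).a x) :=
    (((gi.mul o (PS.of o (h.a m))).mul o pa).cmul o _).mono o (by norm_num)
  have Hk : PS X I m (-2) fun i x => Gk d i x * (pul d i).a x + d.k x * (d.a x)⁻¹ *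
      (-1 * (Gi d i x * d.a x * (pul d i).a x)) :=
    (((h.Gk hI m).mul o pa).mono o (by norm_num)).add o hI
      (((PS.of o ((h.k m).mul o (h.ia m))).mul o Ha).mono o (by norm_num))
  obtain ⟨C1, k1, c1, b1⟩ := wn_ps o hI zero_le_one Ha fun i hi x hx => by
    rw [Gi_left (hI i hi) hx]
    ring
  obtain ⟨C2, k2, c2, b2⟩ := wn_ps o hI zero_le_two Hk fun i hi x hx => by
    rw [Gi_left (hI i hi) hx, Gk_left (hI i hi) hx]
    ring
  obtain ⟨C3, k3, c3, b3⟩ := wn_ps o hI (by linarith : 0 ≤ om + 1) (ps_ch o hI m (-(om + 1)))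
    fun i hi x hx => ch_left (hI i hi).h0 hx
  refine ⟨C1 + C2 + C3, k1 + k2 + k3, by positivity, fun i hi => ?_⟩
  have ha := hI i hi
  have hL := ha.one_le o
  have hP := ha.P0
  have e1 := b1 i hi ((pul d i).a - d.a) fun x => pul_sub hp (hJ i hi) x
  have e2 := b2 i hi ((pul d i).k - d.k) fun x => by
    have h1 := pul_sub hp (hJ i hi) x
    have h2 : d.a x * (d.a x)⁻¹ = 1 := mul_inv_cancel₀ (hp x).ne'
    rw [Pi.sub_apply, show (pul d i).k x = (d.k x * (d.a x)⁻¹ + i.P * Gk d i x) * (pul d i).a x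
      from rfl]
    linear_combination d.k x * (d.a x)⁻¹ * h1 + d.k x * h2
  have e3 := b3 i hi ((pul d i).g - d.g) fun x => by simp [pul]
  unfold pm
  rw [show (pul d i).b = d.b from rfl, show (pul d i).l = d.l from rfl,
    show (pul d i).f = d.f from rfl, show (pul d i).e = d.e from rfl]
  simp only [sub_self, wn_zero, abs_zero, ENNReal.ofReal_zero, add_zero]
  refine (add_le_add (add_le_add e1 e2) e3).trans ?_
  rw [← ENNReal.ofReal_add (by positivity) (by positivity),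
    ← ENNReal.ofReal_add (by positivity) (by positivity)]
  refine ENNReal.ofReal_le_ofReal ?_
  have p1 : Lam i ^ k1 ≤ Lam i ^ (k1 + k2 + k3) := pow_le_pow_right₀ hL (by omega)
  have p2 : Lam i ^ k2 ≤ Lam i ^ (k1 + k2 + k3) := pow_le_pow_right₀ hL (by omega)
  have p3 : Lam i ^ k3 ≤ Lam i ^ (k1 + k2 + k3) := pow_le_pow_right₀ hL (by omega)
  have q1 := mul_le_mul_of_nonneg_left p1 (mul_nonneg c1 hP.le)
  have q2 := mul_le_mul_of_nonneg_left p2 (mul_nonneg c2 hP.le)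
  have q3 := mul_le_mul_of_nonneg_left p3 (mul_nonneg c3 hP.le)
  linarith

lemma pul_data (hom : 2 ≤ om) (hM : |e| < M) (hd' : IsData M e om d) (h : DS X d)
    (hF : Fam X d c I) (hi : i ∈ I) : IsData M e om (pul d i) := by
  have hp : ∀ x, 0 < d.a x := fun x => (hd'.pos x).1
  have ha := hF.adm i hi
  have hJ := hF.J hp hi
  have hs := pul_sm hd' h ha hJ
  refine ⟨hs, fun x => ⟨inv_pos.2 (hJ x), (hd'.pos x).2⟩, fun m => ?_, pul_ham hd' h ha hJ,
    pul_mom hd' h ha hJ⟩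
  obtain ⟨-, C, k, -, h1⟩ := ((PS.P h.one (adm_one ha)).mul h.one (h.Gi (adm_one ha) m)).mono h.one
    (show (0 : ℝ) + -1 ≤ 0 by norm_num)
  obtain ⟨C', k', -, h2⟩ := pm_bound (m := m) hom hp h (hF.sub (singleton_subset_iff.2 hi))
    (K := C * Lam i ^ k) fun j hj => by
      obtain rfl : j = i := hj
      exact h1 j rfl
  exact (pm_tri om m hs hd'.smooth (rn_sm hM)).trans_lt (ENNReal.add_lt_top.2
    ⟨(h2 i rfl).trans_lt ENNReal.ofReal_lt_top, hd'.finite m⟩)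

lemma pul_left (hd' : IsData M e om d) (h : DS X d) (ha : Adm X i)
    (hJ : ∀ x, 0 < (d.a x)⁻¹ + i.P * Gi d i x) {x : ℝ} (hx : x ≤ i.R) :
    dd (red (pul d i)) (red d) (-x, x) = 0 := by
  have hA := (hd'.pos x).1.ne'
  have e0 : deriv (Gi d i) x = 0 := by
    rcases hx.lt_or_eq with hx | hx
    · exact Gi_deriv_left ha hx
    · rw [(Gi_deriv h ha (by linarith [ha.R])).deriv, Gi_left ha hx.le, ch_left ha.h0 hx.le]
      ring
  have e1 : (pul d i).a x = d.a x := by simp [pul, Gi_left ha hx]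
  have e2 : (pul d i).k x = d.k x := by
    simp only [pul, Gi_left ha hx, Gk_left ha hx]
    field_simp
    ring
  have e3 : (pul d i).g x = d.g x := by simp [pul, ch_left ha.h0 hx]
  have e4 : deriv (pul d i).a x = deriv d.a x := by
    rw [pul_a1 hd' h ha hJ, e0, Gi_left ha hx]
    field_simp
    ring
  simp only [dd, red, e1, e2, e3, e4]
  simp [pul]

theorem dPulse : DPulse := by
  intro M e om d m hM hom
  obtain ⟨X, h⟩ := data_sym hM hom d.2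
  have o := h.one
  have hp : ∀ x, 0 < d.1.a x := fun x => (d.2.pos x).1
  obtain ⟨c, C0, k0, c0, hF0⟩ := fam_exists h
  obtain ⟨sm, Cm, km, cm, hm⟩ := (h.Gi (I := {i | Adm X i}) (fun _ hi => hi) m).mono o
    (show (-1 : ℝ) ≤ 0 by norm_num)
  have hF : Fam X d.1 c {i | (Adm X i ∧ C0 * Lam i ^ k0 * i.P ≤ 1) ∧ Cm * Lam i ^ km * i.P ≤ 1} :=
    hF0.sub fun i hi => hi.1
  obtain ⟨C1, k1, c1, b1⟩ := pm_bound (m := m) hom hp h hF (K := 2 ^ m) fun i hi => by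
    have a1 := Sy.mul (by linarith) (Sm.const X i.P) (sm i hi.1.1) (Sy.const (by linarith) i.P)
      (hm i hi.1.1)
    rw [zero_add, abs_of_pos hi.1.1.P0] at a1
    refine a1.mono o le_rfl ?_ (by positivity)
    have := mul_le_mul_of_nonneg_left hi.2 (show (0 : ℝ) ≤ 2 ^ m by positivity)
    linarith
  obtain ⟨C2, k2, c2, b2⟩ := pul_point d.2 h hF
  obtain ⟨k, hk⟩ : ∃ k, k = k0 + km + k1 + k2 := ⟨_, rfl⟩
  obtain ⟨C, hC⟩ : ∃ C : ℝ, C = 4 + (C0 + Cm + C1) * 2 ^ k + C2 := ⟨_, rfl⟩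
  have hC' : 0 ≤ (C0 + Cm + C1) * 2 ^ k := by positivity
  refine ⟨k, C, X + 1, chi, by linarith, chi_smooth.continuous, chi_nonneg, chi_int,
    fun R hh P L h1 h2 h3 h4 h5 h6 h7 => ?_⟩
  have hq : 1 ≤ R / hh := (one_le_div h3).2 (by linarith)
  have hqk : 1 ≤ (R / hh) ^ k := one_le_pow₀ hq
  have ha : Adm X ⟨R, hh, P⟩ := ⟨h1, h3, h4, h5, by
    have : 1 ≤ C * (R / hh) ^ k := one_le_mul_of_one_le_of_one_le (by linarith) hqk
    nlinarith⟩
  have key : ∀ (C' : ℝ) (k' : ℕ), 0 ≤ C' → C' ≤ C0 + Cm + C1 → k' ≤ k →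
      C' * Lam ⟨R, hh, P⟩ ^ k' * P ≤ C * (R / hh) ^ k * P := fun C' k' a0 a1 a2 => by
    refine mul_le_mul_of_nonneg_right ?_ h5.le
    have a3 : Lam ⟨R, hh, P⟩ ^ k' ≤ 2 ^ k * (R / hh) ^ k := by
      rw [← mul_pow, ← mul_div_assoc]
      exact pow_le_pow_right₀ (ha.one_le o) a2
    calc _ ≤ (C0 + Cm + C1) * (2 ^ k * (R / hh) ^ k) :=
          mul_le_mul a1 a3 (pow_nonneg (by linarith [ha.one_le o]) _) (by linarith)
      _ = (C0 + Cm + C1) * 2 ^ k * (R / hh) ^ k := by ring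
      _ ≤ _ := mul_le_mul_of_nonneg_right (by linarith) (by linarith)
  have hi : (⟨R, hh, P⟩ : Ix) ∈
      {i | (Adm X i ∧ C0 * Lam i ^ k0 * i.P ≤ 1) ∧ Cm * Lam i ^ km * i.P ≤ 1} :=
    ⟨⟨ha, (key C0 k0 c0 (by linarith) (by omega)).trans h6⟩,
      (key Cm km cm (by linarith) (by omega)).trans h6⟩
  refine ⟨⟨pul d.1 ⟨R, hh, P⟩, pul_data hom hM d.2 h hF hi⟩, (b1 _ hi).trans
    (ENNReal.ofReal_le_ofReal (key C1 k1 c1 (by linarith) (by omega))), rfl,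
    fun x hx => pul_left d.2 h ha (hF.J hp hi) hx, fun x hx => ?_⟩
  have hL : C2 * R ^ k2 ≤ L := le_trans (mul_le_mul (by linarith)
    (pow_le_pow_right₀ h2 (by omega)) (by positivity) (by linarith)) h7
  obtain ⟨a1, a2, a3, a4, a5, a6, a7⟩ := b2 _ hi x hx L hL
  refine ⟨rfl, a1, a2, a3, a4, a5, a6, le_trans ?_ a7⟩
  have : P * chi ((x - R) / hh) / C ≤ P * chi ((x - R) / hh) / 4 :=
    div_le_div_of_nonneg_left (mul_nonneg h5.le (chi_nonneg _)) (by norm_num) (by linarith)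
  simp only [ch]
  linarith

end Vale.Agent.P354E.Dt
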