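import Vale.Agent.P354E.RightE
import Vale.Agent.P354E.Iface

/-! Block R: the energy estimate, the bootstrap and the assembly. -/

open MeasureTheory Set Filter Topology

namespace Vale.Agent.P354E.Rt

lemma boot1 {F : ℝ → ℝ} {c d B : ℝ} (hc : ContinuousOn F (Icc c d)) (h0 : F c ≤ B)
    (hs : ∀ v ∈ Icc c d, (∀ v' ∈ Icc c v, F v' ≤ B) → F v < B) : ∀ v ∈ Icc c d, F v ≤ B := by
  by_contra hn
  push Not at hn
  obtain ⟨v0, hv0, hB⟩ := hn
  have hK : IsCompact (Icc c d ∩ F ⁻¹' Ici B) :=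
    isCompact_Icc.of_isClosed_subset (hc.preimage_isClosed_of_isClosed isClosed_Icc isClosed_Ici)
      inter_subset_left
  obtain ⟨v, ⟨hv, hvB⟩, hmin⟩ := hK.exists_isLeast ⟨v0, hv0, hB.le⟩
  have h1 : ∀ v' ∈ Ico c v, F v' ≤ B := fun v' h => by
    by_contra hc
    exact absurd (hmin ⟨⟨h.1, h.2.le.trans hv.2⟩, (not_le.1 hc).le⟩) (not_le.2 h.2)
  have h2 : F v ≤ B := by
    rcases eq_or_lt_of_le hv.1 with h | h
    · rwa [← h]
    · have h3 : ContinuousWithinAt F (Ico c v) v :=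
        (hc v hv).mono fun y hy => ⟨hy.1, hy.2.le.trans hv.2⟩
      have : (𝓝[Ico c v] v).NeBot := right_nhdsWithin_Ico_neBot h
      exact le_of_tendsto h3 (eventually_nhdsWithin_of_forall h1)
  refine absurd (hs v hv fun v' h => ?_) (not_lt.2 hvB)
  rcases eq_or_lt_of_le h.2 with h' | h'
  · rwa [h']
  · exact h1 v' ⟨h.1, h'⟩

lemma int_far {b b1 : ℝ → ℝ} {s1 s2 ε : ℝ} (hs : s1 ≤ s2) (cb : ContinuousOn b1 (Icc s1 s2))
    (db : ∀ s ∈ Icc s1 s2, HasDerivAt b (b1 s) s) (h1 : ∀ s ∈ Icc s1 s2, 1 ≤ b s) :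
    IntervalIntegrable (fun s => (ε / b s) ^ 2 * b1 s) volume s1 s2 ∧
      ∫ s in s1..s2, (ε / b s) ^ 2 * b1 s ≤ ε ^ 2 := by
  have cb0 : ContinuousOn b (Icc s1 s2) := fun s h => (db s h).continuousAt.continuousWithinAt
  have b0 : ∀ s ∈ Icc s1 s2, b s ≠ 0 := fun s h => by linarith [h1 s h]
  have i : IntervalIntegrable (fun s => (ε / b s) ^ 2 * b1 s) volume s1 s2 :=
    (((continuousOn_const.div cb0 b0).pow 2).mul cb).intervalIntegrable_of_Icc hs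
  refine ⟨i, ?_⟩
  rw [intervalIntegral.integral_eq_sub_of_hasDerivAt (f := fun s => -(ε ^ 2 / b s)) (fun s h => by
    rw [uIcc_of_le hs] at h
    refine ((hasDerivAt_const s (ε ^ 2)).div (db s h) (b0 s h)).neg.congr_deriv ?_
    field_simp; ring) i]
  have a1 := h1 s1 (left_mem_Icc.2 hs)
  have a2 := h1 s2 (right_mem_Icc.2 hs)
  have : ε ^ 2 / b s1 ≤ ε ^ 2 := div_le_self (sq_nonneg _) a1
  have : 0 ≤ ε ^ 2 / b s2 := by positivity
  linarith

/-- all constants -/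
structure Hyp2 (M rb V c C ε e : ℝ) (S : Fld) (D : Set P2)
    (E0 r0 σ k c1 c2 L μ0 cl CD ε1 CF CB : ℝ) : Prop extends Hyp M rb V c C ε e S D where
  pk : Pack M E0 rb r0 σ k c1 c2 L μ0 cl
  hD : ∀ r m E : ℝ, rb ≤ r → |m - M| ≤ μ0 → |E - E0| ≤ μ0 → 0 ≤ E → |DD m E r| ≤ CD
  he : |e ^ 2 - E0| ≤ μ0
  h1 : ε1 ≤ rb / 20
  h2 : 20 * ε + 10 * CD * ε1 ≤ μ0
  cl0 : 0 < cl
  CF0 : 0 ≤ CF
  CB0 : 0 ≤ CB
  hF : ∀ x, V ≤ x → |Df e S (-x, x)| ≤ CD →
    cA k r0 c1 c2 L S (-x, x) + cB σ k r0 L e S (-x, x) ≤ CF * (ε / x) ^ 2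
  hB : ∀ y ∈ Icc (-V) V, |Df e S (y, V)| ≤ CD → cB σ k r0 L e S (y, V) ≤ CB * ε ^ 2
  s1 : 2 * V * (C ^ 2 / c * ε ^ 2) ≤ ε1
  s2 : (2 * V * CB + CF) / cl * ε ^ 2 < ε1

namespace Hyp2

variable {M rb V c C ε e : ℝ} {S : Fld} {D : Set P2} {E0 r0 σ k c1 c2 L μ0 cl CD ε1 CF CB : ℝ}

lemma hM (H : Hyp2 M rb V c C ε e S D E0 r0 σ k c1 c2 L μ0 cl CD ε1 CF CB) :
    ∀ r, rb ≤ r → |DD M (e ^ 2) r| ≤ CD := fun r hr =>
  H.hD r M _ hr (by simpa using (abs_nonneg _).trans H.he) H.he (sq_nonneg e)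

lemma good (H : Hyp2 M rb V c C ε e S D E0 r0 σ k c1 c2 L μ0 cl CD ε1 CF CB) {q : P2}
    (hq : q ∈ D) (ht : 0 ≤ q.1 + q.2) (hv : V ≤ q.2) (hr : rb ≤ S.r q) (hX : XX S q ≤ ε1) :
    (cAu k r0 c1 c2 L e S q + cBv σ k r0 L e S q ≤ 0 ∧
      cl * (omg (Tf L S q) ^ 2 * th S q ^ 2) ≤ cA k r0 c1 c2 L S q ∧
      cl * (omg (Tf L S q) ^ 2 * xx S q) ≤ cB σ k r0 L e S q) ∧ |Df e S q| ≤ CD := by
  have hX' := hX.trans H.h1
  have C0 : 0 ≤ CD := (abs_nonneg _).trans (H.hM rb le_rfl)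
  have hm : |mass e S q - M| ≤ μ0 := by
    refine (H.mass_le hq ht hv hr hX' H.hM).trans (le_trans ?_ H.h2)
    gcongr
  exact ⟨H.pk e S q hr (H.part1 hq ht hv).1 (H.kap_ge hq ht hv hr hX') (H.kap_le hq ht hv) hm H.he
    (by linarith [H.V1]), H.hD _ _ _ hr hm H.he (sq_nonneg e)⟩

/-- the energy estimate below a curve -/
lemma curve (H : Hyp2 M rb V c C ε e S D E0 r0 σ k c1 c2 L μ0 cl CD ε1 CF CB)
    {a b a1 b1 : ℝ → ℝ} {s1 s2 : ℝ} (hs : s1 ≤ s2) (ca : ContinuousOn a1 (Icc s1 s2))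
    (cb : ContinuousOn b1 (Icc s1 s2)) (h : ∀ s ∈ Icc s1 s2, HasDerivAt a (a1 s) s ∧
      HasDerivAt b (b1 s) s ∧ 0 ≤ b1 s ∧ (a s, b s) ∈ D ∧ 0 ≤ a s + b s ∧ V ≤ b s ∧
      rb ≤ S.r (a s, b s) ∧ XX S (a s, b s) ≤ ε1) :
    (∫ y in (-b s2)..a s2, cB σ k r0 L e S (y, b s2)) +
      ∫ s in s1..s2, (cA k r0 c1 c2 L S (a s, b s) * b1 s + cB σ k r0 L e S (a s, b s) * -a1 s) ≤
      (∫ y in (-b s1)..a s1, cB σ k r0 L e S (y, b s1)) + CF * ε ^ 2 := by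
  have hc := cur H.sol H.dom.isOpen σ k r0 c1 c2 L
  have cb0 : ContinuousOn b (Icc s1 s2) := fun s hs => (h s hs).2.1.continuousAt.continuousWithinAt
  have hle : ∀ s ∈ Icc s1 s2, -b s ≤ a s := fun s hs => by linarith [(h s hs).2.2.2.2.1]
  have hU : ∀ s ∈ Icc s1 s2, ∀ y ∈ Icc (-b s) (a s), (y, b s) ∈ UU S D := fun s hs y hy =>
    H.mem_UU (h s hs).2.2.2.1 (seg_u_Tri hy) (h s hs).2.2.2.2.2.1
  have hg := fun s (hs : s ∈ Icc s1 s2) y (hy : y ∈ Icc (-b s) (a s)) =>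
    H.good (hU s hs y hy).1 (seg_u_Tri hy).2.2 (h s hs).2.2.2.2.2.1
      (H.past (h s hs).2.2.2.1 (h s hs).2.2.2.2.2.1 (h s hs).2.2.2.2.2.2.1 _ (seg_u_Tri hy))
      ((H.XX_mono (h s hs).2.2.2.1 (seg_u_Tri hy).2.2 hy.2 (h s hs).2.2.2.2.2.1).trans
        (h s hs).2.2.2.2.2.2.2)
  have key := PS_le hc (α := fun s => -b s) (α1 := fun s => -b1 s) hs cb.neg ca cb
    (fun s hs => (h s hs).2.1.neg) (fun s hs => (h s hs).1) (fun s hs => (h s hs).2.1) hle hU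
    (fun s hs => (h s hs).2.2.1) (fun s hs y hy => (hg s hs y hy).1.1)
  obtain ⟨i1, i2⟩ := int_far (ε := ε) hs cb (fun s hs => (h s hs).2.1)
    fun s hs => H.V1.trans (h s hs).2.2.2.2.2.1
  have m : ∀ s ∈ Icc s1 s2, (-b s, b s) ∈ UU S D := fun s hs => hU s hs _ ⟨le_rfl, hle s hs⟩
  have i3 : IntervalIntegrable (fun s => cA k r0 c1 c2 L S (-b s, b s) * b1 s +
      cB σ k r0 L e S (-b s, b s) * - -b1 s) volume s1 s2 :=
    (((hc.cA.comp (cb0.neg.prodMk cb0) m).mul cb).add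
      ((hc.cB.comp (cb0.neg.prodMk cb0) m).mul cb.neg.neg)).intervalIntegrable_of_Icc hs
  have i4 := intervalIntegral.integral_mono_on hs i3 (i1.const_mul CF) fun s hs => by
    have := mul_le_mul_of_nonneg_right (H.hF (b s) (h s hs).2.2.2.2.2.1
      (hg s hs _ ⟨le_rfl, hle s hs⟩).2) (h s hs).2.2.1
    linarith
  rw [intervalIntegral.integral_const_mul] at i4
  have := mul_le_mul_of_nonneg_left i2 H.CF0
  linarith

/-- the energy estimate on a triangle -/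
lemma est (H : Hyp2 M rb V c C ε e S D E0 r0 σ k c1 c2 L μ0 cl CD ε1 CF CB) {u v : ℝ}
    (hq : (u, v) ∈ D) (hv : max V (-u) ≤ v) (hr : rb ≤ S.r (u, v))
    (hX : ∀ v' ∈ Icc (max V (-u)) v, XX S (u, v') ≤ ε1) :
    ∫ y in (-v)..u, cB σ k r0 L e S (y, v) ≤ (2 * V * CB + CF) * ε ^ 2 := by
  have hc := cur H.sol H.dom.isOpen σ k r0 c1 c2 L
  have m1 := le_max_left V (-u)
  have m2 := le_max_right V (-u)
  have V1 := H.V1
  have hT : ∀ s ∈ Icc (max V (-u)) v, (u, s) ∈ Tri (u, v) := fun s hs =>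
    seg_v_Tri ⟨m2.trans hs.1, hs.2⟩
  have hp := H.past hq (m1.trans hv) hr
  have key := H.curve (a := fun _ => u) (b := fun s => s) (a1 := fun _ => 0) (b1 := fun _ => 1) hv
    continuousOn_const continuousOn_const fun s hs => ⟨hasDerivAt_const s u, hasDerivAt_id s,
      zero_le_one, H.dom.tri _ hq (hT s hs), (hT s hs).2.2, m1.trans hs.1, hp _ (hT s hs), hX s hs⟩
  have a1 : 0 ≤ ∫ s in (max V (-u))..v,
      (cA k r0 c1 c2 L S (u, s) * 1 + cB σ k r0 L e S (u, s) * -0) :=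
    intervalIntegral.integral_nonneg hv fun s hs => by
      have := (H.good (H.dom.tri _ hq (hT s hs)) (hT s hs).2.2 (m1.trans hs.1) (hp _ (hT s hs))
        (hX s hs)).1.2.1
      have : 0 ≤ cl * (omg (Tf L S (u, s)) ^ 2 * th S (u, s) ^ 2) := by
        have := H.cl0; positivity
      linarith
  have hCB : 0 ≤ CB * ε ^ 2 := mul_nonneg H.CB0 (sq_nonneg _)
  have a2 : ∫ y in (-max V (-u))..u, cB σ k r0 L e S (y, max V (-u)) ≤ 2 * V * (CB * ε ^ 2) := by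
    rcases le_total V (-u) with h | h
    · rw [max_eq_right h, neg_neg, intervalIntegral.integral_same]
      positivity
    rw [max_eq_left h] at hX hT hv ⊢
    have hu := H.u_lt hq hv hr
    have hle : -V ≤ u := by linarith
    have hV := hT V ⟨le_rfl, hv⟩
    have hVD := H.dom.tri _ hq hV
    have hU : ∀ y ∈ Icc (-V) u, (y, V) ∈ UU S D := fun y hy => H.mem_UU hVD (seg_u_Tri hy) le_rfl
    have := intervalIntegral.integral_mono_on hle (ii_u hc.cB hle hU)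
      (intervalIntegrable_const (c := CB * ε ^ 2)) fun y hy => H.hB y ⟨hy.1, hy.2.trans hu.le⟩
        (H.good (hU y hy).1 (seg_u_Tri hy).2.2 le_rfl (hp _ (Tri_sub hV (seg_u_Tri hy)))
          ((H.XX_mono hVD (seg_u_Tri hy).2.2 hy.2 le_rfl).trans (hX V ⟨le_rfl, hv⟩))).2
    rw [intervalIntegral.integral_const, smul_eq_mul] at this
    exact this.trans (mul_le_mul_of_nonneg_right (by linarith) hCB)
  linarith

lemma XX_le (H : Hyp2 M rb V c C ε e S D E0 r0 σ k c1 c2 L μ0 cl CD ε1 CF CB) {u v : ℝ}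
    (hq : (u, v) ∈ D) (hv : max V (-u) ≤ v) (hr : rb ≤ S.r (u, v))
    (hX : ∀ v' ∈ Icc (max V (-u)) v, XX S (u, v') ≤ ε1) :
    XX S (u, v) ≤ (2 * V * CB + CF) / cl * ε ^ 2 := by
  have hc := cur H.sol H.dom.isOpen σ k r0 c1 c2 L
  have hV := (le_max_left V (-u)).trans hv
  have hle : -v ≤ u := by linarith [(le_max_right V (-u)).trans hv]
  have hU : ∀ y ∈ Icc (-v) u, (y, v) ∈ UU S D := fun y hy => H.mem_UU hq (seg_u_Tri hy) hV
  have h1 := intervalIntegral.integral_mono_on hle ((ii_u (xx_cont H.sol) hle hU).const_mul cl)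
    (ii_u hc.cB hle hU) fun y hy => by
      refine le_trans ?_ (H.good (hU y hy).1 (seg_u_Tri hy).2.2 hV
        (H.past hq hV hr _ (seg_u_Tri hy))
        ((H.XX_mono hq (seg_u_Tri hy).2.2 hy.2 hV).trans (hX v ⟨hv, le_rfl⟩))).1.2.2
      exact mul_le_mul_of_nonneg_left (le_mul_of_one_le_left (xx_nonneg (hU y hy).2)
        (one_le_pow₀ (one_le_omg _))) H.cl0.le
  rw [intervalIntegral.integral_const_mul] at h1
  have h2 := H.est hq hv hr hX
  rw [div_mul_eq_mul_div, le_div_iff₀ H.cl0]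
  unfold XX
  simp only
  linarith

/-- the bootstrap -/
lemma XX_boot (H : Hyp2 M rb V c C ε e S D E0 r0 σ k c1 c2 L μ0 cl CD ε1 CF CB) {u v : ℝ}
    (hq : (u, v) ∈ D) (hv : max V (-u) ≤ v) (hr : rb ≤ S.r (u, v)) :
    ∀ v' ∈ Icc (max V (-u)) v, XX S (u, v') ≤ ε1 := by
  have m1 := le_max_left V (-u)
  have m2 := le_max_right V (-u)
  have V1 := H.V1
  have hT : ∀ s ∈ Icc (max V (-u)) v, (u, s) ∈ Tri (u, v) := fun s hs =>
    seg_v_Tri ⟨m2.trans hs.1, hs.2⟩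
  have hp := H.past hq (m1.trans hv) hr
  have hO : IsOpen (UU S D) := (cur H.sol H.dom.isOpen σ k r0 c1 c2 L).isOpen
  have hC : 0 ≤ C ^ 2 / c * ε ^ 2 := by have := H.c0; positivity
  refine boot1 (fun s hs => ?_) ?_ fun s hs h => ?_
  · exact (ps_cont hO (xx_cont H.sol) (α := fun s => -s) (a := fun _ => u) (b := fun s => s)
      (by linarith [m2.trans hs.1]) continuousAt_neg continuousAt_const continuousAt_id
      fun y hy => H.mem_UU (H.dom.tri _ hq (hT s hs)) (seg_u_Tri hy)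
        (m1.trans hs.1)).continuousWithinAt
  · refine le_trans ?_ H.s1
    unfold XX
    rcases le_total V (-u) with h | h
    · simp only [max_eq_right h, neg_neg, intervalIntegral.integral_same]
      positivity
    rw [max_eq_left h] at hT hv ⊢
    have hu := H.u_lt hq hv hr
    have hle : -V ≤ u := by linarith
    have hVD := H.dom.tri _ hq (hT V ⟨le_rfl, hv⟩)
    have := intervalIntegral.integral_mono_on hle (ii_u (xx_cont H.sol) hle fun y hy =>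
      H.mem_UU hVD (seg_u_Tri hy) le_rfl) (intervalIntegrable_const (c := C ^ 2 / c * ε ^ 2))
      fun y hy => H.xx_core ⟨hy.1, hy.2.trans hu.le⟩
    rw [intervalIntegral.integral_const, smul_eq_mul] at this
    exact this.trans (mul_le_mul_of_nonneg_right (by linarith) hC)
  · exact (H.XX_le (H.dom.tri _ hq (hT s hs)) hs.1 (hp _ (hT s hs)) h).trans_lt H.s2

lemma part3 (H : Hyp2 M rb V c C ε e S D E0 r0 σ k c1 c2 L μ0 cl CD ε1 CF CB) (hL : 10 * rb ≤ L)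
    {a b a1 b1 : ℝ → ℝ} {s1 s2 : ℝ} (hs : s1 ≤ s2) (ca : ContinuousOn a1 (Icc s1 s2))
    (cb : ContinuousOn b1 (Icc s1 s2)) (h : ∀ s ∈ Icc s1 s2, HasDerivAt a (a1 s) s ∧
      HasDerivAt b (b1 s) s ∧ a1 s < 0 ∧ 0 < b1 s ∧ (a s, b s) ∈ D ∧ 0 ≤ a s + b s ∧
      V ≤ b s ∧ S.r (a s, b s) = rb) :
    ∫ s in s1..s2, b s ^ 2 * (th S (a s, b s) ^ 2 * b1 s + xx S (a s, b s) * -a1 s) ≤
      (2 * V * CB + CF + CF) / cl * ε ^ 2 := by
  have hc := cur H.sol H.dom.isOpen σ k r0 c1 c2 L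
  have ca0 : ContinuousOn a (Icc s1 s2) := fun s hs => (h s hs).1.continuousAt.continuousWithinAt
  have cb0 : ContinuousOn b (Icc s1 s2) := fun s hs => (h s hs).2.1.continuousAt.continuousWithinAt
  have hD : ∀ s ∈ Icc s1 s2, (a s, b s) ∈ D := fun s hs => (h s hs).2.2.2.2.1
  have ht : ∀ s ∈ Icc s1 s2, 0 ≤ a s + b s := fun s hs => (h s hs).2.2.2.2.2.1
  have hV : ∀ s ∈ Icc s1 s2, V ≤ b s := fun s hs => (h s hs).2.2.2.2.2.2.1
  have hr : ∀ s ∈ Icc s1 s2, rb ≤ S.r (a s, b s) := fun s hs => (h s hs).2.2.2.2.2.2.2.ge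
  have hm : ∀ s ∈ Icc s1 s2, max V (-a s) ≤ b s := fun s hs =>
    max_le (hV s hs) (by linarith [ht s hs])
  have hb := fun s hs => H.XX_boot (hD s hs) (hm s hs) (hr s hs)
  have hX : ∀ s ∈ Icc s1 s2, XX S (a s, b s) ≤ ε1 := fun s hs => hb s hs _ ⟨hm s hs, le_rfl⟩
  have key := H.curve hs ca cb fun s hs => ⟨(h s hs).1, (h s hs).2.1, (h s hs).2.2.2.1.le,
    hD s hs, ht s hs, hV s hs, hr s hs, hX s hs⟩
  have l1 := left_mem_Icc.2 hs
  have l2 := right_mem_Icc.2 hs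
  have a2 := H.est (hD s1 l1) (hm s1 l1) (hr s1 l1) (hb s1 l1)
  have a3 : 0 ≤ ∫ y in (-b s2)..a s2, cB σ k r0 L e S (y, b s2) :=
    intervalIntegral.integral_nonneg (by linarith [ht s2 l2]) fun y hy => by
      have hU := H.mem_UU (hD s2 l2) (seg_u_Tri hy) (hV s2 l2)
      refine le_trans ?_ (H.good hU.1 (seg_u_Tri hy).2.2 (hV s2 l2)
        (H.past (hD s2 l2) (hV s2 l2) (hr s2 l2) _ (seg_u_Tri hy))
        ((H.XX_mono (hD s2 l2) (seg_u_Tri hy).2.2 hy.2 (hV s2 l2)).trans (hX s2 l2))).1.2.2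
      exact mul_nonneg H.cl0.le (mul_nonneg (sq_nonneg _) (xx_nonneg hU.2))
  have m : ∀ s ∈ Icc s1 s2, (a s, b s) ∈ UU S D := fun s hs =>
    H.mem_UU (hD s hs) (self_mem_Tri (ht s hs)) (hV s hs)
  have cth : ContinuousOn (th S) D := H.sol.cont.r.mul H.sol.cont.pv
  have i1 : IntervalIntegrable (fun s => b s ^ 2 * (th S (a s, b s) ^ 2 * b1 s +
      xx S (a s, b s) * -a1 s)) volume s1 s2 :=
    ((cb0.pow 2).mul ((((cth.comp (ca0.prodMk cb0) hD).pow 2).mul cb).add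
      (((xx_cont H.sol).comp (ca0.prodMk cb0) m).mul ca.neg))).intervalIntegrable_of_Icc hs
  have i2 : IntervalIntegrable (fun s => cA k r0 c1 c2 L S (a s, b s) * b1 s +
      cB σ k r0 L e S (a s, b s) * -a1 s) volume s1 s2 :=
    (((hc.cA.comp (ca0.prodMk cb0) m).mul cb).add
      ((hc.cB.comp (ca0.prodMk cb0) m).mul ca.neg)).intervalIntegrable_of_Icc hs
  have a4 := intervalIntegral.integral_mono_on hs (i1.const_mul cl) i2 fun s hs => by
    obtain ⟨⟨-, g1, g2⟩, -⟩ := H.good (hD s hs) (ht s hs) (hV s hs) (hr s hs) (hX s hs)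
    have b0 : 0 ≤ b s := by linarith [H.V1, hV s hs]
    have o1 : b s ≤ omg (Tf L S (a s, b s)) := by
      refine le_trans ?_ (le_omg _)
      unfold Tf
      rw [(h s hs).2.2.2.2.2.2.2]
      simp only
      linarith
    have cl0 := H.cl0
    have x0 := xx_nonneg (m s hs).2
    have g3 : cl * (b s ^ 2 * th S (a s, b s) ^ 2) ≤ cA k r0 c1 c2 L S (a s, b s) :=
      le_trans (by gcongr) g1
    have g4 : cl * (b s ^ 2 * xx S (a s, b s)) ≤ cB σ k r0 L e S (a s, b s) :=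
      le_trans (by gcongr) g2
    have := mul_le_mul_of_nonneg_right g3 (h s hs).2.2.2.1.le
    have := mul_le_mul_of_nonneg_right g4 (neg_nonneg.2 (h s hs).2.2.1.le)
    linarith
  rw [intervalIntegral.integral_const_mul] at a4
  rw [div_mul_eq_mul_div, le_div_iff₀ H.cl0]
  linarith

end Hyp2

end Vale.Agent.P354E.Rt

namespace Vale.Agent.P354E

open Rt

theorem bRight : BRight := by
  intro M e0 rb V c C he0 heM h1 _ hV hc
  have hM : 0 < M := (abs_nonneg _).trans_lt heM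
  have hE : e0 ^ 2 < M ^ 2 := by
    rw [← sq_abs e0]; gcongr
  have hs : 0 < √(M ^ 2 - e0 ^ 2) := Real.sqrt_pos.2 (by linarith)
  have hs2 : √(M ^ 2 - e0 ^ 2) ^ 2 = M ^ 2 - e0 ^ 2 := Real.sq_sqrt (by linarith)
  have hsM : √(M ^ 2 - e0 ^ 2) < M := by
    rw [Real.sqrt_lt' hM]; linarith [sq_pos_of_ne_zero he0]
  obtain ⟨σ, k, c1, c2, L, μ0, cl, CD, hσ, hk, c10, c20, hL, hμ, cl0, CD0, hD, hP⟩ :=
    pack hs hsM h1
  have hb : 0 < rb := by unfold rm at h1; linarith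
  rw [hs2, sub_sub_cancel] at hD hP
  have ω0 : 0 < omg (V + L) := zero_lt_one.trans_le (one_le_omg _)
  obtain ⟨CF, hCF, CF0⟩ : ∃ CF, CF = 45 * omg (V + L) ^ 2 + 144 * (2 * c1 * omg (V + L) + c2) +
      (omg (V + L) ^ 2 * (k / σ + CD) * 72 + 3232 * omg (V + L) * (CD ^ 2) ^ 2 * 3) ∧ 0 < CF :=
    ⟨_, rfl, by positivity⟩
  obtain ⟨CB, hCB, CB0⟩ : ∃ CB, CB = omg (V + L) ^ 2 * (k / σ + CD) * (C ^ 2 / c) +
      3232 * omg (V + L) * (CD ^ 2) ^ 2 * C ^ 2 ∧ 0 ≤ CB := ⟨_, rfl, by positivity⟩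
  obtain ⟨ε1, ε10, ε11, ε12⟩ : ∃ ε1, 0 < ε1 ∧ ε1 ≤ rb / 20 ∧ 10 * CD * ε1 ≤ μ0 / 2 := by
    refine ⟨min (rb / 20) (μ0 / 2 / (10 * CD)), by positivity, min_le_left _ _, ?_⟩
    have := min_le_right (rb / 20) (μ0 / 2 / (10 * CD))
    rw [le_div_iff₀ (by positivity)] at this
    linarith
  have V0 : 0 < V := by linarith
  obtain ⟨K, hK, K0⟩ : ∃ K, K = (2 * V * CB + CF) / cl ∧ 0 < K := ⟨_, rfl, by positivity⟩
  obtain ⟨K', hK', K1⟩ : ∃ K', K' = 2 * V * (C ^ 2 / c) ∧ 0 ≤ K' := ⟨_, rfl, by positivity⟩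
  refine ⟨min (min 1 (μ0 / 40)) (ε1 / 2 / (K + K')), 20 + 10 * CD * K + (K + CF / cl),
    by positivity, fun ε e S D ε0 hε he hS hD' hC hF => ?_⟩
  have e1 : ε ≤ 1 := hε.trans ((min_le_left _ _).trans (min_le_left _ _))
  have e2 : ε ≤ μ0 / 40 := hε.trans ((min_le_left _ _).trans (min_le_right _ _))
  have e3 : ε * (K + K') ≤ ε1 / 2 := by
    have := hε.trans (min_le_right _ _)
    rwa [le_div_iff₀ (by positivity)] at this
  have e4 : ε ^ 2 ≤ ε := by nlinarith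
  have e5 : K * ε ^ 2 ≤ K * ε := by gcongr
  have e6 : K' * ε ^ 2 ≤ K' * ε := by gcongr
  have e7 : 0 ≤ K * ε := by positivity
  have e8 : 0 ≤ K' * ε := by positivity
  have H0 : Hyp M rb V c C ε e S D := ⟨hS, hD', hC, hF, hV, hc, hb⟩
  have hks : 0 ≤ k / σ := by positivity
  have H : Hyp2 M rb V c C ε e S D _ _ σ k c1 c2 L μ0 cl CD ε1 CF CB :=
    ⟨H0, hP, hD, he.trans (by linarith), ε11, by linarith, cl0, CF0.le, CB0,
      fun x hx h => hCF ▸ H0.flux_far hks c10.le c20.le hx h,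
      fun y hy h => hCB ▸ H0.flux_core hks hy h, by rw [← mul_assoc, ← hK']; linarith,
      by rw [← hK]; linarith⟩
  have c3 : 0 ≤ CF / cl := by positivity
  have c4 : 0 ≤ 10 * CD * K := by positivity
  refine ⟨fun q hq ht hv => H0.part1 hq ht hv, fun q hq ht hv hr => ?_,
    fun a b a1 b1 s1 s2 hs ca cb h => ?_⟩
  · obtain ⟨u, v⟩ := q
    have hm : max V (-u) ≤ v := max_le hv (by simp only at ht; linarith)
    have hb' := H.XX_boot hq hm hr
    have hX := H.XX_le hq hm hr hb'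
    have hX' := (hb' v ⟨hm, le_rfl⟩).trans ε11
    rw [← hK] at hX
    refine ⟨H0.past hq hv hr, (H0.mass_le hq ht hv hr hX' H.hM).trans ?_, ?_, hX.trans ?_⟩
    · have : 10 * CD * XX S (u, v) ≤ 10 * CD * (K * ε) := by gcongr; linarith
      have : 0 ≤ (K + CF / cl) * ε := by positivity
      linarith
    · have := H0.kap_ge hq ht hv hr hX'
      unfold kap at this
      rw [le_div_iff₀ (by norm_num), le_div_iff₀ (by linarith [(H0.part1 hq ht hv).1])] at this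
      linarith
    · gcongr; linarith
  · refine (H.part3 hL hs ca cb h).trans ?_
    rw [add_div, ← hK]
    exact mul_le_mul_of_nonneg_right (by linarith) (sq_nonneg ε)

end Vale.Agent.P354E
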