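import Vale.Agent.P354E.Asm2
import Vale.Agent.P354E.Pulse4
import Vale.Agent.P354E.Core
import Vale.Agent.P354E.Osc
import Vale.Agent.P354E.DFar
import Vale.Agent.P354E.Omega
import Vale.Agent.P354E.Right
import Vale.Agent.P354W.EMS
import Vale.Agent.P354W.Baire
import Vale.Agent.P354W.Strip3
import Vale.Agent.P354B.Struct
import Vale.Agent.P354G.Final

namespace Vale.Agent.P354E

theorem main : BMain :=
  bMain bSym bExist bStab (bCore bExist bStab) (P354B.bStruct bOmega bRight) bOsc bStrip
    P354G.bGeo Dt.dRed Dt.dRn Dt.dCont dFar Dt.dPulse dBaire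

end Vale.Agent.P354E
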