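import Vale.Agent.P354E.Sol

/-! The divergence theorem on regions between two curves in the (u,v) plane. -/

open scoped ContDiff
open MeasureTheory Set Filter Topology

namespace Vale.Agent.P354E

/-- a horizontal segment in an open set has a box around it -/
lemma ps_box {U : Set P2} (hU : IsOpen U) {α β v : ℝ} (hab : α ≤ β)
    (h : ∀ y ∈ Icc α β, (y, v) ∈ U) :
    ∃ δ, 0 < δ ∧ ∀ y ∈ Icc (α - δ) (β + δ), ∀ w ∈ Icc (v - δ) (v + δ), (y, w) ∈ U := by
  have hK : IsCompact (Icc α β ×ˢ ({v} : Set ℝ)) := isCompact_Icc.prod isCompact_singleton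
  have hsub : Icc α β ×ˢ ({v} : Set ℝ) ⊆ U := by
    rintro ⟨y, w⟩ ⟨hy, hw⟩
    simp only [mem_singleton_iff] at hw
    subst hw
    exact h y hy
  obtain ⟨δ, hδ, hs⟩ := hK.exists_cthickening_subset_open hU hsub
  refine ⟨δ, hδ, fun y hy w hw => hs ?_⟩
  refine Metric.mem_cthickening_of_dist_le (y, w) (max α (min y β), v) δ _
    ⟨⟨le_max_left _ _, max_le hab (min_le_right _ _)⟩, rfl⟩ ?_
  rw [Prod.dist_eq, Real.dist_eq, Real.dist_eq]
  refine max_le ?_ (abs_le.mpr ⟨by linarith [hw.1], by linarith [hw.2]⟩)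
  rcases le_total y β with h1 | h1
  · rw [min_eq_left h1]
    rcases le_total α y with h2 | h2
    · rw [max_eq_right h2]; simpa using hδ.le
    · rw [max_eq_left h2]; exact abs_le.mpr ⟨by linarith [hy.1], by linarith⟩
  · rw [min_eq_right h1, max_eq_right hab]
    exact abs_le.mpr ⟨by linarith, by linarith [hy.2]⟩

/-- clamp to an interval -/
def clamp (a b x : ℝ) : ℝ := max a (min x b)

lemma clamp_cont (a b : ℝ) : Continuous (clamp a b) := by unfold clamp; fun_prop

lemma clamp_mem {a b : ℝ} (h : a ≤ b) (x : ℝ) : clamp a b x ∈ Icc a b :=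
  ⟨le_max_left _ _, max_le h (min_le_right _ _)⟩

lemma clamp_eq {a b x : ℝ} (h : x ∈ Icc a b) : clamp a b x = x := by
  unfold clamp; rw [min_eq_left h.2, max_eq_right h.1]

/-- the clamped function -/
def clp (f : P2 → ℝ) (a b c d : ℝ) (q : P2) : ℝ := f (clamp a b q.1, clamp c d q.2)

lemma clp_cont {U : Set P2} {f : P2 → ℝ} (hf : ContinuousOn f U) {a b c d : ℝ} (hab : a ≤ b)
    (hcd : c ≤ d) (h : ∀ y ∈ Icc a b, ∀ w ∈ Icc c d, (y, w) ∈ U) :
    Continuous (clp f a b c d) := by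
  unfold clp
  refine hf.comp_continuous (f := fun q : P2 => (clamp a b q.1, clamp c d q.2)) ?_ fun q => ?_
  · exact ((clamp_cont a b).comp continuous_fst).prodMk ((clamp_cont c d).comp continuous_snd)
  · exact h _ (clamp_mem hab _) _ (clamp_mem hcd _)

lemma clp_eq {f : P2 → ℝ} {a b c d y w : ℝ} (hy : y ∈ Icc a b) (hw : w ∈ Icc c d) :
    clp f a b c d (y, w) = f (y, w) := by
  unfold clp; simp only [clamp_eq hy, clamp_eq hw]

/-- near s0 the integral over the moving segment is a difference of two primitives -/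
lemma ps_near {f : P2 → ℝ} {α a b : ℝ → ℝ} {s0 δ : ℝ} (hδ : 0 < δ) (hle : α s0 ≤ a s0)
    (hα : ContinuousAt α s0) (ha : ContinuousAt a s0) (hb : ContinuousAt b s0)
    (hc : Continuous (clp f (α s0 - δ) (a s0 + δ) (b s0 - δ) (b s0 + δ))) :
    (fun s => ∫ y in α s..a s, f (y, b s)) =ᶠ[𝓝 s0] fun s =>
      (∫ y in α s0..a s, clp f (α s0 - δ) (a s0 + δ) (b s0 - δ) (b s0 + δ) (y, b s)) -
        ∫ y in α s0..α s, clp f (α s0 - δ) (a s0 + δ) (b s0 - δ) (b s0 + δ) (y, b s) := by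
  have h1 : ∀ᶠ s in 𝓝 s0, α s ∈ Icc (α s0 - δ) (a s0 + δ) :=
    hα.eventually (Icc_mem_nhds (by linarith) (by linarith))
  have h2 : ∀ᶠ s in 𝓝 s0, a s ∈ Icc (α s0 - δ) (a s0 + δ) :=
    ha.eventually (Icc_mem_nhds (by linarith) (by linarith))
  have h3 : ∀ᶠ s in 𝓝 s0, b s ∈ Icc (b s0 - δ) (b s0 + δ) :=
    hb.eventually (Icc_mem_nhds (by linarith) (by linarith))
  filter_upwards [h1, h2, h3] with s h1 h2 h3
  have hi : ∀ x y : ℝ, IntervalIntegrable
      (fun z => clp f (α s0 - δ) (a s0 + δ) (b s0 - δ) (b s0 + δ) (z, b s)) volume x y :=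
    fun x y => (hc.comp (continuous_id.prodMk continuous_const)).intervalIntegrable x y
  rw [intervalIntegral.integral_interval_sub_left (hi _ _) (hi _ _)]
  refine intervalIntegral.integral_congr fun y hy => ?_
  have hy' : y ∈ Icc (α s0 - δ) (a s0 + δ) := by
    rcases mem_uIcc.mp hy with h | h
    · exact ⟨h1.1.trans h.1, h.2.trans h2.2⟩
    · exact ⟨h2.1.trans h.1, h.2.trans h1.2⟩
  exact (clp_eq hy' h3).symm

/-- continuity of the integral over a moving horizontal segment -/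
theorem ps_cont {U : Set P2} (hU : IsOpen U) {f : P2 → ℝ} (hf : ContinuousOn f U)
    {α a b : ℝ → ℝ} {s0 : ℝ} (hle : α s0 ≤ a s0) (hα : ContinuousAt α s0) (ha : ContinuousAt a s0)
    (hb : ContinuousAt b s0) (h : ∀ y ∈ Icc (α s0) (a s0), (y, b s0) ∈ U) :
    ContinuousAt (fun s => ∫ y in α s..a s, f (y, b s)) s0 := by
  obtain ⟨δ, hδ, hbox⟩ := ps_box hU hle h
  have hc := clp_cont hf (by linarith) (by linarith) hbox
  refine ContinuousAt.congr ?_ (ps_near hδ hle hα ha hb hc).symm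
  have hH : Continuous fun p : ℝ × ℝ => ∫ y in α s0..p.2,
      clp f (α s0 - δ) (a s0 + δ) (b s0 - δ) (b s0 + δ) (y, p.1) :=
    intervalIntegral.continuous_parametric_primitive_of_continuous
      (f := fun w y => clp f (α s0 - δ) (a s0 + δ) (b s0 - δ) (b s0 + δ) (y, w))
      (hc.comp continuous_swap)
  exact (hH.continuousAt.comp (hb.prodMk ha)).sub (hH.continuousAt.comp (hb.prodMk hα))

/-- the primitive in u of a function with a continuous v derivative is differentiable -/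
lemma ps_prim {g gv : P2 → ℝ} (hg : Continuous g) (hgv : Continuous gv) {c d : ℝ}
    (hd : ∀ y, ∀ w ∈ Ioo c d, HasDerivAt (fun s => g (y, s)) (gv (y, w)) w) (x0 y0 : ℝ) {v : ℝ}
    (hv : v ∈ Ioo c d) {a b : ℝ → ℝ} {a1 b1 s0 : ℝ} (ha : HasDerivAt a a1 s0)
    (hb : HasDerivAt b b1 s0) (hy : a s0 = y0) (hw : b s0 = v) :
    HasDerivAt (fun s => ∫ y in x0..a s, g (y, b s))
      (g (y0, v) * a1 + (∫ y in x0..y0, gv (y, v)) * b1) s0 := by
  have hH : Continuous fun p : ℝ × ℝ => ∫ y in x0..p.2, gv (y, p.1) :=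
    intervalIntegral.continuous_parametric_primitive_of_continuous
      (f := fun w y => gv (y, w)) (hgv.comp continuous_swap)
  have key := hasStrictFDerivAt_uncurry_coprod (𝕜 := ℝ) (u := (y0, v))
    (f := fun y w => ∫ x in x0..y, g (x, w))
    (f₁ := fun y w => ContinuousLinearMap.toSpanSingleton ℝ (g (y, w)))
    (f₂ := fun y w => ContinuousLinearMap.toSpanSingleton ℝ (∫ x in x0..y, gv (x, w)))
    (Eventually.of_forall fun q => by
      have h1 : Continuous fun x => g (x, q.2) := hg.comp (continuous_id.prodMk continuous_const)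
      exact (h1.integral_hasStrictDerivAt x0 q.1).hasDerivAt.hasFDerivAt)
    (by
      have h3 : ∀ᶠ q : ℝ × ℝ in 𝓝 (y0, v), q.2 ∈ Ioo c d :=
        continuous_snd.continuousAt.eventually (Ioo_mem_nhds hv.1 hv.2)
      filter_upwards [h3] with q hq
      obtain ⟨η, hη, hsub⟩ : ∃ η, 0 < η ∧ Icc (q.2 - η) (q.2 + η) ⊆ Ioo c d := by
        refine ⟨min (q.2 - c) (d - q.2) / 2, ?_, fun z hz => ⟨?_, ?_⟩⟩
        · have := lt_min (sub_pos.mpr hq.1) (sub_pos.mpr hq.2); linarith
        · have := min_le_left (q.2 - c) (d - q.2); have := hq.1; linarith [hz.1]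
        · have := min_le_right (q.2 - c) (d - q.2); have := hq.2; linarith [hz.2]
      obtain ⟨M, hM⟩ := (isCompact_uIcc (a := x0) (b := q.1)).prod
        (isCompact_Icc (a := q.2 - η) (b := q.2 + η)) |>.exists_bound_of_continuousOn
          hgv.continuousOn
      have := intervalIntegral.hasDerivAt_integral_of_dominated_loc_of_deriv_le
        (μ := volume) (a := x0) (b := q.1) (F := fun w x => g (x, w)) (F' := fun w x => gv (x, w))
        (x₀ := q.2) (s := Icc (q.2 - η) (q.2 + η)) (bound := fun _ => M)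
        (Icc_mem_nhds (by linarith) (by linarith))
        (Eventually.of_forall fun w =>
          (hg.comp (continuous_id.prodMk continuous_const)).aestronglyMeasurable)
        ((hg.comp (continuous_id.prodMk continuous_const)).intervalIntegrable _ _)
        (hgv.comp (continuous_id.prodMk continuous_const)).aestronglyMeasurable
        (Eventually.of_forall fun t ht w hw => hM (t, w) ⟨uIoc_subset_uIcc ht, hw⟩)
        intervalIntegrable_const
        (Eventually.of_forall fun t _ w hw => hd t w (hsub hw))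
      exact this.2.hasFDerivAt)
    (((ContinuousLinearMap.toSpanSingletonCLE (𝕜 := ℝ) (E := ℝ)).continuous.comp hg).continuousAt)
    (((ContinuousLinearMap.toSpanSingletonCLE (𝕜 := ℝ) (E := ℝ)).continuous.comp
      (hH.comp continuous_swap)).continuousAt)
  have h2 : HasDerivAt (fun s => (a s, b s)) (a1, b1) s0 := ha.prodMk hb
  have h3 := key.hasFDerivAt
  rw [← hy, ← hw] at h3
  have h4 := h3.comp_hasDerivAt s0 h2
  refine HasDerivAt.congr_deriv h4 ?_
  simp [Function.HasUncurry.uncurry, hy, hw, mul_comm]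

/-- the derivative of the integral over a moving horizontal segment -/
theorem ps_deriv {U : Set P2} (hU : IsOpen U) {B Bv : P2 → ℝ} (hB : ContinuousOn B U)
    (hBv : ContinuousOn Bv U) (hd : ∀ q ∈ U, Dv B q (Bv q)) {α a b : ℝ → ℝ} {α1 a1 b1 s0 : ℝ}
    (hle : α s0 ≤ a s0) (hα : HasDerivAt α α1 s0) (ha : HasDerivAt a a1 s0)
    (hb : HasDerivAt b b1 s0) (h : ∀ y ∈ Icc (α s0) (a s0), (y, b s0) ∈ U) :
    HasDerivAt (fun s => ∫ y in α s..a s, B (y, b s))
      (B (a s0, b s0) * a1 - B (α s0, b s0) * α1 + (∫ y in α s0..a s0, Bv (y, b s0)) * b1) s0 := by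
  obtain ⟨δ, hδ, hbox⟩ := ps_box hU hle h
  have hc := clp_cont hB (by linarith) (by linarith) hbox
  have hcv := clp_cont hBv (by linarith) (by linarith) hbox
  refine HasDerivAt.congr_of_eventuallyEq ?_
    (ps_near hδ hle hα.continuousAt ha.continuousAt hb.continuousAt hc)
  have hdd : ∀ y, ∀ w ∈ Ioo (b s0 - δ) (b s0 + δ), HasDerivAt
      (fun s => clp B (α s0 - δ) (a s0 + δ) (b s0 - δ) (b s0 + δ) (y, s))
      (clp Bv (α s0 - δ) (a s0 + δ) (b s0 - δ) (b s0 + δ) (y, w)) w := by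
    intro y w hw
    have hm := clamp_mem (show α s0 - δ ≤ a s0 + δ by linarith) y
    have h1 := hd _ (hbox _ hm w (Ioo_subset_Icc_self hw))
    have h2 : clp Bv (α s0 - δ) (a s0 + δ) (b s0 - δ) (b s0 + δ) (y, w) =
        Bv (clamp (α s0 - δ) (a s0 + δ) y, w) := by
      unfold clp; simp only [clamp_eq (Ioo_subset_Icc_self hw)]
    rw [h2]
    refine HasDerivAt.congr_of_eventuallyEq h1 ?_
    filter_upwards [Ioo_mem_nhds hw.1 hw.2] with s hs
    unfold clp; simp only [clamp_eq (Ioo_subset_Icc_self hs)]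
  have hv : b s0 ∈ Ioo (b s0 - δ) (b s0 + δ) := ⟨by linarith, by linarith⟩
  have h1 := ps_prim hc hcv hdd (α s0) (a s0) hv ha hb rfl rfl
  have h2 := ps_prim hc hcv hdd (α s0) (α s0) hv hα hb rfl rfl
  have hm : ∀ y ∈ Icc (α s0) (a s0), y ∈ Icc (α s0 - δ) (a s0 + δ) :=
    fun y hy => ⟨by linarith [hy.1], by linarith [hy.2]⟩
  have hv' := Ioo_subset_Icc_self hv
  have e1 : ∫ y in α s0..a s0, clp Bv (α s0 - δ) (a s0 + δ) (b s0 - δ) (b s0 + δ) (y, b s0) =
      ∫ y in α s0..a s0, Bv (y, b s0) :=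
    intervalIntegral.integral_congr fun y hy => clp_eq (hm y (by rwa [uIcc_of_le hle] at hy)) hv'
  rw [e1, clp_eq (hm _ ⟨hle, le_rfl⟩) hv'] at h1
  rw [intervalIntegral.integral_same, clp_eq (hm _ ⟨le_rfl, hle⟩) hv'] at h2
  refine HasDerivAt.congr_deriv (h1.sub h2) ?_
  ring

/-- the fundamental theorem of calculus along a horizontal segment -/
theorem ftc_u {U : Set P2} {A Au : P2 → ℝ} (hAu : ContinuousOn Au U)
    (hd : ∀ q ∈ U, Du A q (Au q)) {α β v : ℝ} (hle : α ≤ β) (h : ∀ y ∈ Icc α β, (y, v) ∈ U) :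
    ∫ y in α..β, Au (y, v) = A (β, v) - A (α, v) := by
  refine intervalIntegral.integral_eq_sub_of_hasDerivAt (f := fun y => A (y, v)) ?_ ?_
  · intro y hy
    rw [uIcc_of_le hle] at hy
    exact hd _ (h y hy)
  · refine ContinuousOn.intervalIntegrable ?_
    rw [uIcc_of_le hle]
    exact hAu.comp (continuous_id.prodMk continuous_const).continuousOn h

/-- the fundamental theorem of calculus along a vertical segment -/
theorem ftc_v {U : Set P2} {B Bv : P2 → ℝ} (hBv : ContinuousOn Bv U)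
    (hd : ∀ q ∈ U, Dv B q (Bv q)) {α β u : ℝ} (hle : α ≤ β) (h : ∀ y ∈ Icc α β, (u, y) ∈ U) :
    ∫ y in α..β, Bv (u, y) = B (u, β) - B (u, α) := by
  refine intervalIntegral.integral_eq_sub_of_hasDerivAt (f := fun y => B (u, y)) ?_ ?_
  · intro y hy
    rw [uIcc_of_le hle] at hy
    exact hd _ (h y hy)
  · refine ContinuousOn.intervalIntegrable ?_
    rw [uIcc_of_le hle]
    exact hBv.comp (continuous_const.prodMk continuous_id).continuousOn h

lemma ii_u {U : Set P2} {f : P2 → ℝ} (hf : ContinuousOn f U) {α β v : ℝ} (hle : α ≤ β)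
    (h : ∀ y ∈ Icc α β, (y, v) ∈ U) : IntervalIntegrable (fun y => f (y, v)) volume α β := by
  refine ContinuousOn.intervalIntegrable ?_
  rw [uIcc_of_le hle]
  exact hf.comp (continuous_id.prodMk continuous_const).continuousOn h

lemma ii_v {U : Set P2} {f : P2 → ℝ} (hf : ContinuousOn f U) {α β u : ℝ} (hle : α ≤ β)
    (h : ∀ y ∈ Icc α β, (u, y) ∈ U) : IntervalIntegrable (fun y => f (u, y)) volume α β := by
  refine ContinuousOn.intervalIntegrable ?_
  rw [uIcc_of_le hle]
  exact hf.comp (continuous_const.prodMk continuous_id).continuousOn h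

/-- A current (A,B) on an open set U: A is the flux density through lines u = const, B the one
through lines v = const. -/
structure Cur (U : Set P2) (A B Au Bv : P2 → ℝ) : Prop where
  isOpen : IsOpen U
  cA : ContinuousOn A U
  cB : ContinuousOn B U
  cAu : ContinuousOn Au U
  cBv : ContinuousOn Bv U
  dA : ∀ q ∈ U, Du A q (Au q)
  dB : ∀ q ∈ U, Dv B q (Bv q)

/-- The divergence theorem on the region of all (y, b s), α s ≤ y ≤ a s, s1 ≤ s ≤ s2. -/
theorem PS {U : Set P2} {A B Au Bv : P2 → ℝ} (hc : Cur U A B Au Bv) {α a b α1 a1 b1 : ℝ → ℝ}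
    {s1 s2 : ℝ} (hs : s1 ≤ s2) (cα : ContinuousOn α1 (Icc s1 s2))
    (ca : ContinuousOn a1 (Icc s1 s2)) (cb : ContinuousOn b1 (Icc s1 s2))
    (dα : ∀ s ∈ Icc s1 s2, HasDerivAt α (α1 s) s) (da : ∀ s ∈ Icc s1 s2, HasDerivAt a (a1 s) s)
    (db : ∀ s ∈ Icc s1 s2, HasDerivAt b (b1 s) s) (hle : ∀ s ∈ Icc s1 s2, α s ≤ a s)
    (hU : ∀ s ∈ Icc s1 s2, ∀ y ∈ Icc (α s) (a s), (y, b s) ∈ U) :
    (∫ y in α s2..a s2, B (y, b s2)) +
        ∫ s in s1..s2, (A (a s, b s) * b1 s + B (a s, b s) * -a1 s) =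
      (∫ y in α s1..a s1, B (y, b s1)) +
        (∫ s in s1..s2, (A (α s, b s) * b1 s + B (α s, b s) * -α1 s)) +
        ∫ s in s1..s2, (∫ y in α s..a s, (Au (y, b s) + Bv (y, b s))) * b1 s := by
  have cα0 : ContinuousOn α (Icc s1 s2) := fun s h => (dα s h).continuousAt.continuousWithinAt
  have ca0 : ContinuousOn a (Icc s1 s2) := fun s h => (da s h).continuousAt.continuousWithinAt
  have cb0 : ContinuousOn b (Icc s1 s2) := fun s h => (db s h).continuousAt.continuousWithinAt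
  have m1 : ∀ s ∈ Icc s1 s2, (a s, b s) ∈ U := fun s h => hU s h _ ⟨hle s h, le_rfl⟩
  have m2 : ∀ s ∈ Icc s1 s2, (α s, b s) ∈ U := fun s h => hU s h _ ⟨le_rfl, hle s h⟩
  have k1 : ∀ {f : P2 → ℝ}, ContinuousOn f U → ContinuousOn (fun s => f (a s, b s)) (Icc s1 s2) :=
    fun hf => hf.comp (ca0.prodMk cb0) m1
  have k2 : ∀ {f : P2 → ℝ}, ContinuousOn f U → ContinuousOn (fun s => f (α s, b s)) (Icc s1 s2) :=
    fun hf => hf.comp (cα0.prodMk cb0) m2
  have k3 : ∀ {f : P2 → ℝ}, ContinuousOn f U →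
      ContinuousOn (fun s => ∫ y in α s..a s, f (y, b s)) (Icc s1 s2) :=
    fun hf s h => (ps_cont hc.isOpen hf (hle s h) (dα s h).continuousAt (da s h).continuousAt
      (db s h).continuousAt (hU s h)).continuousWithinAt
  have ii : ∀ {f : ℝ → ℝ}, ContinuousOn f (Icc s1 s2) → IntervalIntegrable f volume s1 s2 :=
    fun hf => ContinuousOn.intervalIntegrable (by rwa [uIcc_of_le hs])
  have key := intervalIntegral.integral_eq_sub_of_hasDerivAt
    (f := fun s => ∫ y in α s..a s, B (y, b s))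
    (f' := fun s => B (a s, b s) * a1 s - B (α s, b s) * α1 s +
      (∫ y in α s..a s, Bv (y, b s)) * b1 s) (a := s1) (b := s2)
    (fun s h => by
      rw [uIcc_of_le hs] at h
      exact ps_deriv hc.isOpen hc.cB hc.cBv hc.dB (hle s h) (dα s h) (da s h) (db s h) (hU s h))
    (ii ((((k1 hc.cB).mul ca).sub ((k2 hc.cB).mul cα)).add ((k3 hc.cBv).mul cb)))
  have i1 : IntervalIntegrable (fun s => A (a s, b s) * b1 s + B (a s, b s) * -a1 s) volume s1 s2 :=
    ii (((k1 hc.cA).mul cb).add ((k1 hc.cB).mul ca.neg))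
  have i2 : IntervalIntegrable (fun s => A (α s, b s) * b1 s + B (α s, b s) * -α1 s) volume s1 s2 :=
    ii (((k2 hc.cA).mul cb).add ((k2 hc.cB).mul cα.neg))
  have i3 : IntervalIntegrable
      (fun s => (∫ y in α s..a s, (Au (y, b s) + Bv (y, b s))) * b1 s) volume s1 s2 :=
    ii ((k3 (hc.cAu.add hc.cBv)).mul cb)
  have e : ∫ s in s1..s2, (B (a s, b s) * a1 s - B (α s, b s) * α1 s +
      (∫ y in α s..a s, Bv (y, b s)) * b1 s) =
      ∫ s in s1..s2, ((A (α s, b s) * b1 s + B (α s, b s) * -α1 s) +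
        (∫ y in α s..a s, (Au (y, b s) + Bv (y, b s))) * b1 s -
        (A (a s, b s) * b1 s + B (a s, b s) * -a1 s)) := by
    refine intervalIntegral.integral_congr fun s h => ?_
    rw [uIcc_of_le hs] at h
    have h1 := ftc_u hc.cAu hc.dA (hle s h) (hU s h)
    have h2 := intervalIntegral.integral_add (ii_u hc.cAu (hle s h) (hU s h))
      (ii_u hc.cBv (hle s h) (hU s h))
    simp only [h2, h1]
    ring
  rw [e, intervalIntegral.integral_sub (i2.add i3) i1, intervalIntegral.integral_add i2 i3] at key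
  linarith

/-- The divergence inequality: a bound G for the divergence on the region. -/
theorem PS_le {U : Set P2} {A B Au Bv : P2 → ℝ} (hc : Cur U A B Au Bv) {α a b α1 a1 b1 : ℝ → ℝ}
    {s1 s2 : ℝ} (hs : s1 ≤ s2) (cα : ContinuousOn α1 (Icc s1 s2))
    (ca : ContinuousOn a1 (Icc s1 s2)) (cb : ContinuousOn b1 (Icc s1 s2))
    (dα : ∀ s ∈ Icc s1 s2, HasDerivAt α (α1 s) s) (da : ∀ s ∈ Icc s1 s2, HasDerivAt a (a1 s) s)
    (db : ∀ s ∈ Icc s1 s2, HasDerivAt b (b1 s) s) (hle : ∀ s ∈ Icc s1 s2, α s ≤ a s)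
    (hU : ∀ s ∈ Icc s1 s2, ∀ y ∈ Icc (α s) (a s), (y, b s) ∈ U)
    (hb : ∀ s ∈ Icc s1 s2, 0 ≤ b1 s)
    (hdiv : ∀ s ∈ Icc s1 s2, ∀ y ∈ Icc (α s) (a s), Au (y, b s) + Bv (y, b s) ≤ 0) :
    (∫ y in α s2..a s2, B (y, b s2)) +
        ∫ s in s1..s2, (A (a s, b s) * b1 s + B (a s, b s) * -a1 s) ≤
      (∫ y in α s1..a s1, B (y, b s1)) +
        (∫ s in s1..s2, (A (α s, b s) * b1 s + B (α s, b s) * -α1 s)) := by
  rw [PS hc hs cα ca cb dα da db hle hU]
  have : ∫ s in s1..s2, (∫ y in α s..a s, (Au (y, b s) + Bv (y, b s))) * b1 s ≤ 0 := by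
    have h := intervalIntegral.integral_nonneg (μ := volume) hs
      (f := fun s => -((∫ y in α s..a s, (Au (y, b s) + Bv (y, b s))) * b1 s)) fun s h => by
        have h1 := intervalIntegral.integral_nonneg (μ := volume) (hle s h)
          (f := fun y => -(Au (y, b s) + Bv (y, b s))) fun y hy => by linarith [hdiv s h y hy]
        rw [intervalIntegral.integral_neg] at h1
        have := mul_nonneg h1 (hb s h)
        linarith
    rw [intervalIntegral.integral_neg] at h
    linarith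
  linarith

/-- The divergence theorem on the part v ≥ c of the triangle of (u,v). -/
theorem PS_cut {U : Set P2} {A B Au Bv : P2 → ℝ} (hc : Cur U A B Au Bv) {u v c : ℝ}
    (hcu : -u ≤ c) (hcv : c ≤ v) (hU : ∀ q ∈ Tri (u, v), c ≤ q.2 → q ∈ U) :
    (∫ y in (-v)..u, B (y, v)) + ∫ y in c..v, A (u, y) =
      (∫ y in (-c)..u, B (y, c)) + (∫ x in c..v, (A (-x, x) + B (-x, x))) +
        ∫ s in c..v, ∫ y in (-s)..u, (Au (y, s) + Bv (y, s)) := by
  have := PS hc (α := fun s => -s) (a := fun _ => u) (b := fun s => s) (α1 := fun _ => -1)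
    (a1 := fun _ => 0) (b1 := fun _ => 1) hcv continuousOn_const continuousOn_const
    continuousOn_const (fun s _ => (hasDerivAt_id s).neg) (fun s _ => hasDerivAt_const s u)
    (fun s _ => hasDerivAt_id s) (fun s h => by linarith [h.1])
    (fun s h y hy => hU (y, s) ⟨hy.2, h.2, by linarith [hy.1]⟩ h.1)
  simpa using this

/-- The divergence theorem on the triangle of (u,v). -/
theorem PS_tri {U : Set P2} {A B Au Bv : P2 → ℝ} (hc : Cur U A B Au Bv) {u v : ℝ}
    (ht : 0 ≤ u + v) (hU : Tri (u, v) ⊆ U) :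
    (∫ y in (-v)..u, B (y, v)) + ∫ y in (-u)..v, A (u, y) =
      (∫ x in (-u)..v, (A (-x, x) + B (-x, x))) +
        ∫ s in (-u)..v, ∫ y in (-s)..u, (Au (y, s) + Bv (y, s)) := by
  have := PS_cut hc (c := -u) le_rfl (by linarith) fun q hq _ => hU hq
  simpa using this

/-- The divergence inequality on the part v ≥ c of the triangle of (u,v). -/
theorem PS_cut_le {U : Set P2} {A B Au Bv : P2 → ℝ} (hc : Cur U A B Au Bv) {u v c : ℝ}
    (hcu : -u ≤ c) (hcv : c ≤ v) (hU : ∀ q ∈ Tri (u, v), c ≤ q.2 → q ∈ U)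
    (hdiv : ∀ q ∈ Tri (u, v), c ≤ q.2 → Au q + Bv q ≤ 0) :
    (∫ y in (-v)..u, B (y, v)) + ∫ y in c..v, A (u, y) ≤
      (∫ y in (-c)..u, B (y, c)) + ∫ x in c..v, (A (-x, x) + B (-x, x)) := by
  have := PS_le hc (α := fun s => -s) (a := fun _ => u) (b := fun s => s) (α1 := fun _ => -1)
    (a1 := fun _ => 0) (b1 := fun _ => 1) hcv continuousOn_const continuousOn_const
    continuousOn_const (fun s _ => (hasDerivAt_id s).neg) (fun s _ => hasDerivAt_const s u)
    (fun s _ => hasDerivAt_id s) (fun s h => by linarith [h.1])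
    (fun s h y hy => hU (y, s) ⟨hy.2, h.2, by linarith [hy.1]⟩ h.1) (fun _ _ => zero_le_one)
    (fun s h y hy => hdiv (y, s) ⟨hy.2, h.2, by linarith [hy.1]⟩ h.1)
  simpa using this

end Vale.Agent.P354E
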