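import Vale.Agent.P354E.Sy2

open scoped ContDiff
open MeasureTheory Set Filter Topology

namespace Vale.Agent.P354E.Dt

/-- the parameters of a pulse -/
structure Ix where
  R : ℝ
  h : ℝ
  P : ℝ

/-- admissible parameters -/
structure Adm (X : ℝ) (i : Ix) : Prop where
  R : X + 1 ≤ i.R
  h0 : 0 < i.h
  h1 : i.h ≤ 1
  P0 : 0 < i.P
  P1 : i.P ≤ 1

/-- the large parameter -/
noncomputable def Lam (i : Ix) : ℝ := 2 * i.R / i.h

variable {X s t : ℝ} {m : ℕ} {I : Set Ix} {F G : Ix → ℝ → ℝ}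

lemma Adm.le_Lam {i : Ix} (hX : 1 ≤ X) (h : Adm X i) : 2 * i.R ≤ Lam i := by
  unfold Lam
  rw [le_div_iff₀ h.h0]
  nlinarith [h.R, h.h1]

lemma Adm.one_le {i : Ix} (hX : 1 ≤ X) (h : Adm X i) : 1 ≤ Lam i := by
  linarith [h.le_Lam hX, h.R]

/-- families of symbols with polynomial constants -/
def PS (X : ℝ) (I : Set Ix) (m : ℕ) (s : ℝ) (F : Ix → ℝ → ℝ) : Prop :=
  (∀ i ∈ I, Sm X (F i)) ∧ ∃ (C : ℝ) (k : ℕ), 0 ≤ C ∧ ∀ i ∈ I, Sy X m s (C * Lam i ^ k) (F i)

lemma PS.of (hX : 1 ≤ X) {F : ℝ → ℝ} (h : Sf X m s F) : PS X I m s fun _ => F := by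
  obtain ⟨h1, K, h2⟩ := h
  exact ⟨fun _ _ => h1, K, 0, h2.nonneg (by linarith), fun _ _ => by simpa using h2⟩

lemma PS.unif (hX : 1 ≤ X) (h1 : ∀ i ∈ I, Sm X (F i)) {K : ℝ} (h2 : ∀ i ∈ I, Sy X m s K (F i)) :
    PS X I m s F :=
  ⟨h1, |K|, 0, abs_nonneg K, fun i hi => by
    simpa using (h2 i hi).mono hX le_rfl (le_abs_self K) (abs_nonneg K)⟩

lemma PS.mul (hX : 1 ≤ X) (h : PS X I m s F) (h' : PS X I m t G) :
    PS X I m (s + t) fun i x => F i x * G i x := by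
  obtain ⟨h1, C, k, c1, h2⟩ := h
  obtain ⟨h3, C', k', c2, h4⟩ := h'
  refine ⟨fun i hi => (h1 i hi).mul (h3 i hi), 2 ^ m * (C * C'), k + k', by positivity,
    fun i hi => ?_⟩
  have := Sy.mul (by linarith) (h1 i hi) (h3 i hi) (h2 i hi) (h4 i hi)
  rwa [show 2 ^ m * (C * Lam i ^ k * (C' * Lam i ^ k')) = 2 ^ m * (C * C') * Lam i ^ (k + k') by
    ring] at this

lemma PS.add (hX : 1 ≤ X) (hI : ∀ i ∈ I, Adm X i) (h : PS X I m s F) (h' : PS X I m s G) :
    PS X I m s fun i x => F i x + G i x := by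
  obtain ⟨h1, C, k, c1, h2⟩ := h
  obtain ⟨h3, C', k', c2, h4⟩ := h'
  refine ⟨fun i hi => (h1 i hi).add (h3 i hi), C + C', k + k', by positivity, fun i hi => ?_⟩
  have hL := (hI i hi).one_le hX
  refine (Sy.add (h1 i hi) (h3 i hi) (h2 i hi) (h4 i hi)).mono hX le_rfl ?_ (by positivity)
  have a1 : Lam i ^ k ≤ Lam i ^ (k + k') := pow_le_pow_right₀ hL (by omega)
  have a2 : Lam i ^ k' ≤ Lam i ^ (k + k') := pow_le_pow_right₀ hL (by omega)
  nlinarith [mul_le_mul_of_nonneg_left a1 c1, mul_le_mul_of_nonneg_left a2 c2]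

lemma PS.mono (hX : 1 ≤ X) (h : PS X I m s F) (hs : s ≤ t) : PS X I m t F := by
  obtain ⟨h1, C, k, c1, h2⟩ := h
  exact ⟨h1, C, k, c1, fun i hi => (h2 i hi).mono hX hs le_rfl ((h2 i hi).nonneg (by linarith))⟩

lemma PS.congr (h : PS X I m s F) (he : ∀ i ∈ I, ∀ x, X < x → G i x = F i x) : PS X I m s G := by
  obtain ⟨h1, C, k, c1, h2⟩ := h
  exact ⟨fun i hi => (h1 i hi).congr (he i hi), C, k, c1, fun i hi => (h2 i hi).congr (he i hi)⟩

lemma PS.sub' {J : Set Ix} (h : PS X I m s F) (hJ : J ⊆ I) : PS X J m s F := by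
  obtain ⟨h1, C, k, c1, h2⟩ := h
  exact ⟨fun i hi => h1 i (hJ hi), C, k, c1, fun i hi => h2 i (hJ hi)⟩

lemma PS.P (hX : 1 ≤ X) (hI : ∀ i ∈ I, Adm X i) : PS X I m 0 fun i _ => i.P :=
  PS.unif hX (fun _ _ => Sm.const _ _) (K := 1) fun i hi =>
    (Sy.const (by linarith) i.P).mono hX le_rfl
      (by rw [abs_of_pos (hI i hi).P0]; exact (hI i hi).P1) zero_le_one

lemma PS.cmul (hX : 1 ≤ X) (c : ℝ) (h : PS X I m s F) : PS X I m s fun i x => c * F i x := by
  have := (PS.of (I := I) hX (Sf.const (m := m) hX c)).mul hX h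
  rwa [zero_add] at this

/-- the bump -/
noncomputable def chi (y : ℝ) : ℝ := expNegInvGlue y * expNegInvGlue (1 - y)

lemma chi_smooth : ContDiff ℝ ∞ chi :=
  expNegInvGlue.contDiff.mul (expNegInvGlue.contDiff.comp (contDiff_const.sub contDiff_id))

lemma chi_nonneg (y : ℝ) : 0 ≤ chi y := mul_nonneg (expNegInvGlue.nonneg _) (expNegInvGlue.nonneg _)

lemma chi_left {y : ℝ} (h : y ≤ 0) : chi y = 0 := by
  rw [chi, expNegInvGlue.zero_of_nonpos h, zero_mul]

lemma chi_right {y : ℝ} (h : 1 ≤ y) : chi y = 0 := by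
  rw [chi, expNegInvGlue.zero_of_nonpos (by linarith : 1 - y ≤ 0), mul_zero]

lemma chi_int : 0 < ∫ y in (0 : ℝ)..1, chi y :=
  intervalIntegral.intervalIntegral_pos_of_pos_on (chi_smooth.continuous.intervalIntegrable _ _)
    (fun y hy => mul_pos (expNegInvGlue.pos_of_pos hy.1)
      (expNegInvGlue.pos_of_pos (by linarith [hy.2]))) one_pos

lemma chi_iter_zero (j : ℕ) {y : ℝ} (h : y ∉ Icc (0 : ℝ) 1) : iteratedDeriv j chi y = 0 := by
  have : iteratedDeriv j chi y = iteratedDeriv j (fun _ => (0 : ℝ)) y := by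
    refine Filter.EventuallyEq.iteratedDeriv_eq j ?_
    rcases not_and_or.1 h with h | h
    · exact eventually_of_mem (Iio_mem_nhds (not_le.1 h)) fun z hz => chi_left (le_of_lt hz)
    · exact eventually_of_mem (Ioi_mem_nhds (not_le.1 h)) fun z hz => chi_right (le_of_lt hz)
  rw [this, iteratedDeriv_fun_const_zero]

lemma chi_bd (m : ℕ) : ∃ K, 0 ≤ K ∧ ∀ j ≤ m, ∀ y, |iteratedDeriv j chi y| ≤ K := by
  induction m with
  | zero =>
    obtain ⟨K, hK⟩ := (isCompact_Icc (a := (0 : ℝ)) (b := 1)).exists_bound_of_continuousOn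
      (chi_smooth.continuous_iteratedDeriv 0 (by exact_mod_cast le_top)).continuousOn
    refine ⟨max K 0, le_max_right _ _, fun j hj y => ?_⟩
    obtain rfl : j = 0 := by omega
    by_cases hy : y ∈ Icc (0 : ℝ) 1
    · exact (hK y hy).trans (le_max_left _ _)
    · rw [chi_iter_zero 0 hy, abs_zero]
      exact le_max_right _ _
  | succ m ih =>
    obtain ⟨K', h0, h1⟩ := ih
    obtain ⟨K, hK⟩ := (isCompact_Icc (a := (0 : ℝ)) (b := 1)).exists_bound_of_continuousOn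
      (chi_smooth.continuous_iteratedDeriv (m + 1) (by exact_mod_cast le_top)).continuousOn
    refine ⟨max K K', le_max_of_le_right h0, fun j hj y => ?_⟩
    rcases Nat.lt_or_ge j (m + 1) with hj' | hj'
    · exact (h1 j (by omega) y).trans (le_max_right _ _)
    · obtain rfl : j = m + 1 := by omega
      by_cases hy : y ∈ Icc (0 : ℝ) 1
      · exact (hK y hy).trans (le_max_left _ _)
      · rw [chi_iter_zero _ hy, abs_zero]
        exact le_max_of_le_right h0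

/-- the pulse -/
noncomputable def ch (i : Ix) (x : ℝ) : ℝ := chi ((x - i.R) / i.h)

lemma ch_smooth (i : Ix) : ContDiff ℝ ∞ (ch i) :=
  chi_smooth.comp ((contDiff_id.sub contDiff_const).div_const _)

lemma ch_left {i : Ix} (h : 0 < i.h) {x : ℝ} (hx : x ≤ i.R) : ch i x = 0 :=
  chi_left (div_nonpos_of_nonpos_of_nonneg (by linarith) h.le)

lemma ch_right {i : Ix} (h : 0 < i.h) {x : ℝ} (hx : i.R + i.h ≤ x) : ch i x = 0 :=
  chi_right ((one_le_div h).2 (by linarith))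

lemma ch_iter (i : Ix) (j : ℕ) (x : ℝ) :
    iteratedDeriv j (ch i) x = (i.h⁻¹) ^ j * iteratedDeriv j chi ((x - i.R) / i.h) := by
  have h1 : ch i = fun x => (fun y => chi (i.h⁻¹ * y)) (x - i.R) := by
    funext x
    simp only [ch, div_eq_inv_mul]
  rw [h1, iteratedDeriv_comp_sub_const j (fun y => chi (i.h⁻¹ * y)) i.R]
  simp only
  rw [iteratedDeriv_comp_const_mul (chi_smooth.of_le (by exact_mod_cast le_top)), div_eq_inv_mul]

lemma ps_ch (hX : 1 ≤ X) (hI : ∀ i ∈ I, Adm X i) (m : ℕ) (s : ℝ) : PS X I m s (ch) := by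
  obtain ⟨K, k0, k1⟩ := chi_bd m
  obtain ⟨N, hN⟩ := exists_nat_ge (-s)
  refine PS.mono hX (s := -N) ⟨fun i _ => Sm.of (ch_smooth i) X, K, m + N, k0, fun i hi => ?_⟩
    (by linarith)
  have ha := hI i hi
  have hL := ha.one_le hX
  refine Sy.of_iter fun j hj x hx => ?_
  have hx0 : 0 < x := by linarith
  rw [ch_iter]
  by_cases hy : (x - i.R) / i.h ∈ Icc (0 : ℝ) 1
  · have h1 : x ≤ 2 * i.R := by
      have := hy.2
      rw [div_le_one ha.h0] at this
      linarith [ha.h1, ha.R]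
    have hi0 : 0 < i.h⁻¹ := inv_pos.2 ha.h0
    rw [show -(N : ℝ) - j = -((N + j : ℕ) : ℝ) by push_cast; ring, Real.rpow_neg hx0.le,
      Real.rpow_natCast, ← div_eq_mul_inv, le_div_iff₀ (by positivity), abs_mul,
      abs_of_pos (pow_pos hi0 j)]
    have h2 : i.h⁻¹ ^ j * x ^ j ≤ Lam i ^ m := by
      rw [← mul_pow]
      refine (pow_le_pow_left₀ (by positivity) ?_ j).trans (pow_le_pow_right₀ hL hj)
      rw [Lam, div_eq_inv_mul]
      exact mul_le_mul_of_nonneg_left h1 hi0.le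
    have h3 : x ^ N ≤ Lam i ^ N := pow_le_pow_left₀ hx0.le (h1.trans (ha.le_Lam hX)) N
    calc i.h⁻¹ ^ j * |iteratedDeriv j chi ((x - i.R) / i.h)| * x ^ (N + j)
        = |iteratedDeriv j chi ((x - i.R) / i.h)| * (i.h⁻¹ ^ j * x ^ j * x ^ N) := by ring
      _ ≤ K * (Lam i ^ m * Lam i ^ N) :=
          mul_le_mul (k1 j hj _) (mul_le_mul h2 h3 (by positivity) (by positivity))
            (by positivity) k0
      _ = _ := by ring
  · rw [chi_iter_zero j hy, mul_zero, abs_zero]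
    exact mul_nonneg (by positivity) (Real.rpow_nonneg hx0.le _)

lemma prim_hd {F : ℝ → ℝ} (hF : Sm X F) {R x : ℝ} (hR : X < R) (hx : X < x) :
    HasDerivAt (fun x => ∫ y in R..x, F y) (F x) x := by
  have hc : ContinuousOn F (Ioi X) := hF.continuousOn
  refine intervalIntegral.integral_hasDerivAt_right (ContinuousOn.intervalIntegrable
    (hc.mono fun y hy => ?_)) (hc.stronglyMeasurableAtFilter isOpen_Ioi x hx)
    (hc.continuousAt (Ioi_mem_nhds hx))
  exact lt_of_lt_of_le (lt_min hR hx) hy.1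

lemma prim_bd (hX : 1 ≤ X) {F : ℝ → ℝ} {K R x : ℝ} (hK : 0 ≤ K)
    (hF : ∀ y, X < y → |F y| ≤ K * y ^ (-2 : ℝ)) (hR : X < R) (hx : X < x) :
    |∫ y in R..x, F y| ≤ K := by
  have hpos : ∀ y ∈ uIcc R x, X < y := fun y hy => lt_of_lt_of_le (lt_min hR hx) hy.1
  have hc : ContinuousOn (fun y : ℝ => K * (y ^ 2)⁻¹) (uIcc R x) :=
    continuousOn_const.mul ((continuousOn_id.pow 2).inv₀ fun y hy =>
      pow_ne_zero 2 (by have := hpos y hy; simp only [id]; linarith))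
  have h1 := intervalIntegral.norm_integral_le_abs_of_norm_le (f := F) (μ := volume)
    (g := fun y => K * (y ^ 2)⁻¹) (a := R) (b := x) (by
      refine (ae_restrict_iff' measurableSet_uIoc).2 (Eventually.of_forall fun y hy => ?_)
      have h2 := hpos y (uIoc_subset_uIcc hy)
      have := hF y h2
      rwa [Real.rpow_neg (by linarith), Real.rpow_two] at this) hc.intervalIntegrable
  have h2 : ∫ y in R..x, K * (y ^ 2)⁻¹ = -K * x⁻¹ - -K * R⁻¹ := by
    refine intervalIntegral.integral_eq_sub_of_hasDerivAt (f := fun y => -K * y⁻¹)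
      (fun y hy => ?_) hc.intervalIntegrable
    have h2 := hpos y hy
    refine ((hasDerivAt_inv (by linarith : y ≠ 0)).const_mul (-K)).congr_deriv ?_
    ring
  rw [h2, Real.norm_eq_abs] at h1
  refine h1.trans (abs_le.2 ⟨?_, ?_⟩)
  · have a1 : x⁻¹ ≤ 1 := inv_le_one_of_one_le₀ (by linarith)
    have a2 : 0 ≤ R⁻¹ := inv_nonneg.2 (by linarith)
    nlinarith
  · have a1 : R⁻¹ ≤ 1 := inv_le_one_of_one_le₀ (by linarith)
    have a2 : 0 ≤ x⁻¹ := inv_nonneg.2 (by linarith)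
    nlinarith

/-- the exponential of a primitive of a symbol of order -2 -/
lemma ps_exp (hX : 1 ≤ X) (hI : ∀ i ∈ I, Adm X i) {q : ℝ → ℝ} (hq : Sf X m (-2) q) :
    PS X I m 0 fun i x => Real.exp (∫ y in i.R..x, q y) := by
  obtain ⟨K, k0, k1⟩ := hq.bd hX
  obtain ⟨h1, K1, h2⟩ := hq.mono hX (show (-2 : ℝ) ≤ -1 by norm_num)
  obtain ⟨K', h3⟩ := Sy.ode hX m K1 (Real.exp K)
  have hR : ∀ i ∈ I, X < i.R := fun i hi => by linarith [(hI i hi).R]
  have sm : ∀ i ∈ I, Sm X fun x => Real.exp (∫ y in i.R..x, q y) := fun i hi =>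
    ContDiffOn.exp (Sm.of_deriv (fun x hx => prim_hd h1 (hR i hi) hx) h1)
  refine PS.unif hX sm (K := K') fun i hi => h3 0 q _ h1 (sm i hi) h2 (fun x hx => ?_)
    fun x hx => ?_
  · rw [Real.rpow_zero, mul_one, abs_of_pos (Real.exp_pos _)]
    exact Real.exp_le_exp.2 ((le_abs_self _).trans (prim_bd hX k0 k1 (hR i hi) hx))
  · exact (prim_hd h1 (hR i hi) hx).exp.congr_deriv (mul_comm _ _)

/-- the primitive of a family of order -2 -/
lemma ps_prim (hX : 1 ≤ X) (hI : ∀ i ∈ I, Adm X i) (h : PS X I m (-2) F) :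
    PS X I (m + 1) 0 fun i x => ∫ y in i.R..x, F i y := by
  obtain ⟨h1, C, k, c1, h2⟩ := h
  have hR : ∀ i ∈ I, X < i.R := fun i hi => by linarith [(hI i hi).R]
  refine ⟨fun i hi => Sm.of_deriv (fun x hx => prim_hd (h1 i hi) (hR i hi) hx) (h1 i hi), C, k, c1,
    fun i hi => ⟨fun x hx => ?_, ?_⟩⟩
  · rw [Real.rpow_zero, mul_one]
    exact prim_bd hX ((h2 i hi).nonneg (by linarith)) (h2 i hi).zero (hR i hi) hx
  · exact ((h2 i hi).mono hX (by norm_num) le_rfl ((h2 i hi).nonneg (by linarith))).congr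
      fun x hx => (prim_hd (h1 i hi) (hR i hi) hx).deriv

lemma PS.succ (h : PS X I (m + 1) s F) : PS X I m s F := by
  obtain ⟨h1, C, k, c1, h2⟩ := h
  exact ⟨h1, C, k, c1, fun i hi => (h2 i hi).succ⟩

end Vale.Agent.P354E.Dt
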