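import Vale.Agent.P354E.Pulse1

open scoped ContDiff
open MeasureTheory Set Filter Topology

namespace Vale.Agent.P354E.Dt

noncomputable def be (d : Dat) (x : ℝ) : ℝ := d.b x * (deriv d.b x)⁻¹
noncomputable def qq (d : Dat) (x : ℝ) : ℝ := be d x * (deriv d.f x * deriv d.f x)
noncomputable def E0 (d : Dat) (x : ℝ) : ℝ := √(d.b x) * (deriv d.b x)⁻¹ * (deriv d.b x)⁻¹
noncomputable def iE (d : Dat) (x : ℝ) : ℝ := deriv d.b x * deriv d.b x * (√(d.b x))⁻¹
noncomputable def c1 (d : Dat) (x : ℝ) : ℝ :=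
  1 / 2 * (deriv d.b x * (d.b x)⁻¹) + -2 * (deriv (deriv d.b) x * (deriv d.b x)⁻¹) + -2 * qq d x
noncomputable def TT (d : Dat) (i : Ix) (x : ℝ) : ℝ := Real.exp (∫ y in i.R..x, -2 * qq d y)
noncomputable def iT (d : Dat) (i : Ix) (x : ℝ) : ℝ := Real.exp (∫ y in i.R..x, 2 * qq d y)
noncomputable def s1 (d : Dat) (i : Ix) (x : ℝ) : ℝ :=
  be d x * (8 * (d.l x * (d.b x)⁻¹ * be d x * deriv d.f x) + -4 * d.g x + -2 * (i.P * ch i x))
noncomputable def sg (d : Dat) (i : Ix) (x : ℝ) : ℝ := ch i x * s1 d i x * iE d x * iT d i x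
noncomputable def SS (d : Dat) (i : Ix) (x : ℝ) : ℝ := ∫ y in i.R..x, sg d i y
noncomputable def Gi (d : Dat) (i : Ix) (x : ℝ) : ℝ := E0 d x * TT d i x * SS d i x
noncomputable def Gk (d : Dat) (i : Ix) (x : ℝ) : ℝ := 2 * (be d x * deriv d.f x * ch i x)

/-- the data with the pulse -/
noncomputable def pul (d : Dat) (i : Ix) : Dat where
  a x := ((d.a x)⁻¹ + i.P * Gi d i x)⁻¹
  b := d.b
  k x := (d.k x * (d.a x)⁻¹ + i.P * Gk d i x) * ((d.a x)⁻¹ + i.P * Gi d i x)⁻¹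
  l := d.l
  f := d.f
  g x := d.g x + i.P * ch i x
  e := d.e

variable {X : ℝ} {d : Dat} {I : Set Ix} {i : Ix}

lemma DS.be (h : DS X d) (m : ℕ) : Sf X m 1 (be d) := by
  have := (h.b m).mul h.one (h.ib' m)
  rwa [show (2 : ℝ) + -1 = 1 by norm_num] at this

lemma DS.qq (h : DS X d) (m : ℕ) : Sf X m (-2) (qq d) :=
  ((h.be m).mul h.one ((h.f' m).mul h.one (h.f' m))).mono h.one (by norm_num)

lemma DS.E0 (h : DS X d) (m : ℕ) : Sf X m (-1) (E0 d) :=
  (((h.sb m).mul h.one (h.ib' m)).mul h.one (h.ib' m)).mono h.one (by norm_num)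

lemma DS.iE (h : DS X d) (m : ℕ) : Sf X m 1 (iE d) :=
  (((h.b' m).mul h.one (h.b' m)).mul h.one (h.isb m)).mono h.one (by norm_num)

lemma DS.c1 (h : DS X d) (m : ℕ) : Sf X m (-1) (c1 d) :=
  (((((h.b' m).mul h.one (h.ib m)).cmul h.one _).mono h.one (by norm_num)).add
    ((((h.b'' m).mul h.one (h.ib' m)).cmul h.one _).mono h.one (by norm_num))).add
    (((h.qq m).cmul h.one _).mono h.one (by norm_num))

lemma DS.TT (h : DS X d) (hI : ∀ i ∈ I, Adm X i) (m : ℕ) : PS X I m 0 (TT d) :=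
  ps_exp h.one hI ((h.qq m).cmul h.one _)

lemma DS.iT (h : DS X d) (hI : ∀ i ∈ I, Adm X i) (m : ℕ) : PS X I m 0 (iT d) :=
  ps_exp h.one hI ((h.qq m).cmul h.one _)

lemma DS.s1 (h : DS X d) (hI : ∀ i ∈ I, Adm X i) (m : ℕ) : PS X I m 1 (s1 d) := by
  have o := h.one
  have a1 : PS X I m 0 fun _ x => 8 * (d.l x * (d.b x)⁻¹ * Dt.be d x * deriv d.f x) :=
    PS.of o ((((((h.l m).mul o (h.ib m)).mul o (h.be m)).mul o (h.f' m)).cmul o _).mono o
      (by norm_num))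
  have a2 : PS X I m 0 fun _ x => -4 * d.g x := PS.of o (((h.g m).cmul o _).mono o (by norm_num))
  have a3 : PS X I m 0 fun i x => -2 * (i.P * ch i x) :=
    (((PS.P o hI).mul o (ps_ch o hI m 0)).cmul o _).mono o (by norm_num)
  exact ((PS.of o (h.be m)).mul o ((a1.add o hI a2).add o hI a3)).mono o (by norm_num)

lemma DS.sg (h : DS X d) (hI : ∀ i ∈ I, Adm X i) (m : ℕ) : PS X I m (-2) (sg d) :=
  ((((ps_ch h.one hI m (-4)).mul h.one (h.s1 hI m)).mul h.one (PS.of h.one (h.iE m))).mul h.one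
    (h.iT hI m)).mono h.one (by norm_num)

lemma DS.Gi (h : DS X d) (hI : ∀ i ∈ I, Adm X i) (m : ℕ) : PS X I m (-1) (Gi d) :=
  (((PS.of h.one (h.E0 m)).mul h.one (h.TT hI m)).mul h.one
    (ps_prim h.one hI (h.sg hI m)).succ).mono h.one (by norm_num)

lemma DS.Gk (h : DS X d) (hI : ∀ i ∈ I, Adm X i) (m : ℕ) : PS X I m (-2) (Gk d) :=
  (((PS.of h.one ((h.be m).mul h.one (h.f' m))).mul h.one (ps_ch h.one hI m 0)).cmul h.one
    _).mono h.one (by norm_num)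

lemma adm_one (ha : Adm X i) : ∀ j ∈ ({i} : Set Ix), Adm X j := fun _ hj => hj ▸ ha

lemma SS_left (ha : Adm X i) {x : ℝ} (hx : x ≤ i.R) : SS d i x = 0 := by
  unfold SS
  rw [intervalIntegral.integral_congr (g := fun _ => 0), intervalIntegral.integral_zero]
  intro y hy
  rw [uIcc_of_ge hx] at hy
  simp only [sg, ch_left ha.h0 hy.2, zero_mul]

lemma Gi_left (ha : Adm X i) {x : ℝ} (hx : x ≤ i.R) : Gi d i x = 0 := by
  rw [Gi, SS_left ha hx, mul_zero]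

lemma Gk_left (ha : Adm X i) {x : ℝ} (hx : x ≤ i.R) : Gk d i x = 0 := by
  rw [Gk, ch_left ha.h0 hx, mul_zero, mul_zero]

lemma Gi_smooth (h : DS X d) (ha : Adm X i) : ContDiff ℝ ∞ (Gi d i) :=
  glue (R := i.R) (by linarith [ha.R]) (fun _ hx => Gi_left ha hx)
    ((h.Gi (adm_one ha) 0).1 i rfl)

lemma Gk_smooth (h : DS X d) (ha : Adm X i) : ContDiff ℝ ∞ (Gk d i) :=
  glue (R := i.R) (by linarith [ha.R]) (fun _ hx => Gk_left ha hx)
    ((h.Gk (adm_one ha) 0).1 i rfl)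

lemma Gi_deriv (h : DS X d) (ha : Adm X i) {x : ℝ} (hx : X < x) :
    HasDerivAt (Gi d i) (c1 d x * Gi d i x + ch i x * s1 d i x) x := by
  have hR : X < i.R := by linarith [ha.R]
  have hb := h.bpos hx
  have hb1 : deriv d.b x ≠ 0 := by linarith [h.b1 x hx, h.one] |> fun (h : 0 < deriv d.b x) => h.ne'
  have d1 := ((h.b 0).1.hd hx).sqrt hb.ne'
  have d2 := ((h.b' 0).1.hd hx).inv hb1
  have d3 := (prim_hd ((h.qq 0).cmul h.one (-2)).1 hR hx).exp
  have d4 := prim_hd ((h.sg (adm_one ha) 0).1 i rfl) hR hx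
  refine ((((d1.mul d2).mul d2).mul d3).mul d4).congr_deriv ?_
  have e1 : iT d i x = (TT d i x)⁻¹ := by
    rw [iT, TT, ← Real.exp_neg, intervalIntegral.integral_const_mul,
      intervalIntegral.integral_const_mul]
    congr 1
    ring
  have e2 : TT d i x ≠ 0 := (Real.exp_pos _).ne'
  simp only [Pi.mul_apply, Pi.inv_apply, Gi, E0, c1, sg, iE, e1]
  rw [show Real.exp (∫ y in i.R..x, -2 * qq d y) = TT d i x from rfl,
    show ∫ y in i.R..x, ch i y * s1 d i y * (deriv d.b y * deriv d.b y * (√(d.b y))⁻¹) * iT d i y =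
      SS d i x from rfl]
  have h0 := Real.sqrt_pos.2 hb
  have h2 := Real.sq_sqrt hb.le
  generalize √(d.b x) = R at h0 h2
  rw [← h2]
  field_simp
  ring

lemma ham_form (d : Dat) (x : ℝ) {J J1 K1 : ℝ} (hJ : J ≠ 0) (hb : d.b x ≠ 0) (ha : d.a x = J⁻¹)
    (ha1 : deriv d.a x = -J1 / J ^ 2) (hk : d.k x / d.a x = K1) :
    d.scal x + d.trK x ^ 2 - d.sqK x -
      (2 * d.g x ^ 2 + 2 * deriv d.f x ^ 2 / d.a x + 2 * d.e ^ 2 / d.b x ^ 2) =
    2 / d.b x + J * (deriv d.b x ^ 2 / (2 * d.b x ^ 2) - 2 * deriv (deriv d.b) x / d.b x -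
      2 * deriv d.f x ^ 2) - J1 * deriv d.b x / d.b x + 4 * K1 * (d.l x / d.b x) +
      2 * (d.l x / d.b x) ^ 2 - 2 * d.g x ^ 2 - 2 * d.e ^ 2 / d.b x ^ 2 := by
  unfold Dat.scal Dat.trK Dat.sqK
  rw [hk, ha, ha1]
  field_simp
  ring

lemma mom_form {d : Dat} (h : d.Sm) (hp : ∀ x, 0 < d.a x ∧ 0 < d.b x) (x : ℝ) :
    d.divK x - deriv d.trK x = deriv d.b x / d.b x * (d.k x / d.a x - d.l x / d.b x) -
      2 * ((deriv d.l x * d.b x - d.l x * deriv d.b x) / d.b x ^ 2) := by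
  obtain ⟨h1, h2, h3, h4, h5, h6⟩ := h
  have a1 : HasDerivAt (fun y => d.k y / d.a y) (deriv (fun y => d.k y / d.a y) x) x :=
    ((hd h3 x).div (hd h1 x) (hp x).1.ne').differentiableAt.hasDerivAt
  have a2 : HasDerivAt d.trK (deriv (fun y => d.k y / d.a y) x +
      2 * ((deriv d.l x * d.b x - d.l x * deriv d.b x) / d.b x ^ 2)) x :=
    a1.add (((hd h4 x).div (hd h2 x) (hp x).2.ne').const_mul 2)
  rw [a2.deriv]
  unfold Dat.divK
  ring

variable {M e om : ℝ}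

lemma pul_sm (hd' : IsData M e om d) (h : DS X d) (ha : Adm X i)
    (hJ : ∀ x, 0 < (d.a x)⁻¹ + i.P * Gi d i x) : (pul d i).Sm := by
  obtain ⟨h1, h2, h3, h4, h5, h6⟩ := hd'.smooth
  have ia : ContDiff ℝ ∞ fun x => (d.a x)⁻¹ := h1.inv fun x => (hd'.pos x).1.ne'
  have a1 : ContDiff ℝ ∞ (pul d i).a :=
    (ia.add (contDiff_const.mul (Gi_smooth h ha))).inv fun x => (hJ x).ne'
  exact ⟨a1, h2, ((h3.mul ia).add (contDiff_const.mul (Gk_smooth h ha))).mul a1, h4, h5,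
    h6.add (contDiff_const.mul (ch_smooth i))⟩

lemma pul_a1 (hd' : IsData M e om d) (h : DS X d) (ha : Adm X i)
    (hJ : ∀ x, 0 < (d.a x)⁻¹ + i.P * Gi d i x) (x : ℝ) : deriv (pul d i).a x =
      -(-deriv d.a x / d.a x ^ 2 + i.P * deriv (Gi d i) x) / ((d.a x)⁻¹ + i.P * Gi d i x) ^ 2 :=
  ((((hd hd'.smooth.1 x).inv (hd'.pos x).1.ne').add
    ((hd (Gi_smooth h ha) x).const_mul i.P)).inv (hJ x).ne').deriv

lemma pul_k (hJ : ∀ x, 0 < (d.a x)⁻¹ + i.P * Gi d i x) (x : ℝ) :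
    (pul d i).k x / (pul d i).a x = d.k x * (d.a x)⁻¹ + i.P * Gk d i x :=
  mul_div_cancel_right₀ _ (inv_ne_zero (hJ x).ne')

lemma Gi_deriv_left (ha : Adm X i) {x : ℝ} (hx : x < i.R) : deriv (Gi d i) x = 0 := by
  rw [Filter.EventuallyEq.deriv_eq (f := fun _ => (0 : ℝ)) (eventually_of_mem (Iio_mem_nhds hx)
    fun y hy => Gi_left ha (le_of_lt hy)), deriv_const]

lemma pul_ham (hd' : IsData M e om d) (h : DS X d) (ha : Adm X i)
    (hJ : ∀ x, 0 < (d.a x)⁻¹ + i.P * Gi d i x) (x : ℝ) :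
    (pul d i).scal x + (pul d i).trK x ^ 2 - (pul d i).sqK x = 2 * (pul d i).g x ^ 2 +
      2 * deriv (pul d i).f x ^ 2 / (pul d i).a x + 2 * (pul d i).e ^ 2 / (pul d i).b x ^ 2 := by
  have hA := (hd'.pos x).1.ne'
  have hB := (hd'.pos x).2.ne'
  have a1 := ham_form d x (J := (d.a x)⁻¹) (J1 := -deriv d.a x / d.a x ^ 2) (inv_ne_zero hA) hB
    (inv_inv _).symm (by field_simp) (div_eq_mul_inv _ _)
  rw [hd'.hamilton x, sub_self] at a1
  have a2 := ham_form (pul d i) x (hJ x).ne' hB rfl (pul_a1 hd' h ha hJ x) (pul_k hJ x)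
  rw [← sub_eq_zero, a2]
  simp only [pul]
  rcases lt_or_ge x i.R with hx | hx
  · rw [Gi_deriv_left ha hx, Gi_left ha hx.le, Gk_left ha hx.le, ch_left ha.h0 hx.le]
    linear_combination -a1
  · have hx' : X < x := by linarith [ha.R]
    have hb1 : deriv d.b x ≠ 0 := by
      linarith [h.b1 x hx', h.one] |> fun (h : 0 < deriv d.b x) => h.ne'
    rw [(Gi_deriv h ha hx').deriv]
    have a3 : i.P * Gi d i x * (deriv d.b x ^ 2 / (2 * d.b x ^ 2) -
        2 * deriv (deriv d.b) x / d.b x - 2 * deriv d.f x ^ 2) -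
        i.P * (c1 d x * Gi d i x + ch i x * s1 d i x) * deriv d.b x / d.b x +
        4 * (i.P * Gk d i x) * (d.l x / d.b x) -
        2 * ((d.g x + i.P * ch i x) ^ 2 - d.g x ^ 2) = 0 := by
      simp only [c1, s1, Gk, qq, be]
      field_simp
      ring
    linear_combination a3 - a1

lemma pul_mom (hd' : IsData M e om d) (h : DS X d) (ha : Adm X i)
    (hJ : ∀ x, 0 < (d.a x)⁻¹ + i.P * Gi d i x) (x : ℝ) :
    (pul d i).divK x - deriv (pul d i).trK x = 2 * (pul d i).g x * deriv (pul d i).f x := by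
  have hB := (hd'.pos x).2.ne'
  have a1 := mom_eq hd' x
  rw [mom_form (pul_sm hd' h ha hJ) (fun x => ⟨inv_pos.2 (hJ x), (hd'.pos x).2⟩), pul_k hJ]
  simp only [pul]
  rw [div_eq_mul_inv (d.k x)] at a1
  rcases le_or_gt x i.R with hx | hx
  · rw [Gk_left ha hx, ch_left ha.h0 hx]
    linear_combination a1
  · have hx' : X < x := by linarith [ha.R]
    have hb1 : deriv d.b x ≠ 0 := by
      linarith [h.b1 x hx', h.one] |> fun (h : 0 < deriv d.b x) => h.ne'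
    have a3 : deriv d.b x / d.b x * (i.P * Gk d i x) = 2 * (i.P * ch i x) * deriv d.f x := by
      simp only [Gk, be]
      field_simp
    linear_combination a3 + a1

end Vale.Agent.P354E.Dt
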