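import Vale.Agent.P354E.Pulse2

open scoped ContDiff
open MeasureTheory Set Filter Topology

namespace Vale.Agent.P354E.Dt

variable {X s : ℝ} {d : Dat} {I : Set Ix} {i : Ix} {m : ℕ} {F G : Ix → ℝ → ℝ}

/-- polynomial bounds on the support of the pulse -/
def Bd (I : Set Ix) (F : Ix → ℝ → ℝ) : Prop :=
  ∃ (C : ℝ) (k : ℕ), 0 ≤ C ∧ ∀ i ∈ I, ∀ x ∈ Icc i.R (i.R + i.h), |F i x| ≤ C * i.R ^ k

lemma Bd.mul (h : Bd I F) (h' : Bd I G) : Bd I fun i x => F i x * G i x := by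
  obtain ⟨C, k, c1, h1⟩ := h
  obtain ⟨C', k', c2, h2⟩ := h'
  refine ⟨C * C', k + k', by positivity, fun i hi x hx => ?_⟩
  rw [abs_mul]
  calc _ ≤ C * i.R ^ k * (C' * i.R ^ k') :=
        mul_le_mul (h1 i hi x hx) (h2 i hi x hx) (abs_nonneg _)
          ((abs_nonneg _).trans (h1 i hi x hx))
    _ = _ := by ring

lemma Bd.add (hX : 1 ≤ X) (hI : ∀ i ∈ I, Adm X i) (h : Bd I F) (h' : Bd I G) :
    Bd I fun i x => F i x + G i x := by
  obtain ⟨C, k, c1, h1⟩ := h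
  obtain ⟨C', k', c2, h2⟩ := h'
  refine ⟨C + C', k + k', by positivity, fun i hi x hx => ?_⟩
  have hL : 1 ≤ i.R := by linarith [(hI i hi).R]
  have a1 : i.R ^ k ≤ i.R ^ (k + k') := pow_le_pow_right₀ hL (by omega)
  have a2 : i.R ^ k' ≤ i.R ^ (k + k') := pow_le_pow_right₀ hL (by omega)
  nlinarith [mul_le_mul_of_nonneg_left a1 c1, mul_le_mul_of_nonneg_left a2 c2, h1 i hi x hx,
    h2 i hi x hx, abs_add_le (F i x) (G i x)]

lemma Bd.le (h : Bd I F) (he : ∀ i ∈ I, ∀ x ∈ Icc i.R (i.R + i.h), |G i x| ≤ |F i x|) : Bd I G := by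
  obtain ⟨C, k, c1, h1⟩ := h
  exact ⟨C, k, c1, fun i hi x hx => (he i hi x hx).trans (h1 i hi x hx)⟩

lemma Bd.abs (h : Bd I F) : Bd I fun i x => |F i x| := h.le fun _ _ _ _ => (abs_abs _).le

lemma Bd.unif {K : ℝ} (h : ∀ i ∈ I, ∀ x ∈ Icc i.R (i.R + i.h), |F i x| ≤ K) : Bd I F :=
  ⟨|K|, 0, abs_nonneg K, fun i hi x hx => by simpa using (h i hi x hx).trans (le_abs_self K)⟩

lemma Bd.const (c : ℝ) : Bd I fun _ _ => c := Bd.unif fun _ _ _ _ => le_rfl

lemma Bd.cmul (c : ℝ) (h : Bd I F) : Bd I fun i x => c * F i x := (Bd.const c).mul h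

lemma Adm.lt (ha : Adm X i) {x : ℝ} (hx : x ∈ Icc i.R (i.R + i.h)) : X < x := by
  linarith [ha.R, hx.1]

lemma Bd.of (hX : 1 ≤ X) (hI : ∀ i ∈ I, Adm X i) {F : ℝ → ℝ} (h : Sf X m s F) :
    Bd I fun _ => F := by
  obtain ⟨N, hN⟩ := exists_nat_ge s
  obtain ⟨K, k0, k1⟩ := (h.mono hX hN).bd hX
  refine ⟨K * 2 ^ N, N, by positivity, fun i hi x hx => (k1 x ((hI i hi).lt hx)).trans ?_⟩
  have ha := hI i hi
  rw [Real.rpow_natCast, mul_assoc, ← mul_pow]
  exact mul_le_mul_of_nonneg_left (pow_le_pow_left₀ (by linarith [ha.lt hx])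
    (by linarith [hx.2, ha.h1, ha.R]) N) k0

lemma bd_ch : Bd I ch := by
  obtain ⟨K, -, k1⟩ := chi_bd 0
  exact Bd.unif fun i _ x _ => by
    have := k1 0 le_rfl ((x - i.R) / i.h)
    rwa [iteratedDeriv_zero] at this

lemma bd_P (hI : ∀ i ∈ I, Adm X i) : Bd I fun i _ => i.P :=
  Bd.unif fun i hi _ _ => by rw [abs_of_pos (hI i hi).P0]; exact (hI i hi).P1

lemma bd_h (hI : ∀ i ∈ I, Adm X i) : Bd I fun i _ => i.h :=
  Bd.unif fun i hi _ _ => by rw [abs_of_pos (hI i hi).h0]; exact (hI i hi).h1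

lemma bd_exp (hX : 1 ≤ X) (hI : ∀ i ∈ I, Adm X i) {q : ℝ → ℝ} (hq : Sf X m (-2) q) :
    Bd I fun i x => Real.exp (∫ y in i.R..x, q y) := by
  obtain ⟨K, k0, k1⟩ := hq.bd hX
  refine Bd.unif (K := Real.exp K) fun i hi x hx => ?_
  rw [abs_of_pos (Real.exp_pos _)]
  exact Real.exp_le_exp.2 ((le_abs_self _).trans
    (prim_bd hX k0 k1 (by linarith [(hI i hi).R]) ((hI i hi).lt hx)))

lemma bd_prim (hI : ∀ i ∈ I, Adm X i) (h : Bd I F) :
    Bd I fun i x => (∫ y in i.R..x, F i y) / i.h := by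
  obtain ⟨C, k, c1, h1⟩ := h
  refine ⟨C, k, c1, fun i hi x hx => ?_⟩
  have ha := hI i hi
  have a1 := intervalIntegral.norm_integral_le_of_norm_le_const (f := F i) (a := i.R) (b := x)
    (C := C * i.R ^ k) fun y hy => by
      rw [uIoc_of_le hx.1] at hy
      exact h1 i hi y ⟨hy.1.le, hy.2.trans hx.2⟩
  have a2 : 0 ≤ C * i.R ^ k := (abs_nonneg _).trans (h1 i hi x hx)
  rw [abs_div, abs_of_pos ha.h0, div_le_iff₀ ha.h0]
  refine le_trans a1 (mul_le_mul_of_nonneg_left ?_ a2)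
  rw [abs_of_nonneg (by linarith [hx.1])]
  linarith [hx.2]

lemma DS.bs1 (h : DS X d) (hI : ∀ i ∈ I, Adm X i) : Bd I (Dt.s1 d) := by
  have o := h.one
  exact (Bd.of o hI (h.be 0)).mul ((((Bd.of o hI
    ((((h.l 0).mul o (h.ib 0)).mul o (h.be 0)).mul o (h.f' 0))).cmul 8).add o hI
    ((Bd.of o hI (h.g 0)).cmul (-4))).add o hI (((bd_P hI).mul bd_ch).cmul (-2)))

lemma DS.bgi (h : DS X d) (hI : ∀ i ∈ I, Adm X i) : Bd I fun i x => Dt.Gi d i x / i.h := by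
  have o := h.one
  have a1 : Bd I (Dt.sg d) := ((bd_ch.mul (h.bs1 hI)).mul (Bd.of o hI (h.iE 0))).mul
    (bd_exp o hI ((h.qq 0).cmul o 2))
  exact (((Bd.of o hI (h.E0 0)).mul (bd_exp o hI ((h.qq 0).cmul o (-2)))).mul (bd_prim hI a1)).le
    fun i _ x _ => le_of_eq (by simp only [Dt.Gi, Dt.TT, Dt.SS, mul_div_assoc])

lemma abs_log_sub {x y c : ℝ} (hc : 0 < c) (hx : c ≤ x) (hy : c ≤ y) :
    |Real.log x - Real.log y| ≤ |x - y| / c := by
  have key : ∀ {x y : ℝ}, c ≤ x → c ≤ y → Real.log x - Real.log y ≤ |x - y| / c := by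
    intro x y hx hy
    have hy0 : 0 < y := by linarith
    rw [← Real.log_div (by linarith) hy0.ne']
    refine (Real.log_le_sub_one_of_pos (div_pos (by linarith) hy0)).trans ?_
    rw [div_sub_one hy0.ne']
    exact (div_le_div_of_nonneg_right (le_abs_self _) hy0.le).trans
      (div_le_div_of_nonneg_left (abs_nonneg _) hc hy)
  refine abs_le.2 ⟨?_, key hx hy⟩
  have := key hy hx
  rw [abs_sub_comm] at this
  linarith

lemma abs_sqrt_sub {x y : ℝ} (hx : 0 ≤ x) (hy : 1 / 2 ≤ y) : |√x - √y| ≤ 2 * |x - y| := by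
  have h1 : 1 / 2 ≤ √y := Real.le_sqrt_of_sq_le (by linarith)
  have h2 : x - y = (√x - √y) * (√x + √y) := by
    nlinarith [Real.sq_sqrt hx, Real.sq_sqrt (by linarith : 0 ≤ y)]
  rw [h2, abs_mul, abs_of_nonneg (by positivity : 0 ≤ √x + √y)]
  nlinarith [abs_nonneg (√x - √y), Real.sqrt_nonneg x]

/-- the family of small pulses -/
structure Fam (X : ℝ) (d : Dat) (c : ℝ) (I : Set Ix) : Prop where
  adm : ∀ i ∈ I, Adm X i
  pos : 0 < c
  low : ∀ x, X < x → c ≤ (d.a x)⁻¹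
  lowJ : ∀ i ∈ I, ∀ x, X < x → c ≤ (d.a x)⁻¹ + i.P * Gi d i x
  upJ : ∀ i ∈ I, ∀ x, X < x → (d.a x)⁻¹ + i.P * Gi d i x ≤ 3

lemma Fam.J {c : ℝ} (hF : Fam X d c I) (hp : ∀ x, 0 < d.a x) (hi : i ∈ I) (x : ℝ) :
    0 < (d.a x)⁻¹ + i.P * Gi d i x := by
  have ha := hF.adm i hi
  rcases le_or_gt x i.R with hx | hx
  · rw [Gi_left ha hx, mul_zero, add_zero]
    exact inv_pos.2 (hp x)
  · exact hF.pos.trans_le (hF.lowJ i hi x (by linarith [ha.R]))

variable {M e om : ℝ}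

lemma pul_sub (hp : ∀ x, 0 < d.a x) (hJ : ∀ x, 0 < (d.a x)⁻¹ + i.P * Gi d i x) (x : ℝ) :
    (pul d i).a x - d.a x = i.P * (-1 * (Gi d i x * d.a x * (pul d i).a x)) := by
  have h1 := (hp x).ne'
  have h2 := (hJ x).ne'
  have : (pul d i).a x * ((d.a x)⁻¹ + i.P * Gi d i x) = 1 := inv_mul_cancel₀ h2
  have h3 : d.a x * (d.a x)⁻¹ = 1 := mul_inv_cancel₀ h1
  linear_combination d.a x * this - (pul d i).a x * h3

lemma pul_point (hd' : IsData M e om d) (h : DS X d) {c : ℝ} (hF : Fam X d c I) :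
    ∃ (C : ℝ) (k : ℕ), 0 ≤ C ∧ ∀ i ∈ I, ∀ x ∈ Icc i.R (i.R + i.h), ∀ L, C * i.R ^ k ≤ L →
      |(red (pul d i)).w (-x, x) - (red d).w (-x, x)| ≤ L * i.h * i.P ∧
      |(red (pul d i)).l (-x, x) - (red d).l (-x, x)| ≤ L * i.h * i.P ∧
      |(red (pul d i)).n (-x, x) - (red d).n (-x, x)| ≤ L * i.h * i.P ∧
      |(red (pul d i)).wv (-x, x) - (red d).wv (-x, x)| ≤ L * i.P ∧
      |(red (pul d i)).pu (-x, x) - (red d).pu (-x, x)| ≤ L * i.P ∧
      |(red (pul d i)).pv (-x, x) - (red d).pv (-x, x)| ≤ L * i.P ∧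
      i.P * ch i x / 4 - L * i.h * i.P ≤ (red (pul d i)).pv (-x, x) - (red d).pv (-x, x) := by
  have o := h.one
  have hI := hF.adm
  have hp : ∀ x, 0 < d.a x := fun x => (hd'.pos x).1
  have hJ := fun i hi => hF.J hp (i := i) hi
  have bgi := h.bgi hI
  have bGi : Bd I (Gi d) := ((bd_h hI).mul bgi).le fun i hi x _ =>
    le_of_eq (by rw [mul_div_cancel₀ _ (hI i hi).h0.ne'])
  have bpa : Bd I fun i => (pul d i).a := Bd.unif (K := c⁻¹) fun i hi x hx => by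
    show |((d.a x)⁻¹ + i.P * Gi d i x)⁻¹| ≤ _
    rw [abs_of_pos (inv_pos.2 (hJ i hi x))]
    exact inv_anti₀ hF.pos (hF.lowJ i hi x ((hI i hi).lt hx))
  have bsa : Bd I fun i x => √((pul d i).a x) := (bpa.add o hI (Bd.const 1)).le fun i hi x _ => by
    have h0 : 0 ≤ (pul d i).a x := (inv_pos.2 (hJ i hi x)).le
    rw [abs_of_nonneg (Real.sqrt_nonneg _), abs_of_nonneg (by linarith), Real.sqrt_le_left
      (by linarith)]
    nlinarith
  have bHs : Bd I fun i x => (√((pul d i).a x) - √(d.a x)) / (i.h * i.P) :=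
    (((bgi.mul (Bd.of o hI (h.a 0))).mul bpa).cmul 2).le fun i hi x hx => by
      have ha := hI i hi
      have h0 : 0 < i.h * i.P := mul_pos ha.h0 ha.P0
      rw [abs_div, abs_of_pos h0, div_le_iff₀ h0]
      refine (abs_sqrt_sub (inv_pos.2 (hJ i hi x)).le (h.a0 x (ha.lt hx))).trans (le_of_eq ?_)
      rw [show ((d.a x)⁻¹ + i.P * Gi d i x)⁻¹ = (pul d i).a x from rfl, pul_sub hp (hJ i hi)]
      simp only [abs_mul, abs_div, abs_neg, abs_one, abs_two, abs_of_pos ha.h0, abs_of_pos ha.P0]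
      have := ha.h0.ne'
      field_simp
  have b1 := bgi.cmul c⁻¹
  have b2 := ((bHs.mul (Bd.of o hI (h.l 0))).mul (Bd.of o hI (h.isb 0))).cmul (1 / 2)
  have ba' : Bd I fun _ x => deriv d.a x * (d.a x)⁻¹ :=
    Bd.of o hI ((h.a 1).deriv.mul o (h.ia 0))
  have bGk : Bd I (Gk d) := ((Bd.of o hI ((h.be 0).mul o (h.f' 0))).mul bd_ch).cmul 2
  have b3 := ((((((Bd.of o hI (h.c1 0)).mul bGi).add o hI (bd_ch.mul (h.bs1 hI))).add o hI
    (ba'.mul bGi)).mul bpa).cmul (-1 / 2)).add o hI ((bGk.mul bsa).add o hI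
    ((Bd.of o hI ((h.k 0).mul o (h.ia 0))).mul ((bd_h hI).mul bHs)))
  have b5 := (bHs.mul (Bd.of o hI (h.g 0))).cmul (1 / 2)
  have b4 := ((bsa.mul bd_ch).cmul (1 / 2)).add o hI ((bd_h hI).mul b5)
  obtain ⟨C, k, c0, hb⟩ := (((b1.abs.add o hI b2.abs).add o hI b3.abs).add o hI b4.abs).add o hI
    b5.abs
  refine ⟨C, k, c0, fun i hi x hx L hL => ?_⟩
  have ha := hI i hi
  have hx' := ha.lt hx
  have hh := ha.h0
  have hP := ha.P0
  have hb' := (le_abs_self _).trans ((hb i hi x hx).trans hL)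
  simp only at hb'
  obtain ⟨Hs, hHs⟩ : ∃ Hs, Hs = (√((pul d i).a x) - √(d.a x)) / (i.h * i.P) := ⟨_, rfl⟩
  rw [← hHs] at hb'
  have eHs : √((pul d i).a x) = √(d.a x) + i.h * i.P * Hs := by
    rw [hHs]
    field_simp
    ring
  have n1 := abs_nonneg (c⁻¹ * (Gi d i x / i.h))
  have n2 := abs_nonneg (1 / 2 * (Hs * d.l x * (√(d.b x))⁻¹))
  have n3 := abs_nonneg (-1 / 2 * ((c1 d x * Gi d i x + ch i x * s1 d i x +
    deriv d.a x * (d.a x)⁻¹ * Gi d i x) * (pul d i).a x) + (Gk d i x * √((pul d i).a x) +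
    d.k x * (d.a x)⁻¹ * (i.h * Hs)))
  have n4 := abs_nonneg (1 / 2 * (√((pul d i).a x) * ch i x) + i.h * (1 / 2 * (Hs * d.g x)))
  have n5 := abs_nonneg (1 / 2 * (Hs * d.g x))
  have key : ∀ {y z t : ℝ}, 0 < t → y = t * z → |z| ≤ L → |y| ≤ L * t := by
    intro y z t ht e1 e2
    rw [e1, abs_mul, abs_of_pos ht, mul_comm]
    exact mul_le_mul_of_nonneg_right e2 ht.le
  have epv : (red (pul d i)).pv (-x, x) - (red d).pv (-x, x) =
      i.P * (1 / 2 * (√((pul d i).a x) * ch i x) + i.h * (1 / 2 * (Hs * d.g x))) := by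
    simp only [red]
    rw [eHs]
    simp only [pul]
    ring
  refine ⟨?_, ?_, ?_, ?_, ?_, key hP epv (by linarith), ?_⟩
  · have e1 : (red (pul d i)).w (-x, x) - (red d).w (-x, x) =
        Real.log (d.a x)⁻¹ - Real.log ((d.a x)⁻¹ + i.P * Gi d i x) := by
      simp only [red, pul, Real.log_inv]
      ring
    rw [e1]
    refine (abs_log_sub hF.pos (hF.low x hx') (hF.lowJ i hi x hx')).trans ?_
    rw [← abs_of_pos hF.pos, ← abs_div, mul_assoc]
    refine key (mul_pos hh hP) (z := -(c⁻¹ * (Gi d i x / i.h))) ?_ (by rw [abs_neg]; linarith)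
    have := hF.pos.ne'
    field_simp
    ring
  · rw [mul_assoc]
    refine key (mul_pos hh hP) (z := 1 / 2 * (Hs * d.l x * (√(d.b x))⁻¹)) ?_ (by linarith)
    simp only [red]
    rw [eHs]
    simp only [pul]
    ring
  · rw [mul_assoc]
    refine key (mul_pos hh hP) (z := 1 / 2 * (Hs * d.l x * (√(d.b x))⁻¹)) ?_ (by linarith)
    simp only [red]
    rw [eHs]
    simp only [pul]
    ring
  · refine key hP (z := -1 / 2 * ((c1 d x * Gi d i x + ch i x * s1 d i x +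
      deriv d.a x * (d.a x)⁻¹ * Gi d i x) * (pul d i).a x) + (Gk d i x * √((pul d i).a x) +
      d.k x * (d.a x)⁻¹ * (i.h * Hs))) ?_ (by linarith)
    simp only [red]
    rw [pul_a1 hd' h ha (hJ i hi), (Gi_deriv h ha hx').deriv]
    have e1 : (pul d i).k x / √((pul d i).a x) =
        (d.k x * (d.a x)⁻¹ + i.P * Gk d i x) * √((pul d i).a x) := by
      rw [show (pul d i).k x = (d.k x * (d.a x)⁻¹ + i.P * Gk d i x) * (pul d i).a x from rfl,
        mul_div_assoc, Real.div_sqrt]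
    have e2 : d.k x / √(d.a x) = d.k x * (d.a x)⁻¹ * √(d.a x) := by
      have h0 := Real.sqrt_pos.2 (hp x)
      have h2 := Real.sq_sqrt (hp x).le
      generalize √(d.a x) = A at h0 h2
      rw [← h2]
      field_simp
    have e3 : -(-deriv d.a x / d.a x ^ 2 + i.P * (c1 d x * Gi d i x + ch i x * s1 d i x)) /
        ((d.a x)⁻¹ + i.P * Gi d i x) ^ 2 / (pul d i).a x = deriv d.a x / d.a x -
        i.P * ((c1 d x * Gi d i x + ch i x * s1 d i x +
          deriv d.a x * (d.a x)⁻¹ * Gi d i x) * (pul d i).a x) := by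
      rw [show (pul d i).a x = ((d.a x)⁻¹ + i.P * Gi d i x)⁻¹ from rfl]
      have h1 := (hp x).ne'
      have h2 := (hJ i hi x).ne'
      obtain ⟨J, hJ'⟩ : ∃ J, J = (d.a x)⁻¹ + i.P * Gi d i x := ⟨_, rfl⟩
      rw [← hJ'] at h2 ⊢
      have h3 : J * d.a x = 1 + i.P * Gi d i x * d.a x := by
        rw [hJ']
        field_simp
      field_simp
      linear_combination (-deriv d.a x) * h3
    rw [mul_div_assoc 2, mul_div_assoc 2, e1, e2, e3]
    rw [eHs]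
    ring
  · refine key hP (Eq.trans ?_ epv) (by linarith)
    simp only [red, pul]
    ring
  · rw [epv]
    have a1 : 1 / 2 ≤ √((pul d i).a x) := by
      refine Real.le_sqrt_of_sq_le ?_
      have := inv_anti₀ (hJ i hi x) (hF.upJ i hi x hx')
      rw [show ((d.a x)⁻¹ + i.P * Gi d i x)⁻¹ = (pul d i).a x from rfl] at this
      linarith
    have a2 : 0 ≤ ch i x := chi_nonneg _
    have a3 : -L ≤ 1 / 2 * (Hs * d.g x) := by linarith [neg_abs_le (1 / 2 * (Hs * d.g x))]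
    have a4 := mul_le_mul_of_nonneg_left a3 (mul_pos hh hP).le
    have a5 := mul_le_mul_of_nonneg_left (mul_le_mul_of_nonneg_right a1 a2) hP.le
    linarith

end Vale.Agent.P354E.Dt
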