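import Vale.Agent.P354E.Calc

/-!
First bad point induction (FB), bootstrap, and Gronwall (G) on compact sets of the plane.
-/

open MeasureTheory Set Filter Topology

namespace Vale.Agent.P354E

lemma mem_Tri_u {p q : P2} (h : q ∈ Tri p) {y : ℝ} (hy : y ∈ Icc (-q.2) q.1) :
    (y, q.2) ∈ Tri p := ⟨hy.2.trans h.1, h.2.1, by linarith [hy.1]⟩

lemma mem_Tri_v {p q : P2} (h : q ∈ Tri p) {y : ℝ} (hy : y ∈ Icc (-q.1) q.2) :
    (q.1, y) ∈ Tri p := ⟨h.1, hy.2.trans h.2.1, by linarith [hy.1]⟩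

lemma diag_mem_Tri {p : P2} {x : ℝ} : (-x, x) ∈ Tri p ↔ x ∈ Icc (-p.1) p.2 :=
  ⟨fun h => ⟨by linarith [h.1], h.2.1⟩, fun h => ⟨by linarith [h.1], h.2, by simp⟩⟩

lemma isClosed_Tri (p : P2) : IsClosed (Tri p) :=
  (isClosed_le continuous_fst continuous_const).inter
    ((isClosed_le continuous_snd continuous_const).inter
      (isClosed_le continuous_const (continuous_fst.add continuous_snd)))

lemma isCompact_Tri_cut (p : P2) (V : ℝ) : IsCompact (Tri p ∩ {q | V ≤ q.2}) :=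
  (isCompact_Tri p).inter_right (isClosed_le continuous_const continuous_snd)

/-- FB: first bad point induction. -/
theorem FB {K G : Set P2} (hK : IsCompact K) (hG : ∀ q ∈ K, q ∈ G → G ∈ 𝓝[K] q)
    (step : ∀ q ∈ K, (∀ q' ∈ K, q'.1 ≤ q.1 → q'.2 ≤ q.2 → q' ≠ q → q' ∈ G) → q ∈ G) : K ⊆ G := by
  by_contra hn
  have hne : (K \ G).Nonempty := by
    rw [not_subset] at hn
    obtain ⟨q, h1, h2⟩ := hn
    exact ⟨q, h1, h2⟩
  have hcl : IsCompact (K \ G) := by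
    refine hK.of_isClosed_subset ?_ sdiff_subset
    rw [isClosed_iff_clusterPt]
    intro q hq
    have hqS : q ∈ K := hK.isClosed.closure_subset
      (closure_mono sdiff_subset (mem_closure_iff_clusterPt.2 hq))
    refine ⟨hqS, fun hqO => ?_⟩
    have h2 : (𝓝[K \ G] q).NeBot := hq
    have h3 : G ∈ 𝓝[K \ G] q := nhdsWithin_mono _ sdiff_subset (hG q hqS hqO)
    obtain ⟨r, hr1, hr2⟩ := h2.nonempty_of_mem (inter_mem h3 self_mem_nhdsWithin)
    exact hr2.2 hr1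
  obtain ⟨q, hq, hmin⟩ := hcl.exists_isMinOn hne (f := fun q : P2 => q.1 + q.2) (by fun_prop)
  refine hq.2 (step q hq.1 fun r hr h1 h2 hne => ?_)
  by_contra hrO
  have h3 : q.1 + q.2 ≤ r.1 + r.2 := hmin ⟨hr, hrO⟩
  exact hne (Prod.ext (by linarith) (by linarith))

/-- every point of K off the line u + v = 0 is a limit of strict predecessors in K -/
def Approx (K : Set P2) : Prop :=
  ∀ q ∈ K, q.1 + q.2 ≠ 0 → q ∈ closure {q' | q' ∈ K ∧ q'.1 ≤ q.1 ∧ q'.2 ≤ q.2 ∧ q' ≠ q}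

lemma approx_of_u {K : Set P2} (h0 : ∀ q ∈ K, 0 ≤ q.1 + q.2)
    (h : ∀ q ∈ K, ∀ y ∈ Icc (-q.2) q.1, (y, q.2) ∈ K) : Approx K := by
  intro q hq hne
  have hlt : -q.2 < q.1 := by
    have := lt_of_le_of_ne (h0 q hq) hne.symm
    linarith
  have ht : Tendsto (fun y : ℝ => ((y, q.2) : P2)) (𝓝[<] q.1) (𝓝 q) :=
    ((Continuous.prodMk_left q.2).tendsto' q.1 q rfl).mono_left nhdsWithin_le_nhds
  refine mem_closure_of_tendsto ht ?_
  filter_upwards [Ioo_mem_nhdsLT hlt] with y hy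
  exact ⟨h q hq y ⟨hy.1.le, hy.2.le⟩, hy.2.le, le_rfl, fun e => hy.2.ne (congrArg Prod.fst e)⟩

lemma approx_of_v {K : Set P2} (h0 : ∀ q ∈ K, 0 ≤ q.1 + q.2)
    (h : ∀ q ∈ K, ∀ y ∈ Icc (-q.1) q.2, (q.1, y) ∈ K) : Approx K := by
  intro q hq hne
  have hlt : -q.1 < q.2 := by
    have := lt_of_le_of_ne (h0 q hq) hne.symm
    linarith
  have ht : Tendsto (fun y : ℝ => ((q.1, y) : P2)) (𝓝[<] q.2) (𝓝 q) :=
    ((Continuous.prodMk_right q.1).tendsto' q.2 q rfl).mono_left nhdsWithin_le_nhds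
  refine mem_closure_of_tendsto ht ?_
  filter_upwards [Ioo_mem_nhdsLT hlt] with y hy
  exact ⟨h q hq y ⟨hy.1.le, hy.2.le⟩, le_rfl, hy.2.le, fun e => hy.2.ne (congrArg Prod.snd e)⟩

lemma approx_Tri (p : P2) : Approx (Tri p) :=
  approx_of_u (fun _ h => h.2.2) fun _ h _ hy => mem_Tri_u h hy

lemma approx_Tri_cut (p : P2) (V : ℝ) : Approx (Tri p ∩ {q | V ≤ q.2}) :=
  approx_of_u (fun _ h => h.1.2.2) fun _ h _ hy => ⟨mem_Tri_u h.1 hy, h.2⟩

/-- Bootstrap with sets: W is the weak (closed) condition, G the improved one. -/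
theorem FB2 {K W G : Set P2} (hK : IsCompact K) (ha : Approx K) (hW : IsClosed (K ∩ W))
    (hG : ∀ q ∈ K, q ∈ G → W ∈ 𝓝[K] q) (base : ∀ x : ℝ, (-x, x) ∈ K → (-x, x) ∈ W)
    (step : ∀ q ∈ K, (∀ q' ∈ K, q'.1 ≤ q.1 → q'.2 ≤ q.2 → q' ∈ W) → q ∈ G) : K ⊆ G := by
  have key : K ⊆ {q | W ∈ 𝓝[K] q} := by
    refine FB hK (fun q _ hq => eventually_mem_nhdsWithin_iff.2 hq) fun q hq h => ?_
    refine hG q hq (step q hq fun q' hq' h1 h2 => ?_)
    by_cases e : q' = q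
    · subst e
      by_cases h0 : q'.1 + q'.2 = 0
      · have e : q' = (-q'.2, q'.2) := Prod.ext (by simp only; linarith) rfl
        rw [e] at hq ⊢
        exact base _ hq
      · refine (hW.closure_subset (closure_mono ?_ (ha q' hq h0))).2
        rintro r ⟨r1, r2, r3, r4⟩
        exact ⟨r1, mem_of_mem_nhdsWithin r1 (h r r1 r2 r3 r4)⟩
    · exact mem_of_mem_nhdsWithin hq' (h q' hq' h1 h2 e)
  exact fun q hq => step q hq fun q' hq' _ _ => mem_of_mem_nhdsWithin hq' (key hq')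

/-- Bootstrap for a continuous function. -/
theorem boot {K : Set P2} (hK : IsCompact K) (ha : Approx K) {h : P2 → ℝ} {B : ℝ}
    (hc : ContinuousOn h K) (base : ∀ x : ℝ, (-x, x) ∈ K → h (-x, x) ≤ B)
    (step : ∀ q ∈ K, (∀ q' ∈ K, q'.1 ≤ q.1 → q'.2 ≤ q.2 → h q' ≤ B) → h q < B) :
    ∀ q ∈ K, h q < B :=
  FB2 (W := {q | h q ≤ B}) (G := {q | h q < B}) hK ha
    (hc.preimage_isClosed_of_isClosed hK.isClosed isClosed_Iic)
    (fun q hq hG => ((hc q hq).eventually (gt_mem_nhds hG)).mono fun _ h => h.le) base step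

/-- Bootstrap on a triangle. -/
theorem boot_Tri {p : P2} {h : P2 → ℝ} {B : ℝ} (hc : ContinuousOn h (Tri p))
    (base : ∀ x ∈ Icc (-p.1) p.2, h (-x, x) ≤ B)
    (step : ∀ q ∈ Tri p, (∀ q' ∈ Tri q, h q' ≤ B) → h q < B) : ∀ q ∈ Tri p, h q < B :=
  boot (isCompact_Tri p) (approx_Tri p) hc (fun x hx => base x (diag_mem_Tri.1 hx))
    fun q hq H => step q hq fun q' hq' => H q' (Tri_sub hq hq') hq'.1 hq'.2.1

lemma int_le_exp {f : ℝ → ℝ} {α β L D s : ℝ} (hab : α ≤ β) (hL : 0 ≤ L) (hD : 0 ≤ D)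
    (hf : ContinuousOn f (Icc α β)) (h : ∀ y ∈ Icc α β, f y ≤ D * Real.exp (4 * L * (y + s))) :
    L * ∫ y in α..β, f y ≤ D / 4 * Real.exp (4 * L * (β + s)) := by
  have i1 : IntervalIntegrable f volume α β :=
    ContinuousOn.intervalIntegrable (by rwa [uIcc_of_le hab])
  have h1 := intervalIntegral.integral_mono_on hab i1
    (g := fun y => D * Real.exp (4 * L * (y + s)))
    (by apply Continuous.intervalIntegrable; fun_prop) h
  have h2 : ∫ y in α..β, L * (D * Real.exp (4 * L * (y + s))) =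
      D / 4 * Real.exp (4 * L * (β + s)) - D / 4 * Real.exp (4 * L * (α + s)) := by
    refine intervalIntegral.integral_eq_sub_of_hasDerivAt
      (f := fun y => D / 4 * Real.exp (4 * L * (y + s))) (fun y _ => ?_)
      (by apply Continuous.intervalIntegrable; fun_prop)
    have h3 : HasDerivAt (fun y => 4 * L * (y + s)) (4 * L) y := by
      simpa using ((hasDerivAt_id y).add_const s).const_mul (4 * L)
    have h4 := h3.exp.const_mul (D / 4)
    rwa [show D / 4 * (Real.exp (4 * L * (y + s)) * (4 * L)) =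
      L * (D * Real.exp (4 * L * (y + s))) by ring] at h4
  rw [intervalIntegral.integral_const_mul] at h2
  have h5 := mul_le_mul_of_nonneg_left h1 hL
  have h6 : 0 ≤ D / 4 * Real.exp (4 * L * (α + s)) := by positivity
  linarith

/-- G: Gronwall on a compact set K in the future of u + v = 0. -/
theorem gronwall {K : Set P2} (hK : IsCompact K) (h0 : ∀ q ∈ K, 0 ≤ q.1 + q.2) {y : P2 → ℝ}
    {c L : ℝ} (hc : 0 ≤ c) (hL : 0 ≤ L) (hy : ContinuousOn y K)
    (h : ∀ q ∈ K, ∃ α β, α ≤ q.1 ∧ β ≤ q.2 ∧ (∀ s ∈ Icc α q.1, (s, q.2) ∈ K) ∧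
      (∀ s ∈ Icc β q.2, (q.1, s) ∈ K) ∧
      y q ≤ c + L * (∫ s in α..q.1, y (s, q.2)) + L * ∫ s in β..q.2, y (q.1, s)) :
    ∀ q ∈ K, y q ≤ 2 * c * Real.exp (4 * L * (q.1 + q.2)) := by
  intro q hq
  have hcont : ContinuousOn (fun q : P2 => y q / Real.exp (4 * L * (q.1 + q.2))) K :=
    hy.div (by fun_prop) fun q _ => (Real.exp_pos _).ne'
  obtain ⟨q₀, hq₀, hmax⟩ := hK.exists_isMaxOn ⟨q, hq⟩ hcont
  set D := y q₀ / Real.exp (4 * L * (q₀.1 + q₀.2)) with hD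
  have hb : ∀ r ∈ K, y r ≤ D * Real.exp (4 * L * (r.1 + r.2)) := fun r hr =>
    (div_le_iff₀ (Real.exp_pos _)).1 (hmax hr)
  refine (hb q hq).trans (mul_le_mul_of_nonneg_right ?_ (Real.exp_pos _).le)
  rcases le_total D 0 with hD0 | hD0
  · linarith
  obtain ⟨α, β, h1, h2, h3, h4, h5⟩ := h q₀ hq₀
  have e1 := int_le_exp (f := fun s => y (s, q₀.2)) (s := q₀.2) h1 hL hD0
    (hy.comp (Continuous.prodMk_left q₀.2).continuousOn h3) fun s hs => hb _ (h3 s hs)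
  have e2 := int_le_exp (f := fun s => y (q₀.1, s)) (s := q₀.1) h2 hL hD0
    (hy.comp (Continuous.prodMk_right q₀.1).continuousOn h4) fun s hs => by
      rw [add_comm s]
      exact hb _ (h4 s hs)
  rw [add_comm q₀.2] at e2
  set E := Real.exp (4 * L * (q₀.1 + q₀.2)) with hE
  have hE1 : 1 ≤ E := Real.one_le_exp (mul_nonneg (by positivity) (h0 q₀ hq₀))
  have hDE : y q₀ = D * E := by rw [hD]; field_simp
  nlinarith

/-- G on a triangle. -/
theorem gronwall_Tri {p : P2} {y : P2 → ℝ} {c L : ℝ} (hc : 0 ≤ c) (hL : 0 ≤ L)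
    (hy : ContinuousOn y (Tri p))
    (h : ∀ q ∈ Tri p, y q ≤ c + L * (∫ s in (-q.2)..q.1, y (s, q.2)) +
      L * ∫ s in (-q.1)..q.2, y (q.1, s)) :
    ∀ q ∈ Tri p, y q ≤ 2 * c * Real.exp (4 * L * (q.1 + q.2)) :=
  gronwall (isCompact_Tri p) (fun _ h => h.2.2) hc hL hy fun q hq =>
    ⟨-q.2, -q.1, by linarith [hq.2.2], by linarith [hq.2.2], fun _ hs => mem_Tri_u hq hs,
      fun _ hs => mem_Tri_v hq hs, h q hq⟩

end Vale.Agent.P354E
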