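import Vale.Agent.P354E.RN1
import Vale.Agent.P354E.Tools

open scoped ContDiff
open MeasureTheory Set Filter Topology

namespace Vale.Agent.P354E

lemma dd_le {S T : Fld} {q : P2} {δ : ℝ} (h : dd S T q ≤ δ) :
    |S.r q - T.r q| ≤ δ ∧ |S.w q - T.w q| ≤ δ ∧ |S.p q - T.p q| ≤ δ ∧ |S.l q - T.l q| ≤ δ ∧
      |S.n q - T.n q| ≤ δ ∧ |S.wu q - T.wu q| ≤ δ ∧ |S.wv q - T.wv q| ≤ δ ∧
      |S.pu q - T.pu q| ≤ δ ∧ |S.pv q - T.pv q| ≤ δ := by
  unfold dd at h
  have h1 := abs_nonneg (S.r q - T.r q)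
  have h2 := abs_nonneg (S.w q - T.w q)
  have h3 := abs_nonneg (S.p q - T.p q)
  have h4 := abs_nonneg (S.l q - T.l q)
  have h5 := abs_nonneg (S.n q - T.n q)
  have h6 := abs_nonneg (S.wu q - T.wu q)
  have h7 := abs_nonneg (S.wv q - T.wv q)
  have h8 := abs_nonneg (S.pu q - T.pu q)
  have h9 := abs_nonneg (S.pv q - T.pv q)
  refine ⟨?_, ?_, ?_, ?_, ?_, ?_, ?_, ?_, ?_⟩ <;> linarith

lemma dd_eq {S T : Fld} {q : P2} (h : dd S T q = 0) :
    S.r q = T.r q ∧ S.w q = T.w q ∧ S.p q = T.p q ∧ S.l q = T.l q ∧ S.n q = T.n q ∧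
      S.wu q = T.wu q ∧ S.wv q = T.wv q ∧ S.pu q = T.pu q ∧ S.pv q = T.pv q := by
  have := dd_le h.le
  simpa only [abs_nonpos_iff, sub_eq_zero] using this

variable {M e : ℝ} {S : Fld} {D : Set P2}

/-- a scalar field with vanishing data vanishes -/
lemma scalar_zero (h : IsSol e S D) (hD : IsDom D)
    (h0 : ∀ x : ℝ, S.pu (-x, x) = 0 ∧ S.pv (-x, x) = 0) {p : P2} (hp : p ∈ D)
    (ht : 0 ≤ p.1 + p.2) : S.pu p = 0 ∧ S.pv p = 0 := by
  have hT := hD.tri p hp
  have hT' := h.mono hT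
  obtain ⟨L1, hL10, hL1⟩ := bdd_Tri hD (h.cont.l.div h.cont.r h.ne) hp
  obtain ⟨L2, hL20, hL2⟩ := bdd_Tri hD (h.cont.n.div h.cont.r h.ne) hp
  have cth : ContinuousOn (fun q => S.r q * S.pv q) (Tri p) := hT'.cont.r.mul hT'.cont.pv
  have cze : ContinuousOn (fun q => S.r q * S.pu q) (Tri p) := hT'.cont.r.mul hT'.cont.pu
  have cy : ContinuousOn (fun q => |S.r q * S.pv q| + |S.r q * S.pu q|) (Tri p) :=
    cth.abs.add cze.abs
  have key := gronwall_Tri (p := p) (y := fun q => |S.r q * S.pv q| + |S.r q * S.pu q|) (c := 0)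
    (L := L1 + L2) le_rfl (by positivity) cy (fun q hq => by
      obtain ⟨u, v⟩ := q
      have hq3 : 0 ≤ u + v := hq.2.2
      have su : ∀ s ∈ Icc (-v) u, (s, v) ∈ Tri p := fun s hs => mem_Tri_u hq hs
      have sv : ∀ s ∈ Icc (-u) v, (u, s) ∈ Tri p := fun s hs => mem_Tri_v hq hs
      have cu := (hT'.cont.l.mul hT'.cont.pu).neg
      have cv := (hT'.cont.n.mul hT'.cont.pv).neg
      have e1 := ftcU (f := fun q => S.r q * S.pv q) (g := fun q => -(S.l q * S.pu q))
        (by linarith) su (fun q hq => (hT'.sol q hq).th_u) cu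
      have e2 := ftcV (f := fun q => S.r q * S.pu q) (g := fun q => -(S.n q * S.pv q))
        (by linarith) sv (fun q hq => (hT'.sol q hq).ze_v) cv
      have z1 := (h0 v).2
      have z2 := (h0 (-u)).1
      rw [neg_neg] at z2
      simp only [z1, z2, mul_zero, sub_zero] at e1 e2
      have b1 : |S.r (u, v) * S.pv (u, v)| ≤ (L1 + L2) *
          ∫ s in (-v)..u, (|S.r (s, v) * S.pv (s, v)| + |S.r (s, v) * S.pu (s, v)|) := by
        rw [← e1, ← intervalIntegral.integral_const_mul]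
        refine (intervalIntegral.abs_integral_le_integral_abs (by linarith)).trans
          (intervalIntegral.integral_mono_on (by linarith) (iiU cu.abs (by linarith) su)
            (iiU (continuousOn_const.mul cy) (by linarith) su) fun s hs => ?_)
        have a1 := hL1 _ (su s hs)
        have a2 := hT'.ne _ (su s hs)
        have a3 : -(S.l (s, v) * S.pu (s, v)) =
            -(S.l (s, v) / S.r (s, v)) * (S.r (s, v) * S.pu (s, v)) := by field_simp
        rw [a3, abs_mul, abs_neg]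
        simp only [Pi.div_apply] at a1
        have a4 := abs_nonneg (S.r (s, v) * S.pv (s, v))
        have a5 := abs_nonneg (S.r (s, v) * S.pu (s, v))
        nlinarith [mul_le_mul_of_nonneg_right a1 a5]
      have b2 : |S.r (u, v) * S.pu (u, v)| ≤ (L1 + L2) *
          ∫ s in (-u)..v, (|S.r (u, s) * S.pv (u, s)| + |S.r (u, s) * S.pu (u, s)|) := by
        rw [← e2, ← intervalIntegral.integral_const_mul]
        refine (intervalIntegral.abs_integral_le_integral_abs (by linarith)).trans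
          (intervalIntegral.integral_mono_on (by linarith) (iiV cv.abs (by linarith) sv)
            (iiV (continuousOn_const.mul cy) (by linarith) sv) fun s hs => ?_)
        have a1 := hL2 _ (sv s hs)
        have a2 := hT'.ne _ (sv s hs)
        have a3 : -(S.n (u, s) * S.pv (u, s)) =
            -(S.n (u, s) / S.r (u, s)) * (S.r (u, s) * S.pv (u, s)) := by field_simp
        rw [a3, abs_mul, abs_neg]
        simp only [Pi.div_apply] at a1
        have a4 := abs_nonneg (S.r (u, s) * S.pv (u, s))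
        have a5 := abs_nonneg (S.r (u, s) * S.pu (u, s))
        nlinarith [mul_le_mul_of_nonneg_right a1 a4]
      simp only
      linarith) p (self_mem_Tri ht)
  have a4 := abs_nonneg (S.r p * S.pv p)
  have a5 := abs_nonneg (S.r p * S.pu p)
  have hr := h.ne p hp
  simp only [mul_zero, zero_mul] at key
  have b4 : S.r p * S.pv p = 0 := abs_eq_zero.1 (by linarith)
  have b5 : S.r p * S.pu p = 0 := abs_eq_zero.1 (by linarith)
  exact ⟨(mul_eq_zero.1 b5).resolve_left hr, (mul_eq_zero.1 b4).resolve_left hr⟩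

/-- a development of the Reissner-Nordstroem data -/
structure RNS (M e : ℝ) (S : Fld) (D : Set P2) : Prop where
  hM : |e| < M
  sol : IsSol e S D
  dom : IsDom D
  dat : ∀ x : ℝ, dd S (rnF M e) (-x, x) = 0

namespace RNS

variable {u v : ℝ}

lemma pz (h : RNS M e S D) (hq : (u, v) ∈ D) (ht : 0 ≤ u + v) :
    S.pu (u, v) = 0 ∧ S.pv (u, v) = 0 :=
  scalar_zero h.sol h.dom (fun x => ⟨(dd_eq (h.dat x)).2.2.2.2.2.2.2.1,
    (dd_eq (h.dat x)).2.2.2.2.2.2.2.2⟩) hq ht

lemma p_eq (h : RNS M e S D) (hq : (u, v) ∈ D) (ht : 0 ≤ u + v) : S.p (u, v) = 0 := by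
  have hs := h.dom.seg_u hq (a := -v) (by linarith)
  have := eq_of_deriv_zero (F := fun s => S.p (s, v)) (a := -v) (b := u) (by linarith)
    (fun s hs' => ((h.sol.sol _ (hs s hs')).p_u).congr_d
      (h.pz (hs s hs') (by linarith [hs'.1])).1)
  rw [this, (dd_eq (h.dat v)).2.2.1]
  rfl

lemma O_diag (h : RNS M e S D) (x : ℝ) : S.O (-x, x) = (rnF M e).O (-x, x) := by
  unfold Fld.O; rw [(dd_eq (h.dat x)).2.1]

lemma r_diag (h : RNS M e S D) (x : ℝ) : S.r (-x, x) = M + rs M e x := (dd_eq (h.dat x)).1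

lemma mass_eq (h : RNS M e S D) (hq : (u, v) ∈ D) (ht : 0 ≤ u + v) : mass e S (u, v) = M := by
  have hs := h.dom.seg_u hq (a := -v) (by linarith)
  have := eq_of_deriv_zero (F := fun s => mass e S (s, v)) (a := -v) (b := u) (by linarith)
    (fun s hs' => ((h.sol.sol _ (hs s hs')).mass_u).congr_d (by
      rw [(h.pz (hs s hs') (by linarith [hs'.1])).1]; simp))
  rw [this, ← rnF_mass h.hM (-v, v)]
  obtain ⟨h1, -, -, h4, h5, -⟩ := dd_eq (h.dat v)
  unfold mass
  rw [h1, h4, h5, h.O_diag]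

lemma n_eq (h : RNS M e S D) (hq : (u, v) ∈ D) (ht : 0 ≤ u + v) :
    S.n (u, v) = rnP M e v * S.O (u, v) := by
  have hs := h.dom.seg_u hq (a := -v) (by linarith)
  have := eq_of_deriv_zero (F := fun s => S.n (s, v) / S.O (s, v)) (a := -v) (b := u)
    (by linarith) (fun s hs' => ((h.sol.sol _ (hs s hs')).nO_u).congr_d (by
      rw [(h.pz (hs s hs') (by linarith [hs'.1])).1]; simp))
  rw [h.O_diag, (dd_eq (h.dat v)).2.2.2.2.1, rnF_nO h.hM, div_eq_iff (O_ne S _)] at this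
  exact this

lemma l_eq (h : RNS M e S D) (hq : (u, v) ∈ D) (ht : 0 ≤ u + v) :
    S.l (u, v) = rnP M e u * S.O (u, v) := by
  have hs := h.dom.seg_v hq (a := -u) (by linarith)
  have := eq_of_deriv_zero (F := fun s => S.l (u, s) / S.O (u, s)) (a := -u) (b := v)
    (by linarith) (fun s hs' => ((h.sol.sol _ (hs s hs')).lO_v).congr_d (by
      rw [(h.pz (hs s hs') (by linarith [hs'.1])).2]; simp))
  have e1 := h.O_diag (-u)
  have e2 := (dd_eq (h.dat (-u))).2.2.2.1
  rw [neg_neg] at e1 e2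
  rw [e1, e2, rnF_lO h.hM, div_eq_iff (O_ne S _)] at this
  simpa using this

lemma m1 (h : RNS M e S D) (hq : (u, v) ∈ D) (ht : 0 ≤ u + v) :
    (S.r (u, v) - rp M e) * (S.r (u, v) - rm M e) =
      -4 * S.r (u, v) ^ 2 * (rnP M e u * rnP M e v * S.O (u, v)) := by
  have hr := h.sol.ne _ hq
  have hO := O_ne S (u, v)
  have h1 := m1_eq e S (u, v) hr
  rw [h.mass_eq hq ht, h.l_eq hq ht, h.n_eq hq ht] at h1
  rw [rp_rm h.hM]
  field_simp at h1
  linarith

lemma r00 (h : RNS M e S D) : S.r (0, 0) = rp M e := by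
  have := h.r_diag 0
  rw [neg_zero] at this
  rw [this]
  simp [rs, rp]

lemma r_u0 (h : RNS M e S D) (hq : (0, v) ∈ D) (ht : 0 ≤ v) : S.r (0, v) = rp M e := by
  have hs := h.dom.seg_v hq (a := 0) (by linarith)
  have := eq_of_deriv_zero (F := fun s => S.r (0, s)) ht
    (fun s hs' => ((h.sol.sol _ (hs s hs')).r_v).congr_d (by
      rw [h.l_eq (hs s hs') (by linarith [hs'.1]), rnP_zero]; simp))
  rw [this, h.r00]

lemma r_v0 (h : RNS M e S D) (hq : (u, 0) ∈ D) (ht : 0 ≤ u) : S.r (u, 0) = rp M e := by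
  have hs := h.dom.seg_u hq (a := 0) (by linarith)
  have := eq_of_deriv_zero (F := fun s => S.r (s, 0)) ht
    (fun s hs' => ((h.sol.sol _ (hs s hs')).r_u).congr_d (by
      rw [h.n_eq (hs s hs') (by linarith [hs'.1]), rnP_zero]; simp))
  rw [this, h.r00]

lemma r_ne (h : RNS M e S D) (hq : (u, v) ∈ D) (ht : 0 ≤ u + v) : S.r (u, v) ≠ rm M e := by
  have hlt : rm M e < rp M e := (rm_lt h.hM).trans (lt_rp h.hM)
  intro hc
  have h1 := h.m1 hq ht
  rw [hc, sub_self, mul_zero] at h1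
  have hr := h.sol.ne _ hq
  rw [hc] at hr
  have hO := O_ne S (u, v)
  have h2 : rnP M e u * rnP M e v = 0 := by
    have : -4 * rm M e ^ 2 ≠ 0 := mul_ne_zero (by norm_num) (pow_ne_zero 2 hr)
    have := (mul_eq_zero.1 h1.symm).resolve_left this
    exact (mul_eq_zero.1 this).resolve_right hO
  have key : ∀ x, rnP M e x = 0 → x = 0 := fun x hx => by
    rcases lt_trichotomy x 0 with h3 | h3 | h3
    · exact absurd hx (rnP_pos h.hM h3).ne'
    · exact h3
    · exact absurd hx (rnP_neg h.hM h3).ne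
  rcases mul_eq_zero.1 h2 with h3 | h3
  · have := key u h3
    subst this
    rw [h.r_u0 hq (by linarith)] at hc
    exact hlt.ne' hc
  · have := key v h3
    subst this
    rw [h.r_v0 hq (by linarith)] at hc
    exact hlt.ne' hc

lemma r_gt (h : RNS M e S D) (hq : (u, v) ∈ D) (ht : 0 ≤ u + v) : rm M e < S.r (u, v) := by
  by_contra hc
  have hs := h.dom.seg_u hq (a := -v) (by linarith)
  have hc' := not_lt.1 hc
  have h0 : rm M e ≤ S.r (-v, v) := by
    rw [h.r_diag]
    linarith [rm_lt h.hM, rs_pos h.hM v]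
  obtain ⟨s, hs1, hs2⟩ := intermediate_value_Icc' (by linarith : -v ≤ u)
    (contOn_u h.sol.cont.r hs) ⟨hc', h0⟩
  exact h.r_ne (hs s hs1) (by linarith [hs1.1]) hs2

lemma l_neg (h : RNS M e S D) (hq : (u, v) ∈ D) (ht : 0 ≤ u + v) (hu : 0 < u) :
    S.l (u, v) < 0 := by
  rw [h.l_eq hq ht]
  exact mul_neg_of_neg_of_pos (rnP_neg h.hM hu) (O_pos S _)

lemma n_neg (h : RNS M e S D) (hq : (u, v) ∈ D) (ht : 0 ≤ u + v) (hv : 0 < v) :
    S.n (u, v) < 0 := by
  rw [h.n_eq hq ht]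
  exact mul_neg_of_neg_of_pos (rnP_neg h.hM hv) (O_pos S _)

/-- the interior is the quadrant u, v > 0 -/
lemma quad (h : RNS M e S D) (hq : (u, v) ∈ D) (ht : 0 ≤ u + v) (hr : S.r (u, v) < rp M e) :
    0 < u ∧ 0 < v := by
  have h1 := h.m1 hq ht
  have h2 := h.r_gt hq ht
  have h3 := h.sol.pos hq
  have hO := O_pos S (u, v)
  have h4 : (S.r (u, v) - rp M e) * (S.r (u, v) - rm M e) < 0 :=
    mul_neg_of_neg_of_pos (by linarith) (by linarith)
  have h5 : 0 < rnP M e u * rnP M e v := by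
    by_contra hc
    have hc' := not_lt.1 hc
    have : 0 ≤ -4 * S.r (u, v) ^ 2 * (rnP M e u * rnP M e v * S.O (u, v)) :=
      mul_nonneg_of_nonpos_of_nonpos (by nlinarith [sq_nonneg (S.r (u, v))])
        (mul_nonpos_of_nonpos_of_nonneg hc' hO.le)
    linarith
  have nn : ∀ x, x ≤ 0 → 0 ≤ rnP M e x := fun x hx => by
    rcases hx.lt_or_eq with h6 | h6
    · exact (rnP_pos h.hM h6).le
    · rw [h6, rnP_zero]
  have np : ∀ x, 0 ≤ x → rnP M e x ≤ 0 := fun x hx => by
    rcases hx.lt_or_eq with h6 | h6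
    · exact (rnP_neg h.hM h6).le
    · rw [← h6, rnP_zero]
  constructor
  · by_contra hc
    have hc' := not_lt.1 hc
    have := mul_nonpos_of_nonneg_of_nonpos (nn u hc') (np v (by linarith))
    linarith
  · by_contra hc
    have hc' := not_lt.1 hc
    have := mul_nonpos_of_nonpos_of_nonneg (np u (by linarith)) (nn v hc')
    linarith

lemma r_lt (h : RNS M e S D) (hq : (u, v) ∈ D) (hu : 0 < u) (hv : 0 < v) :
    S.r (u, v) < rp M e := by
  have ht : 0 ≤ u + v := by linarith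
  have h1 := h.m1 hq ht
  have h2 := h.r_gt hq ht
  have h3 := h.sol.pos hq
  have hO := O_pos S (u, v)
  have h5 : 0 < rnP M e u * rnP M e v := mul_pos_of_neg_of_neg (rnP_neg h.hM hu) (rnP_neg h.hM hv)
  have h6 : 0 < 4 * S.r (u, v) ^ 2 * (rnP M e u * rnP M e v * S.O (u, v)) := by positivity
  by_contra hc
  have := mul_nonneg (sub_nonneg.2 (not_lt.1 hc)) (sub_pos.2 h2).le
  linarith

/-- l ≤ m1 / 2 in the interior -/
lemma l_le (h : RNS M e S D) (hq : (u, v) ∈ D) (hu : 0 < u) (hv : 0 < v) :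
    2 * S.r (u, v) ^ 2 * S.l (u, v) ≤ (S.r (u, v) - rp M e) * (S.r (u, v) - rm M e) := by
  have ht : 0 ≤ u + v := by linarith
  have h1 := h.l_neg hq ht hu
  have h2 := rnP_ge h.hM v
  rw [h.m1 hq ht]
  have e1 : -4 * S.r (u, v) ^ 2 * (rnP M e u * rnP M e v * S.O (u, v)) =
      -4 * S.r (u, v) ^ 2 * S.l (u, v) * rnP M e v := by rw [h.l_eq hq ht]; ring
  rw [e1]
  have h3 : 0 ≤ S.r (u, v) ^ 2 * -S.l (u, v) := mul_nonneg (sq_nonneg _) (by linarith)
  nlinarith

/-- the maximal development contains the whole future -/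
lemma all_mem (h : RNS M e S D) (he : e ≠ 0) (hext : Ext S D) {p : P2} (hp : 0 ≤ p.1 + p.2) :
    p ∈ D := by
  have h0 : ((0, 0) : P2) ∈ D := by simpa using h.dom.diag 0
  have hc : Continuous (fun d : ℝ => ((d, d) : P2)) := by fun_prop
  have h1 : ∀ᶠ d in 𝓝 (0 : ℝ), ((d, d) : P2) ∈ D :=
    hc.continuousAt.preimage_mem_nhds (h.dom.isOpen.mem_nhds h0)
  obtain ⟨d, hd, hd0⟩ := ((h1.filter_mono nhdsWithin_le_nhds).and
    (self_mem_nhdsWithin (a := (0 : ℝ)) (s := Ioi 0))).exists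
  have hd0' : 0 < d := hd0
  have hr : ∀ q ∈ D ∩ Tri p, rm M e ≤ S.r q := fun q hq => (h.r_gt hq.1 hq.2.2.2).le
  obtain ⟨C, hC⟩ := bOmega e S D d p (rm M e) h.sol h.dom hd0' hd
    (fun x hx => ⟨h.n_neg (h.dom.diag x) (by linarith) (by linarith),
      h.l_neg (h.dom.diag' x) (by linarith) (by linarith)⟩) (rm_pos he h.hM) hr
  exact hext p (rm M e) C hp (rm_pos he h.hM) fun q hq => ⟨hr q hq, hC q hq⟩

/-- r gets below rb -/
lemma exists_V (h : RNS M e S D) (hall : ∀ p : P2, 0 ≤ p.1 + p.2 → p ∈ D) {rb : ℝ}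
    (hrb : rm M e < rb) (V0 : ℝ) : ∃ V, V0 ≤ V ∧ 0 < V ∧ S.r (V, V) < rb := by
  have hm : ∀ u v : ℝ, 0 ≤ u + v → (u, v) ∈ D := fun u v ht => hall (u, v) ht
  have h1 : ∃ v1, 1 ≤ v1 ∧ S.r (1, v1) < rb := by
    by_contra hc
    push Not at hc
    set r1 := S.r (1, 1) with hr1
    have hr1p : r1 < rp M e := h.r_lt (hm 1 1 (by norm_num)) one_pos one_pos
    have hrp : 0 < rp M e := (rn_Mpos h.hM).trans (lt_rp h.hM)
    set μ := (rp M e - r1) * (rb - rm M e) / (2 * rp M e ^ 2) with hμ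
    have hμ0 : 0 < μ := div_pos (mul_pos (by linarith) (by linarith)) (by positivity)
    have hl : ∀ v, 1 ≤ v → S.l (1, v) ≤ -μ := fun v hv => by
      have hq := hm 1 v (by linarith)
      have a1 := h.l_le hq one_pos (by linarith)
      have a2 : S.r (1, v) ≤ r1 := h.sol.r_anti_v hv (fun s hs => hm 1 s (by linarith [hs.1]))
        (h.l_neg (hm 1 1 (by norm_num)) (by norm_num) one_pos).le
      have a3 := hc v hv
      have a4 := h.sol.pos hq
      have a5 := h.l_neg hq (by linarith) one_pos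
      have a6 : (S.r (1, v) - rp M e) * (S.r (1, v) - rm M e) ≤
          -((rp M e - r1) * (rb - rm M e)) := by
        have := mul_le_mul (by linarith : rp M e - r1 ≤ rp M e - S.r (1, v))
          (by linarith : rb - rm M e ≤ S.r (1, v) - rm M e) (by linarith) (by linarith)
        linarith
      have a7 : S.r (1, v) ^ 2 ≤ rp M e ^ 2 := by nlinarith
      have a8 : 2 * rp M e ^ 2 * S.l (1, v) ≤ -((rp M e - r1) * (rb - rm M e)) := by nlinarith
      rw [hμ, ← neg_div, le_div_iff₀ (by positivity)]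
      linarith
    have hv : 1 ≤ 1 + (|r1| + 1) / μ := by
      have : 0 ≤ (|r1| + 1) / μ := by positivity
      linarith
    have b1 := anti_v (f := fun q => S.r q + μ * q.2) (g := fun q => S.l q + μ * 1) (u := 1) hv
      (fun s hs => ((h.sol.sol _ (hm 1 s (by linarith [hs.1]))).r_v).add
        ((Dv.snd _).const_mul μ))
      (fun s hs => by linarith [hl s hs.1])
    have b2 := h.sol.pos (hm 1 (1 + (|r1| + 1) / μ) (by linarith))
    have b3 : μ * (1 + (|r1| + 1) / μ) = μ + (|r1| + 1) := by field_simp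
    simp only at b1
    linarith [le_abs_self r1]
  obtain ⟨v1, hv1, hr⟩ := h1
  refine ⟨max V0 v1, le_max_left _ _, by linarith [le_max_right V0 v1], ?_⟩
  set V := max V0 v1 with hV
  have hV1 : v1 ≤ V := le_max_right _ _
  have a1 : S.r (V, V) ≤ S.r (V, v1) :=
    h.sol.r_anti_v hV1 (fun s hs => hm V s (by linarith [hs.1]))
      (h.l_neg (hm V v1 (by linarith)) (by linarith) (by linarith)).le
  have a2 : S.r (V, v1) ≤ S.r (1, v1) :=
    h.sol.r_anti_u (by linarith) (fun s hs => hm s v1 (by linarith [hs.1]))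
      (h.n_neg (hm 1 v1 (by linarith)) (by linarith) (by linarith)).le
  linarith

end RNS

end Vale.Agent.P354E
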