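import Mathlib

/-! Block R, part A: the constants of the current and the pointwise inequality. -/

open Set

namespace Vale.Agent.P354E.Rt

/-- 1 - 2m/r + E/r^2 -/
noncomputable def DD (m E r : ℝ) : ℝ := 1 - 2 * m / r + E / r ^ 2
/-- r times the r derivative of DD -/
noncomputable def JJ (m E r : ℝ) : ℝ := 2 * m / r - 2 * E / r ^ 2

lemma pert {M E0 rb μ r m E : ℝ} (hb : 0 < rb) (hr : rb ≤ r) (hm : |m - M| ≤ μ)
    (hE : |E - E0| ≤ μ) : |DD m E r - DD M E0 r| ≤ (2 / rb + 1 / rb ^ 2) * μ := by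
  have hr0 : 0 < r := hb.trans_le hr
  have hμ : 0 ≤ μ := (abs_nonneg _).trans hm
  have e : DD m E r - DD M E0 r = -(m - M) * (2 / r) + (E - E0) * (1 / r ^ 2) := by
    unfold DD; ring
  have h1 : 2 / r ≤ 2 / rb := by gcongr
  have h2 : 1 / r ^ 2 ≤ 1 / rb ^ 2 := by gcongr
  rw [e]
  refine (abs_add_le _ _).trans ?_
  rw [abs_mul, abs_mul, abs_neg, abs_of_pos (by positivity : 0 < 2 / r),
    abs_of_pos (by positivity : 0 < 1 / r ^ 2)]
  have := mul_le_mul hm h1 (by positivity) hμ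
  have := mul_le_mul hE h2 (by positivity) hμ
  nlinarith

lemma DD_eq {M s r : ℝ} (hr : 0 < r) :
    DD M (M ^ 2 - s ^ 2) r = (r - (M + s)) * (r - (M - s)) / r ^ 2 := by
  unfold DD; field_simp; ring

lemma geoJ {M s μ r m E : ℝ} (hs : 0 < s) (hsM : s < M) (hμ : 0 ≤ μ) (hm : -μ ≤ m - M)
    (hE : E - (M ^ 2 - s ^ 2) ≤ μ) (a2 : μ * (3 * M + 1) ≤ s ^ 2 / 2) (h : M ≤ r) :
    s ^ 2 - μ * (r + 1) ≤ m * r - E ∧ 0 ≤ m * r - E := by
  have hM : 0 < M := hs.trans hsM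
  have h1 : (M - μ) * r ≤ m * r := mul_le_mul_of_nonneg_right (by linarith) (by linarith)
  have h2 : M * M ≤ M * r := mul_le_mul_of_nonneg_left h hM.le
  have h3 : μ ≤ M := by nlinarith
  have h4 : (M - μ) * M ≤ (M - μ) * r := mul_le_mul_of_nonneg_left h (by linarith)
  have h5 : 0 ≤ μ * M := by positivity
  constructor <;> nlinarith

lemma geoIn {M s rb η r : ℝ} (hs : 0 < s) (hsM : s < M) (h1 : M - s < rb) (hr : rb ≤ r)
    (hη : 0 < η) (h : r ≤ M + s - η) :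
    (r - (M + s)) * (r - (M - s)) / r ^ 2 ≤ -(η * (rb - (M - s)) / (4 * M ^ 2)) := by
  have hr0 : 0 < r := by linarith
  have h2 : r ^ 2 ≤ 4 * M ^ 2 := by nlinarith
  have h3 : η * (rb - (M - s)) ≤ (M + s - r) * (r - (M - s)) :=
    mul_le_mul (by linarith) (by linarith) (by linarith) (by linarith)
  have h4 : η * (rb - (M - s)) / (4 * M ^ 2) ≤ (M + s - r) * (r - (M - s)) / r ^ 2 :=
    div_le_div₀ (mul_nonneg (by linarith) (by linarith)) h3 (by positivity) h2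
  have e : (r - (M + s)) * (r - (M - s)) / r ^ 2 = -((M + s - r) * (r - (M - s)) / r ^ 2) := by
    ring
  linarith

lemma geoOut {M s η r : ℝ} (hs : 0 < s) (hsM : s < M) (hη : 0 < η) (η1 : η ≤ s)
    (h : M + s + η ≤ r) : (η / (3 * M)) ^ 2 ≤ (r - (M + s)) * (r - (M - s)) / r ^ 2 := by
  have hM : 0 < M := hs.trans hsM
  have hr0 : 0 < r := by linarith
  have h3 : η / (3 * M) ≤ (r - (M + s)) / r := by
    rw [div_le_div_iff₀ (by positivity) hr0]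
    nlinarith [mul_nonneg (sub_nonneg.2 h) (by linarith : 0 ≤ 3 * M - η)]
  refine (pow_le_pow_left₀ (by positivity) h3 2).trans ?_
  rw [div_pow]
  gcongr
  nlinarith

lemma geoNear {M s η δ r : ℝ} (hs : 0 < s) (hsM : s < M) (hδ : 0 < δ) (η1 : η ≤ s)
    (η2 : η ≤ M * δ / 2) (h : |r - (M + s)| ≤ η) :
    |(r - (M + s)) * (r - (M - s)) / r ^ 2| ≤ δ / 2 := by
  have hM : 0 < M := hs.trans hsM
  have h' := abs_le.1 h
  have h3 : M ≤ r := by linarith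
  have hr0 : 0 < r := by linarith
  rw [abs_div, abs_mul, abs_of_pos (by linarith : 0 < r - (M - s)),
    abs_of_pos (by positivity : 0 < r ^ 2), div_le_iff₀ (by positivity)]
  have : |r - (M + s)| * (r - (M - s)) ≤ M * δ / 2 * r :=
    mul_le_mul (h.trans η2) (by linarith) (by linarith) (by positivity)
  have : M * δ / 2 * r ≤ r * δ / 2 * r := by gcongr
  nlinarith

lemma geo {M s rb : ℝ} (hs : 0 < s) (hsM : s < M) (h1 : M - s < rb) :
    ∃ c2 CD Ca R1 k0 : ℝ, 0 < c2 ∧ 0 < CD ∧ 0 < Ca ∧ 0 < R1 ∧ 0 < k0 ∧ ∀ δ, 0 < δ →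
      ∃ η c1 μ0 : ℝ, 0 < η ∧ 0 < c1 ∧ 0 < μ0 ∧ ∀ μ r m E : ℝ, μ ≤ μ0 → rb ≤ r → |m - M| ≤ μ →
        |E - (M ^ 2 - s ^ 2)| ≤ μ → 0 ≤ E →
        |DD m E r| ≤ CD ∧ |JJ m E r| * r ≤ Ca ∧ (0 < DD m E r → 0 ≤ JJ m E r) ∧
        (R1 ≤ r → 1 / 2 ≤ DD m E r) ∧
        (|r - (M + s)| ≤ η → c2 ≤ JJ m E r / r ∧ |DD m E r| ≤ δ) ∧
        (M + s + η ≤ r → c1 ≤ DD m E r) ∧ (r ≤ M + s - η → DD m E r ≤ -c1) ∧
        (M + s ≤ r → -(k0 * μ) ≤ DD m E r) ∧ (r ≤ M + s → DD m E r ≤ k0 * μ) := by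
  have hM : 0 < M := hs.trans hsM
  have hb : 0 < rb := by linarith
  have hE0 : 0 < M ^ 2 - s ^ 2 := by nlinarith
  refine ⟨s ^ 2 / (27 * M ^ 3), 1 + 2 * (M + 1) / rb + (M ^ 2 + 1) / rb ^ 2,
    2 * (M + 1) + 2 * (M ^ 2 + 1) / rb, 4 * (M + 1), 2 / rb + 1 / rb ^ 2, by positivity,
    by positivity, by positivity, by positivity, by positivity, fun δ hδ => ?_⟩
  obtain ⟨k0, hk0⟩ : ∃ k0, k0 = 2 / rb + 1 / rb ^ 2 := ⟨_, rfl⟩
  have k0p : 0 < k0 := by rw [hk0]; positivity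
  rw [← hk0]
  obtain ⟨η, hη, η1, η2⟩ : ∃ η, 0 < η ∧ η ≤ s ∧ η ≤ M * δ / 2 :=
    ⟨min s (M * δ / 2), by positivity, min_le_left _ _, min_le_right _ _⟩
  have hg : 0 < rb - (M - s) := by linarith
  obtain ⟨c1, hc1, c11, c12⟩ : ∃ c1, 0 < c1 ∧ 2 * c1 ≤ (η / (3 * M)) ^ 2 ∧
      2 * c1 ≤ η * (rb - (M - s)) / (4 * M ^ 2) :=
    ⟨min ((η / (3 * M)) ^ 2) (η * (rb - (M - s)) / (4 * M ^ 2)) / 2, by positivity,
      by linarith [min_le_left ((η / (3 * M)) ^ 2) (η * (rb - (M - s)) / (4 * M ^ 2))],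
      by linarith [min_le_right ((η / (3 * M)) ^ 2) (η * (rb - (M - s)) / (4 * M ^ 2))]⟩
  obtain ⟨μ0, hμ0, μ1, μ2, μ3, μ4⟩ : ∃ μ0, 0 < μ0 ∧ μ0 ≤ 1 ∧ μ0 ≤ s ^ 2 / (2 * (3 * M + 1)) ∧
      μ0 ≤ δ / (2 * k0) ∧ μ0 ≤ c1 / k0 :=
    ⟨min (min 1 (s ^ 2 / (2 * (3 * M + 1)))) (min (δ / (2 * k0)) (c1 / k0)), by positivity,
      (min_le_left _ _).trans (min_le_left _ _), (min_le_left _ _).trans (min_le_right _ _),
      (min_le_right _ _).trans (min_le_left _ _), (min_le_right _ _).trans (min_le_right _ _)⟩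
  refine ⟨η, c1, μ0, hη, hc1, hμ0, fun μ r m E hμ hr hm hE hE1 => ?_⟩
  have hr0 : 0 < r := hb.trans_le hr
  have hp := pert hb hr hm hE
  rw [← hk0, DD_eq hr0, abs_le] at hp
  have hμn : 0 ≤ μ := (abs_nonneg _).trans hm
  have hm' := abs_le.1 hm
  have hE' := abs_le.1 hE
  have hma : |m| ≤ M + 1 := abs_le.2 ⟨by linarith, by linarith⟩
  have hEa : E ≤ M ^ 2 + 1 := by linarith [sq_nonneg s]
  have a3 : k0 * μ ≤ δ / 2 := by
    have := hμ.trans μ3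
    rw [le_div_iff₀ (by positivity)] at this
    linarith
  have a4 : k0 * μ ≤ c1 := by
    have := hμ.trans μ4
    rw [le_div_iff₀ (by positivity)] at this
    linarith
  have a2 : μ * (3 * M + 1) ≤ s ^ 2 / 2 := by
    have := hμ.trans μ2
    rw [le_div_iff₀ (by positivity)] at this
    linarith
  have b1 : |2 * m / r| ≤ 2 * (M + 1) / rb := by
    rw [abs_div, abs_mul, abs_of_pos hr0, abs_two]
    gcongr
  have b2 : E / r ^ 2 ≤ (M ^ 2 + 1) / rb ^ 2 := by gcongr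
  have b3 : 0 ≤ E / r ^ 2 := by positivity
  have out : r ≤ M + s - η → DD m E r ≤ -c1 := fun h => by
    linarith [hp.2, geoIn hs hsM h1 hr hη h]
  have eJ : JJ m E r = 2 * (m * r - E) / r ^ 2 := by unfold JJ; field_simp
  have hJ : M ≤ r → _ := geoJ hs hsM hμn hm'.1 hE'.2 a2
  refine ⟨?_, ?_, fun h => ?_, fun h => ?_, fun h => ⟨?_, ?_⟩, fun h => ?_, out, fun h => ?_,
    fun h => ?_⟩
  · have := abs_le.1 b1
    unfold DD
    exact abs_le.2 ⟨by linarith, by linarith⟩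
  · have e : JJ m E r * r = 2 * m - 2 * E / r := by unfold JJ; field_simp
    rw [← abs_of_pos hr0, ← abs_mul, abs_of_pos hr0, e]
    have : 2 * E / r ≤ 2 * (M ^ 2 + 1) / rb := by gcongr
    have : 0 ≤ 2 * E / r := by positivity
    have := abs_le.1 hma
    exact abs_le.2 ⟨by linarith, by linarith⟩
  · have : M ≤ r := by
      by_contra hc
      linarith [out (by linarith)]
    rw [eJ]
    have := (hJ this).2
    positivity
  · have : 2 * m / r ≤ 1 / 2 := by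
      rw [div_le_iff₀ hr0]; linarith
    unfold DD; linarith
  · have h' := abs_le.1 h
    have h3 : r ≤ 3 * M := by linarith
    have h4 := (hJ (by linarith)).1
    have h6 : μ * (r + 1) ≤ μ * (3 * M + 1) := mul_le_mul_of_nonneg_left (by linarith) hμn
    have h5 : s ^ 2 ≤ 2 * (m * r - E) := by linarith
    rw [eJ, div_div]
    have : r ^ 2 * r ≤ 27 * M ^ 3 := by
      have := pow_le_pow_left₀ hr0.le h3 3
      linarith [show r ^ 2 * r = r ^ 3 by ring, show (3 * M) ^ 3 = 27 * M ^ 3 by ring]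
    exact div_le_div₀ ((sq_nonneg s).trans h5) h5 (by positivity) this
  · have := abs_le.1 (geoNear hs hsM hδ η1 η2 h)
    exact abs_le.2 ⟨by linarith, by linarith⟩
  · linarith [hp.1, geoOut hs hsM hη η1 h]
  · have : 0 ≤ (r - (M + s)) * (r - (M - s)) / r ^ 2 :=
      div_nonneg (mul_nonneg (by linarith) (by linarith)) (by positivity)
    linarith [hp.1]
  · have : (r - (M + s)) * (r - (M - s)) / r ^ 2 ≤ 0 :=
      div_nonpos_of_nonpos_of_nonneg (mul_nonpos_of_nonpos_of_nonneg (by linarith) (by linarith))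
        (by positivity)
    linarith [hp.2]

lemma sig_hi {z : ℝ} (h : 2 ≤ z) : 3 / 4 ≤ Real.sigmoid z := by
  have h1 : Real.exp (-z) ≤ 1 / 3 := by
    rw [Real.exp_neg, one_div]
    exact inv_anti₀ (by norm_num) (by linarith [Real.add_one_le_exp z])
  rw [Real.sigmoid_def, le_inv_comm₀ (by norm_num) (by positivity)]
  norm_num
  linarith

lemma sig_lo {z : ℝ} (h : z ≤ -2) : Real.sigmoid z ≤ 1 / 4 := by
  have := sig_hi (z := -z) (by linarith)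
  rw [Real.sigmoid_neg] at this
  linarith

lemma sig_ge {z : ℝ} (h : 0 ≤ z) : 1 / 2 ≤ Real.sigmoid z := by
  have := Real.sigmoid_le h
  rw [Real.sigmoid_zero] at this
  linarith

lemma sig_le {z : ℝ} (h : z ≤ 0) : Real.sigmoid z ≤ 1 / 2 := by
  have := Real.sigmoid_le h
  rw [Real.sigmoid_zero] at this
  linarith

lemma sg1 {b c D : ℝ} (hc : 0 < c) (h : 3 / 4 ≤ b) (h' : c ≤ D) : c / 2 ≤ (2 * b - 1) * D := by
  nlinarith

lemma sg2 {b c D : ℝ} (hc : 0 < c) (h : b ≤ 1 / 4) (h' : D ≤ -c) : c / 2 ≤ (2 * b - 1) * D := by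
  nlinarith

lemma sg3 {b c D : ℝ} (hc : 0 ≤ c) (h : 1 / 2 ≤ b) (h1 : b < 1) (h' : -c ≤ D) :
    -c ≤ (2 * b - 1) * D := by nlinarith

lemma sg4 {b c D : ℝ} (hc : 0 ≤ c) (h : b ≤ 1 / 2) (h1 : 0 < b) (h' : D ≤ c) :
    -c ≤ (2 * b - 1) * D := by nlinarith

/-- the facts on D, J = r D' and the weight b which are used by the current -/
structure Facts (σ k c4 c5 CD Ca R1 r D J b : ℝ) : Prop where
  D_le : |D| ≤ CD
  J_le : |J| * r ≤ Ca
  J_pos : 0 < D → 0 ≤ J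
  far : R1 ≤ r → 1 / 2 ≤ D
  key : c4 + σ * D ^ 2 + 2 / (σ * r ^ 2) ≤ J / r + k * (2 * b - 1) * D
  pos : c5 ≤ k / σ * (1 - b) + D

lemma consts {M s rb : ℝ} (hs : 0 < s) (hsM : s < M) (h1 : M - s < rb) :
    ∃ σ k μ0 c4 c5 CD Ca R1 : ℝ, 0 < σ ∧ 0 < k ∧ 0 < μ0 ∧ 0 < c4 ∧ 0 < c5 ∧ 0 < CD ∧ 0 < Ca ∧
      0 < R1 ∧ ∀ r m E : ℝ, rb ≤ r → |m - M| ≤ μ0 → |E - (M ^ 2 - s ^ 2)| ≤ μ0 → 0 ≤ E →
        Facts σ k c4 c5 CD Ca R1 r (DD m E r) (JJ m E r) (Real.sigmoid (k * (r - (M + s)))) := by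
  obtain ⟨c2, CD, Ca, R1, k0, hc2, hCD, hCa, hR1, hk0, H⟩ := geo hs hsM h1
  have hb : 0 < rb := by linarith
  obtain ⟨σ, hσ, σ1⟩ : ∃ σ, 0 < σ ∧ 2 / (σ * rb ^ 2) = c2 / 4 :=
    ⟨8 / (c2 * rb ^ 2), by positivity, by field_simp; ring⟩
  obtain ⟨δ, hδ, δ1⟩ : ∃ δ, 0 < δ ∧ σ * δ ^ 2 = c2 / 4 :=
    ⟨√(c2 / 4 / σ), by positivity, by rw [Real.sq_sqrt (by positivity)]; field_simp⟩
  obtain ⟨η, c1, μ0, hη, hc1, hμ0, H⟩ := H δ hδ
  obtain ⟨k, hk, k1, k2, k3⟩ : ∃ k, 0 < k ∧ 2 ≤ k * η ∧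
      c2 / 2 + σ * CD ^ 2 + Ca / rb ^ 2 ≤ k * c1 / 2 ∧ 2 * CD + 2 ≤ k / σ := by
    refine ⟨2 / η + (c2 / 2 + σ * CD ^ 2 + Ca / rb ^ 2) * 2 / c1 + (2 * CD + 2) * σ,
      by positivity, ?_, ?_, ?_⟩
    · have : 0 ≤ ((c2 / 2 + σ * CD ^ 2 + Ca / rb ^ 2) * 2 / c1 + (2 * CD + 2) * σ) * η := by
        positivity
      have e : 2 / η * η = 2 := by field_simp
      linarith
    · have : 0 ≤ (2 / η + (2 * CD + 2) * σ) * c1 := by positivity
      have e : (c2 / 2 + σ * CD ^ 2 + Ca / rb ^ 2) * 2 / c1 * c1 =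
        (c2 / 2 + σ * CD ^ 2 + Ca / rb ^ 2) * 2 := by field_simp
      linarith
    · rw [le_div_iff₀ hσ]
      have : 0 ≤ 2 / η + (c2 / 2 + σ * CD ^ 2 + Ca / rb ^ 2) * 2 / c1 := by positivity
      linarith
  obtain ⟨bs, hbs, bs1⟩ : ∃ bs, 0 < bs ∧ bs = k / σ * (1 - Real.sigmoid (k * η)) :=
    ⟨_, mul_pos (by positivity) (by linarith [Real.sigmoid_lt_one (k * η)]), rfl⟩
  obtain ⟨μ, hμ, μ1, μ2, μ3⟩ : ∃ μ, 0 < μ ∧ μ ≤ μ0 ∧ k * (k0 * μ) ≤ c2 / 4 ∧ k0 * μ ≤ bs / 2 := by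
    refine ⟨min μ0 (min (c2 / 4 / (k * k0)) (bs / 2 / k0)), by positivity, min_le_left _ _, ?_, ?_⟩
    · have := (min_le_right μ0 _).trans (min_le_left (c2 / 4 / (k * k0)) (bs / 2 / k0))
      rw [le_div_iff₀ (by positivity)] at this
      linarith
    · have := (min_le_right μ0 _).trans (min_le_right (c2 / 4 / (k * k0)) (bs / 2 / k0))
      rw [le_div_iff₀ (by positivity)] at this
      linarith
  refine ⟨σ, k, μ, c2 / 4, min 1 (min (bs / 2) c1), CD, Ca, R1, hσ, hk, hμ, by positivity,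
    by positivity, hCD, hCa, hR1, fun r m E hr hm hE hE1 => ?_⟩
  obtain ⟨f1, f2, f3, f4, f5, f6, f7, f8, f9⟩ := H μ r m E μ1 hr hm hE hE1
  clear H
  generalize DD m E r = D at *
  generalize JJ m E r = J at *
  have hr0 : 0 < r := hb.trans_le hr
  have b0 := Real.sigmoid_pos (k * (r - (M + s)))
  have b1 := Real.sigmoid_lt_one (k * (r - (M + s)))
  have bh : M + s + η ≤ r → 3 / 4 ≤ Real.sigmoid (k * (r - (M + s))) := fun h =>
    sig_hi (k1.trans (mul_le_mul_of_nonneg_left (by linarith) hk.le))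
  have bl : r ≤ M + s - η → Real.sigmoid (k * (r - (M + s))) ≤ 1 / 4 := fun h =>
    sig_lo (by linarith [mul_le_mul_of_nonneg_left (by linarith : r - (M + s) ≤ -η) hk.le])
  have bg : M + s ≤ r → 1 / 2 ≤ Real.sigmoid (k * (r - (M + s))) := fun h =>
    sig_ge (mul_nonneg hk.le (by linarith))
  have be : r ≤ M + s → Real.sigmoid (k * (r - (M + s))) ≤ 1 / 2 := fun h =>
    sig_le (mul_nonpos_of_nonneg_of_nonpos hk.le (by linarith))
  have bm : r ≤ M + s + η → Real.sigmoid (k * (r - (M + s))) ≤ Real.sigmoid (k * η) := fun h =>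
    Real.sigmoid_le (mul_le_mul_of_nonneg_left (by linarith) hk.le)
  generalize Real.sigmoid (k * (r - (M + s))) = b at *
  have g1 : 2 / (σ * r ^ 2) ≤ c2 / 4 := by rw [← σ1]; gcongr
  have g2 : σ * D ^ 2 ≤ σ * CD ^ 2 := by
    rw [← sq_abs]; gcongr
  have g3 : -(Ca / rb ^ 2) ≤ J / r := by
    have : |J / r| ≤ Ca / rb ^ 2 := by
      have e : |J / r| = |J| * r / r ^ 2 := by rw [abs_div, abs_of_pos hr0]; field_simp
      rw [e]; gcongr
    exact (abs_le.1 this).1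
  have hD := abs_le.1 f1
  have hkm : 0 ≤ k0 * μ := by positivity
  refine ⟨f1, f2, f3, f4, ?_, ?_⟩
  · have far : c1 / 2 ≤ (2 * b - 1) * D →
        c2 / 4 + σ * D ^ 2 + 2 / (σ * r ^ 2) ≤ J / r + k * (2 * b - 1) * D := fun h => by
      have := mul_le_mul_of_nonneg_left h hk.le
      linarith
    by_cases ha : M + s + η ≤ r
    · exact far (sg1 hc1 (bh ha) (f6 ha))
    by_cases hb' : r ≤ M + s - η
    · exact far (sg2 hc1 (bl hb') (f7 hb'))
    obtain ⟨n1, n2⟩ := f5 (abs_le.2 ⟨by linarith, by linarith⟩)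
    have n3 : σ * D ^ 2 ≤ c2 / 4 := by rw [← δ1, ← sq_abs]; gcongr
    have n4 : -(k0 * μ) ≤ (2 * b - 1) * D := by
      rcases le_total (M + s) r with h | h
      · exact sg3 hkm (bg h) b1 (f8 h)
      · exact sg4 hkm (be h) b0 (f9 h)
    have := mul_le_mul_of_nonneg_left n4 hk.le
    linarith
  · have hks : 0 < k / σ := by positivity
    rcases le_total r (M + s) with h | h
    · have : k / σ * (1 / 2) ≤ k / σ * (1 - b) :=
        mul_le_mul_of_nonneg_left (by linarith [be h]) hks.le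
      linarith [min_le_left 1 (min (bs / 2) c1)]
    rcases le_total r (M + s + η) with h' | h'
    · have : bs ≤ k / σ * (1 - b) := by
        rw [bs1]; exact mul_le_mul_of_nonneg_left (by linarith [bm h']) hks.le
      linarith [(min_le_right 1 _).trans (min_le_left (bs / 2) c1), f8 h]
    · have : 0 ≤ k / σ * (1 - b) := mul_nonneg hks.le (by linarith)
      linarith [(min_le_right 1 _).trans (min_le_right (bs / 2) c1), f6 h']

end Vale.Agent.P354E.Rt
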