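import Vale.Agent.P354E.RightA

/-! Block R, part B: the pointwise inequality for the divergence of the current. -/

open Set

namespace Vale.Agent.P354E.Rt

/-- u derivative of the energy part of A, divided by N -/
noncomputable def t1 (k r K D b x y om o1 : ℝ) : ℝ :=
  2 * om * o1 * 10 * b * y ^ 2 / K - om ^ 2 * (k * b * (1 - b)) * y ^ 2 / K +
    om ^ 2 * b * x ^ 2 * y ^ 2 / (K * r) - 2 * om ^ 2 * b * y * D * x / r

/-- u derivative of the far part of A, divided by N -/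
noncomputable def t2 (c1 c2 r K D J P p om o1 : ℝ) : ℝ :=
  (-2 * max (K * D) 0 * (K * J) * P ^ 2 - max (K * D) 0 ^ 2 * P ^ 2 -
    2 * max (K * D) 0 ^ 2 * P * (K * J) * p) * (c1 * om + c2 * r) +
    max (K * D) 0 ^ 2 * r * P ^ 2 * (c1 * o1 * 10 - c2)

/-- v derivative of the energy part of B, divided by N -/
noncomputable def t3 (σ k r K D J b x y om o1 : ℝ) : ℝ :=
  2 * om * o1 * (1 - 10 * (K * D)) * (k / σ * (b * (1 - b)) + b * D) * x ^ 2 +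
    om ^ 2 * (k * (1 - 2 * b) * (k / σ * (b * (1 - b))) * (K * D) + k * b * (1 - b) * (K * D) * D +
      b * (K * J / r * D - y ^ 2 / (K * r))) * x ^ 2 +
    om ^ 2 * (k / σ * (b * (1 - b)) + b * D) * (-(K * J / r) * x ^ 2 + 2 * x * y / r)

/-- v derivative of the far part of B, divided by N -/
noncomputable def t4 (r K D J y p om o1 : ℝ) : ℝ :=
  3232 * (o1 * (1 - 10 * (K * D)) * max D 0 ^ 4 * r * p ^ 2 +
    om * (4 * max D 0 ^ 3 * (K * J / r * D - y ^ 2 / (K * r)) * r * p ^ 2 +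
      max D 0 ^ 4 * (K * J * p ^ 2 + K * D * p ^ 2 + 2 * p * y)))

lemma E_le {σ k c4 r K D J b x y om o1 : ℝ} (hσ : 0 < σ) (hk : 0 < k) (hr : 0 < r)
    (K1 : 1 / 5 ≤ K) (K2 : K ≤ 4) (b0 : 0 ≤ b) (b1 : b ≤ 1) (hom : 0 ≤ om)
    (o2 : o1 ≤ 1) (hc : 0 ≤ c4)
    (key : c4 + σ * D ^ 2 + 2 / (σ * r ^ 2) ≤ J / r + k * (2 * b - 1) * D) :
    t1 k r K D b x y om o1 + t3 σ k r K D J b x y om o1 ≤
      100 * om * y ^ 2 +
        2 * om * o1 * (1 - 10 * (K * D)) * (k / σ * (b * (1 - b)) + b * D) * x ^ 2 -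
        om ^ 2 * (k / σ * (b * (1 - b))) * (σ / 8 * y ^ 2 + c4 / 5 * x ^ 2) := by
  have hK : 0 < K := by linarith
  have e : t1 k r K D b x y om o1 + t3 σ k r K D J b x y om o1 =
      20 * om * (o1 * b / K) * y ^ 2 +
        2 * om * o1 * (1 - 10 * (K * D)) * (k / σ * (b * (1 - b)) + b * D) * x ^ 2 -
        om ^ 2 * (k / σ * (b * (1 - b))) * (σ * y ^ 2 / K +
          K * (J / r + k * (2 * b - 1) * D - σ * D ^ 2) * x ^ 2 - 2 * x * y / r) := by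
    unfold t1 t3; field_simp; ring
  rw [e]
  have h1 : o1 * b / K ≤ 5 := by
    rw [div_le_iff₀ hK]; nlinarith
  have h2 : 20 * om * (o1 * b / K) * y ^ 2 ≤ 20 * om * 5 * y ^ 2 := by gcongr
  have h3 : 2 * x * y / r ≤ σ * y ^ 2 / K / 2 + K * (2 / (σ * r ^ 2)) * x ^ 2 := by
    have : σ * y ^ 2 / K / 2 + K * (2 / (σ * r ^ 2)) * x ^ 2 - 2 * x * y / r =
        (σ * r * y - 2 * K * x) ^ 2 / (2 * K * σ * r ^ 2) := by field_simp; ring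
    have : 0 ≤ (σ * r * y - 2 * K * x) ^ 2 / (2 * K * σ * r ^ 2) := by positivity
    linarith
  have h4 : K * (c4 + 2 / (σ * r ^ 2)) * x ^ 2 ≤
      K * (J / r + k * (2 * b - 1) * D - σ * D ^ 2) * x ^ 2 := by
    gcongr; linarith
  have h5 : σ * y ^ 2 / 4 ≤ σ * y ^ 2 / K := by gcongr
  have h6 : 1 / 5 * (c4 * x ^ 2) ≤ K * (c4 * x ^ 2) := by gcongr
  have h7 : σ / 8 * y ^ 2 + c4 / 5 * x ^ 2 ≤ σ * y ^ 2 / K +
      K * (J / r + k * (2 * b - 1) * D - σ * D ^ 2) * x ^ 2 - 2 * x * y / r := by linarith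
  have h8 : 0 ≤ om ^ 2 * (k / σ * (b * (1 - b))) := by
    have : 0 ≤ 1 - b := by linarith
    positivity
  linarith [mul_le_mul_of_nonneg_left h7 h8]

lemma F_zero {c1 c2 r K D J y P p om o1 : ℝ} (hK : 0 < K) (hD : D ≤ 0) :
    t2 c1 c2 r K D J P p om o1 + t4 r K D J y p om o1 = 0 := by
  unfold t2 t4
  rw [max_eq_right hD, max_eq_right (mul_nonpos_of_nonneg_of_nonpos hK.le hD)]
  ring

lemma F_eq {c1 c2 r K D J y p om o1 : ℝ} (hK : 0 < K) (hD : 0 < D) (hr : 0 < r) :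
    t2 c1 c2 r K D J (K * D * p + y) p om o1 + t4 r K D J y p om o1 =
      -(c1 * om + c2 * r) * (4 * (K * D) * (K * J) * (K * D * p + y) ^ 2 +
        (K * D) ^ 2 * (K * D * p + y) ^ 2 - 2 * (K * D) * (K * J) * (K * D * p + y) * y) +
      (K * D) ^ 2 * r * (K * D * p + y) ^ 2 * (c1 * o1 * 10 - c2) +
      3232 * (o1 * (1 - 10 * (K * D)) * (r * D ^ 2 * (D * p) ^ 2) +
        om * (5 * (K * J) * D ^ 2 * (D * p) ^ 2 + D ^ 3 * (K * D * p + y) ^ 2 / K -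
          D ^ 3 * y ^ 2 / K - 4 * D * (D * p) ^ 2 * y ^ 2 / K)) := by
  unfold t2 t4
  rw [max_eq_left hD.le, max_eq_left (mul_pos hK hD).le]
  field_simp; ring

lemma F1 {K z y P : ℝ} (K1 : 1 / 5 ≤ K) (hP : P = K * z + y) : z ^ 2 ≤ 50 * (P ^ 2 + y ^ 2) := by
  have h1 : (K * z) ^ 2 ≤ 2 * (P ^ 2 + y ^ 2) := by
    rw [show K * z = P - y by rw [hP]; ring]; nlinarith [sq_nonneg (P + y)]
  have h2 : (1 / 5) ^ 2 * z ^ 2 ≤ K ^ 2 * z ^ 2 := by gcongr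
  nlinarith

lemma F2 {l A P y : ℝ} (hl : 0 ≤ l) (hA : 0 ≤ A) : l ^ 2 * P ^ 2 / 2 - 2 * A ^ 2 * y ^ 2 ≤
    4 * l * A * P ^ 2 + l ^ 2 * P ^ 2 - 2 * l * A * P * y := by
  have : 0 ≤ 4 * l * A * P ^ 2 := by positivity
  nlinarith [sq_nonneg (l * P - 2 * A * y)]

lemma F5 {c1 c2 Ca rb r A y om : ℝ} (hb : 0 < rb) (hr : rb ≤ r) (hom : 1 ≤ om) (c10 : 0 ≤ c1)
    (c20 : 0 ≤ c2) (A0 : 0 ≤ A) (A1 : A ≤ 4 * Ca / r) : (c1 * om + c2 * r) * (A ^ 2 * y ^ 2) ≤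
      om * ((16 * c1 * Ca ^ 2 / rb + 16 * c2 * Ca ^ 2) / r) * y ^ 2 := by
  have hr0 : 0 < r := hb.trans_le hr
  have h1 : c1 * om + c2 * r ≤ om * (c1 / rb + c2) * r := by
    have : c1 * om ≤ om * (c1 / rb) * r := by
      calc c1 * om = om * (c1 / rb) * rb := by field_simp
        _ ≤ _ := by gcongr
    have : c2 * r ≤ om * (c2 * r) := le_mul_of_one_le_left (by positivity) hom
    linarith
  calc _ ≤ om * (c1 / rb + c2) * r * ((4 * Ca / r) ^ 2 * y ^ 2) := by gcongr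
    _ = _ := by field_simp; ring

lemma F6 {c1 c2 r K D P o1 : ℝ} (hr : 0 < r) (K1 : 1 / 5 ≤ K) (o2 : o1 ≤ 1) (hD : 0 < D)
    (c10 : 0 ≤ c1) (hc2 : 10 * c1 + 1250 * 3232 ≤ c2) :
    (K * D) ^ 2 * r * P ^ 2 * (c1 * o1 * 10 - c2) ≤ -(50 * 3232 * (r * D ^ 2 * P ^ 2)) := by
  have h1 : 1250 * 3232 ≤ c2 - c1 * o1 * 10 := by nlinarith
  have h2 : (1 / 5 * D) ^ 2 * P ^ 2 * r * (1250 * 3232) ≤
      (K * D) ^ 2 * P ^ 2 * r * (c2 - c1 * o1 * 10) := by gcongr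
  linarith

lemma F7 {CD r D y P z o1 t w : ℝ} (hr : 0 < r) (o0 : 0 ≤ o1) (o2 : o1 ≤ 1) (hD : 0 < D)
    (hD2 : D ≤ CD) (ht : w ≤ t) (t0 : 0 ≤ t) (t1 : t ≤ 1) (z1 : z ^ 2 ≤ 50 * (P ^ 2 + y ^ 2)) :
    o1 * w * (r * D ^ 2 * z ^ 2) ≤ 50 * (r * D ^ 2 * P ^ 2) + 50 * r * CD ^ 2 * t * y ^ 2 := by
  have h1 : o1 * w ≤ t := (mul_le_mul_of_nonneg_left ht o0).trans (mul_le_of_le_one_left t0 o2)
  have h2 : o1 * w * (r * D ^ 2 * z ^ 2) ≤ t * (r * D ^ 2 * (50 * (P ^ 2 + y ^ 2))) :=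
    (mul_le_mul_of_nonneg_right h1 (by positivity)).trans (by gcongr)
  have h3 : t * (r * D ^ 2 * P ^ 2) ≤ r * D ^ 2 * P ^ 2 :=
    mul_le_of_le_one_left (by positivity) t1
  have h4 : r * D ^ 2 * t * y ^ 2 ≤ r * CD ^ 2 * t * y ^ 2 := by gcongr
  linarith

lemma F8 {CD Ca rb r K D A y P z : ℝ} (hb : 0 < rb) (hr : rb ≤ r) (K1 : 1 / 5 ≤ K) (K2 : K ≤ 4)
    (hD : 0 < D) (hD2 : D ≤ CD) (hCa : 0 ≤ Ca) (A0 : 0 ≤ A) (A1 : A ≤ 4 * Ca / r)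
    (z1 : z ^ 2 ≤ 50 * (P ^ 2 + y ^ 2)) :
    5 * A * D ^ 2 * z ^ 2 + D ^ 3 * P ^ 2 / K - D ^ 3 * y ^ 2 / K -
      4 * D * z ^ 2 * y ^ 2 / K ≤ (1000 * Ca / rb + 5 * CD) * (D ^ 2 * P ^ 2) +
        1000 * Ca * CD ^ 2 / r * y ^ 2 - D ^ 3 * y ^ 2 / 4 := by
  have hK : 0 < K := by linarith
  have hr0 : 0 < r := hb.trans_le hr
  have A2 : A ≤ 4 * Ca / rb := A1.trans (by gcongr)
  have h1 : 5 * A * D ^ 2 * z ^ 2 ≤ 5 * A * D ^ 2 * (50 * (P ^ 2 + y ^ 2)) := by gcongr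
  have h2 : A * (D ^ 2 * P ^ 2) ≤ 4 * Ca / rb * (D ^ 2 * P ^ 2) := by gcongr
  have h3 : A * D ^ 2 * y ^ 2 ≤ 4 * Ca / r * CD ^ 2 * y ^ 2 := by gcongr
  have h4 : D ^ 3 * P ^ 2 / K ≤ D ^ 3 * P ^ 2 / (1 / 5) := by gcongr
  have h5 : D * (D ^ 2 * P ^ 2) ≤ CD * (D ^ 2 * P ^ 2) := by gcongr
  have h6 : D ^ 3 * y ^ 2 / 4 ≤ D ^ 3 * y ^ 2 / K := by gcongr
  have h7 : 0 ≤ 4 * D * z ^ 2 * y ^ 2 / K := by positivity
  have e1 : 4 * Ca / r * CD ^ 2 * y ^ 2 * 250 = 1000 * Ca * CD ^ 2 / r * y ^ 2 := by ring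
  have e2 : 4 * Ca / rb * (D ^ 2 * P ^ 2) * 250 = 1000 * Ca / rb * (D ^ 2 * P ^ 2) := by ring
  linarith

lemma F_le {c1 c2 CD Ca rb r K D J y P p om o1 t : ℝ} (hb : 0 < rb) (hr : rb ≤ r)
    (K1 : 1 / 5 ≤ K) (K2 : K ≤ 4) (hom : 1 ≤ om) (o0 : 0 ≤ o1) (o2 : o1 ≤ 1) (hD : 0 < D)
    (hD2 : D ≤ CD) (hJ : 0 ≤ J) (hJ2 : J * r ≤ Ca) (hP : P = K * D * p + y)
    (hc1 : 3232 * 50 * (1000 * Ca / rb + 5 * CD) ≤ c1) (hc2 : 10 * c1 + 1250 * 3232 ≤ c2)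
    (ht : 1 - 10 * (K * D) ≤ t) (t0 : 0 ≤ t) (t1 : t ≤ 1) :
    t2 c1 c2 r K D J P p om o1 + t4 r K D J y p om o1 ≤
      (om * ((32 * c1 * Ca ^ 2 / rb + 32 * c2 * Ca ^ 2 + 1000 * 3232 * Ca * CD ^ 2) / r) -
        808 * om * D ^ 3 + 50 * 3232 * r * CD ^ 2 * t) * y ^ 2 := by
  have hK : 0 < K := by linarith
  have hr0 : 0 < r := hb.trans_le hr
  have hCa : 0 ≤ Ca := (mul_nonneg hJ hr0.le).trans hJ2
  have hCD : 0 < CD := hD.trans_le hD2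
  have c10 : 0 ≤ c1 := le_trans (by positivity) hc1
  have c20 : 0 ≤ c2 := by linarith
  have A0 : 0 ≤ K * J := by positivity
  have A1 : K * J ≤ 4 * Ca / r := by
    rw [le_div_iff₀ hr0, mul_assoc]; gcongr
  have z1 := F1 (z := D * p) (y := y) (P := P) K1 (by rw [hP]; ring)
  have e := F_eq (c1 := c1) (c2 := c2) (J := J) (y := y) (p := p) (om := om) (o1 := o1) hK hD hr0
  rw [← hP] at e
  rw [e]
  clear e hP
  have W0 : 0 ≤ c1 * om + c2 * r := by positivity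
  have s2 := mul_le_mul_of_nonneg_left (F2 (P := P) (y := y) (mul_pos hK hD).le A0) W0
  have s3 : (1 / 5 * D) ^ 2 * P ^ 2 ≤ (K * D) ^ 2 * P ^ 2 := by gcongr
  have s4 : c1 * om * ((1 / 5 * D) ^ 2 * P ^ 2) ≤ (c1 * om + c2 * r) * ((K * D) ^ 2 * P ^ 2) :=
    mul_le_mul (by linarith [mul_nonneg c20 hr0.le]) s3 (by positivity) W0
  have s5 := F5 (y := y) hb hr hom c10 c20 A0 A1
  have s6 := F6 (P := P) hr0 K1 o2 hD c10 hc2
  have s7 := F7 hr0 o0 o2 hD hD2 ht t0 t1 z1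
  have s9 := mul_le_mul_of_nonneg_left (F8 hb hr K1 K2 hD hD2 hCa A0 A1 z1) (by linarith : 0 ≤ om)
  have s10 : 3232 * 50 * (1000 * Ca / rb + 5 * CD) * (om * (D ^ 2 * P ^ 2)) ≤
      c1 * (om * (D ^ 2 * P ^ 2)) := by gcongr
  have e3 : om * ((32 * c1 * Ca ^ 2 / rb + 32 * c2 * Ca ^ 2 + 1000 * 3232 * Ca * CD ^ 2) / r) *
      y ^ 2 = 2 * (om * ((16 * c1 * Ca ^ 2 / rb + 16 * c2 * Ca ^ 2) / r) * y ^ 2) +
        3232 * (om * (1000 * Ca * CD ^ 2 / r * y ^ 2)) := by ring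
  generalize K * J = A at *
  generalize D * p = z at *
  generalize 1000 * Ca / rb + 5 * CD = q1 at *
  generalize (32 * c1 * Ca ^ 2 / rb + 32 * c2 * Ca ^ 2 + 1000 * 3232 * Ca * CD ^ 2) / r = q2 at *
  generalize (16 * c1 * Ca ^ 2 / rb + 16 * c2 * Ca ^ 2) / r = q3 at *
  generalize 1000 * Ca * CD ^ 2 / r = q4 at *
  linarith

theorem div_le {σ k c4 c5 CD Ca R1 rb : ℝ} (hσ : 0 < σ) (hk : 0 < k) (h4 : 0 < c4) (h5 : 0 < c5)
    (hCD : 0 < CD) (hCa : 0 < Ca) (hR1 : 0 < R1) (hb : 0 < rb) :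
    ∃ c1 c2 R2 Ω : ℝ, 0 < c1 ∧ 0 < c2 ∧ 0 < Ω ∧ ∀ r K D J b x y P p om o1 : ℝ, rb ≤ r →
      Facts σ k c4 c5 CD Ca R1 r D J b → 1 / 5 ≤ K → K ≤ 4 → 0 ≤ b → b ≤ 1 → 1 ≤ om → 0 ≤ o1 →
      o1 ≤ 1 → P = K * D * p + y → (r ≤ R2 → Ω ≤ om * (k / σ * (b * (1 - b)))) →
      t1 k r K D b x y om o1 + t2 c1 c2 r K D J P p om o1 +
        (t3 σ k r K D J b x y om o1 + t4 r K D J y p om o1) ≤ 0 := by
  obtain ⟨c1, c10, hc1⟩ : ∃ c1, 0 < c1 ∧ 3232 * 50 * (1000 * Ca / rb + 5 * CD) ≤ c1 :=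
    ⟨_, by positivity, le_rfl⟩
  obtain ⟨c2, c20, hc2⟩ : ∃ c2, 0 < c2 ∧ 10 * c1 + 1250 * 3232 ≤ c2 := ⟨_, by positivity, le_rfl⟩
  obtain ⟨C, C0, hC⟩ : ∃ C, 0 < C ∧
      32 * c1 * Ca ^ 2 / rb + 32 * c2 * Ca ^ 2 + 1000 * 3232 * Ca * CD ^ 2 = C :=
    ⟨_, by positivity, rfl⟩
  obtain ⟨Ω, Ω0, Ω1, Ω2⟩ : ∃ Ω, 0 < Ω ∧
      100 + (C / rb + 50 * 3232 * (R1 + C) * CD ^ 2) ≤ Ω * (σ / 8) ∧
      2 * ((1 + 40 * CD) * (k / σ + CD)) ≤ Ω * (c4 / 5) := by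
    refine ⟨(100 + (C / rb + 50 * 3232 * (R1 + C) * CD ^ 2)) / (σ / 8) +
      2 * ((1 + 40 * CD) * (k / σ + CD)) / (c4 / 5), by positivity, ?_, ?_⟩
    · rw [← div_le_iff₀ (by positivity)]
      exact le_add_of_nonneg_right (by positivity)
    · rw [← div_le_iff₀ (by positivity)]
      exact le_add_of_nonneg_left (by positivity)
  refine ⟨c1, c2, R1 + C, Ω, c10, c20, Ω0,
    fun r K D J b x y P p om o1 hr F K1 K2 b0 b1 hom o0 o2 hP hΩ => ?_⟩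
  have hK : 0 < K := by linarith
  have hr0 : 0 < r := hb.trans_le hr
  have hE := E_le (x := x) (y := y) hσ hk hr0 K1 K2 b0 b1 (by linarith : 0 ≤ om) o2 h4.le F.key
  have hD := abs_le.1 F.D_le
  have hF : 0 < D → ∀ t, 1 - 10 * (K * D) ≤ t → 0 ≤ t → t ≤ 1 →
      t2 c1 c2 r K D J P p om o1 + t4 r K D J y p om o1 ≤
        (om * (C / r) - 808 * om * D ^ 3 + 50 * 3232 * r * CD ^ 2 * t) * y ^ 2 :=
    fun h t ht t0 t1 => hC ▸ F_le hb hr K1 K2 hom o0 o2 h hD.2 (F.J_pos h)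
      (by have := F.J_le; rwa [abs_of_nonneg (F.J_pos h)] at this) hP hc1 hc2 ht t0 t1
  have hh : 0 ≤ k / σ * (b * (1 - b)) := by
    have : 0 ≤ 1 - b := by linarith
    positivity
  have hbp : 0 ≤ k / σ * (b * (1 - b)) + b * D := by
    have := mul_nonneg b0 (h5.le.trans F.pos)
    linarith
  have om0 : 0 ≤ om := by linarith
  rcases le_total r (R1 + C) with h | h
  · have a1 : t2 c1 c2 r K D J P p om o1 + t4 r K D J y p om o1 ≤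
        om * (C / rb + 50 * 3232 * (R1 + C) * CD ^ 2) * y ^ 2 := by
      rcases le_or_gt D 0 with hd | hd
      · rw [F_zero hK hd]; positivity
      refine (hF hd 1 (by linarith [mul_pos hK hd]) zero_le_one le_rfl).trans ?_
      have : om * (C / r) ≤ om * (C / rb) := by gcongr
      have : 0 ≤ 808 * om * D ^ 3 := by positivity
      have : 50 * 3232 * r * CD ^ 2 ≤ 50 * 3232 * (R1 + C) * CD ^ 2 := by gcongr
      have : 50 * 3232 * (R1 + C) * CD ^ 2 ≤ om * (50 * 3232 * (R1 + C) * CD ^ 2) :=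
        le_mul_of_one_le_left (by positivity) hom
      exact mul_le_mul_of_nonneg_right (by linarith) (sq_nonneg y)
    have a2 : o1 * (1 - 10 * (K * D)) * (k / σ * (b * (1 - b)) + b * D) ≤
        (1 + 40 * CD) * (k / σ + CD) := by
      have h1 : -(K * D) ≤ 4 * CD := by
        have : K * -D ≤ K * CD := mul_le_mul_of_nonneg_left (by linarith) hK.le
        have : K * CD ≤ 4 * CD := by gcongr
        linarith
      have h2 : o1 * (1 - 10 * (K * D)) ≤ 1 + 40 * CD :=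
        (mul_le_mul_of_nonneg_left (by linarith) o0).trans
          (mul_le_of_le_one_left (by positivity) o2)
      have h3 : k / σ * (b * (1 - b)) ≤ k / σ :=
        mul_le_of_le_one_right (by positivity) (mul_le_one₀ b1 (by linarith) (by linarith))
      have h6 : b * D ≤ CD :=
        (mul_le_mul_of_nonneg_left hD.2 b0).trans (mul_le_of_le_one_left hCD.le b1)
      exact (mul_le_mul_of_nonneg_right h2 hbp).trans (by gcongr)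
    have a3 : om * Ω * (σ / 8 * y ^ 2 + c4 / 5 * x ^ 2) ≤
        om * (om * (k / σ * (b * (1 - b)))) * (σ / 8 * y ^ 2 + c4 / 5 * x ^ 2) := by
      have := hΩ h
      gcongr
    have a4 := mul_le_mul_of_nonneg_left Ω1 (by positivity : 0 ≤ om * y ^ 2)
    have a5 := mul_le_mul_of_nonneg_left Ω2 (by positivity : 0 ≤ om * x ^ 2)
    have a6 := mul_le_mul_of_nonneg_left a2 (by positivity : 0 ≤ om * x ^ 2)
    linarith
  · have d1 := F.far (by linarith)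
    have d2 : 1 - 10 * (K * D) ≤ 0 := by
      have : 1 / 5 * (1 / 2) ≤ K * D := by gcongr
      linarith
    have a1 := hF (by linarith) 0 d2 le_rfl zero_le_one
    have a2 : om * (C / r) ≤ om * 1 := by
      gcongr
      exact (div_le_one hr0).2 (by linarith)
    have a3 : om * (1 / 2) ^ 3 ≤ om * D ^ 3 := by gcongr
    have a4 : (om * (C / r) - 808 * om * D ^ 3 + 50 * 3232 * r * CD ^ 2 * 0) * y ^ 2 ≤
        (-100 * om) * y ^ 2 := mul_le_mul_of_nonneg_right (by linarith) (sq_nonneg y)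
    have a5 : 0 ≤ 2 * om * o1 * -(1 - 10 * (K * D)) * (k / σ * (b * (1 - b)) + b * D) * x ^ 2 := by
      have : 0 ≤ -(1 - 10 * (K * D)) := by linarith
      positivity
    have a6 : 0 ≤ om ^ 2 * (k / σ * (b * (1 - b))) * (σ / 8 * y ^ 2 + c4 / 5 * x ^ 2) := by
      positivity
    linarith

end Vale.Agent.P354E.Rt
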