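import Vale.Agent.P354E.RightB
import Vale.Agent.P354E.Calc
import Vale.Agent.P354E.PS

/-! Block R, part C: the current. -/

open MeasureTheory Set Filter Topology

namespace Vale.Agent.P354E.Rt

lemma ps_der (t : ℝ) : HasDerivAt (fun t : ℝ => max t 0 ^ 2) (2 * max t 0) t := by
  rcases lt_trichotomy t 0 with h | h | h
  · rw [max_eq_right h.le, mul_zero]
    refine (hasDerivAt_const t (0 : ℝ)).congr_of_eventuallyEq ?_
    filter_upwards [gt_mem_nhds h] with s hs
    rw [max_eq_right hs.le]; ring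
  · subst h
    rw [max_self, mul_zero, hasDerivAt_iff_tendsto_slope_zero]
    have h1 : Tendsto (fun s : ℝ => max s 0) (𝓝[≠] 0) (𝓝 0) := by
      have : Continuous (fun s : ℝ => max s 0) := by fun_prop
      simpa using (this.tendsto 0).mono_left nhdsWithin_le_nhds
    refine h1.congr' ?_
    filter_upwards [self_mem_nhdsWithin] with s hs
    have hs' : s ≠ 0 := hs
    rcases le_total s 0 with h | h
    · simp [max_eq_right h]
    · simp only [zero_add, max_eq_left h, max_self, smul_eq_mul]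
      field_simp
      ring
  · rw [max_eq_left h.le]
    have := hasDerivAt_pow 2 t
    simp only [Nat.cast_ofNat, Nat.add_one_sub_one, pow_one] at this
    refine this.congr_of_eventuallyEq ?_
    filter_upwards [lt_mem_nhds h] with s hs
    rw [max_eq_left hs.le]

/-- the time weight -/
noncomputable def omg (T : ℝ) : ℝ := 1 + Real.log (1 + Real.exp T)
noncomputable def om1 (T : ℝ) : ℝ := Real.exp T / (1 + Real.exp T)

lemma omg_der (T : ℝ) : HasDerivAt omg (om1 T) T :=
  (((Real.hasDerivAt_exp T).const_add 1).log (by positivity)).const_add 1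

lemma om1_cont : Continuous om1 := by
  unfold om1; fun_prop (disch := intro x; positivity)

lemma omg_cont : Continuous omg := continuous_iff_continuousAt.2 fun T => (omg_der T).continuousAt

lemma om1_nonneg (T : ℝ) : 0 ≤ om1 T := by unfold om1; positivity

lemma om1_le (T : ℝ) : om1 T ≤ 1 := by
  unfold om1; rw [div_le_one (by positivity)]; linarith

lemma one_le_omg (T : ℝ) : 1 ≤ omg T := by
  have := Real.log_nonneg (by linarith [Real.exp_pos T] : 1 ≤ 1 + Real.exp T)
  unfold omg; linarith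

lemma le_omg (T : ℝ) : T ≤ omg T := by
  have := Real.log_le_log (Real.exp_pos T) (by linarith : Real.exp T ≤ 1 + Real.exp T)
  rw [Real.log_exp] at this
  unfold omg; linarith

lemma omg_mono {T T' : ℝ} (h : T ≤ T') : omg T ≤ omg T' := by
  unfold omg; gcongr

/-- the flux density through u = const -/
noncomputable def fA (c1 c2 r K l b y P om : ℝ) : ℝ :=
  om ^ 2 * b * (y ^ 2 / K) + max l 0 ^ 2 * r * P ^ 2 * (c1 * om + c2 * r)

/-- the flux density through v = const -/
noncomputable def fB (σ k r D b N z p om : ℝ) : ℝ :=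
  om ^ 2 * (k / σ * (b * (1 - b)) + b * D) * (z ^ 2 / N) +
    3232 * om * (max D 0 ^ 2) ^ 2 * N * r * p ^ 2

lemma fA_der {r K l b y P om : ℝ → ℝ} {c1 c2 k s N D J x p o1 : ℝ} (r0 : r s ≠ 0) (K0 : K s ≠ 0)
    (hlD : l s = K s * D) (hr : HasDerivAt r (-N) s)
    (hK : HasDerivAt K (-(K s * x ^ 2 / r s * N)) s)
    (hl : HasDerivAt l (-(K s * J / r s * N)) s)
    (hb : HasDerivAt b (-(k * b s * (1 - b s) * N)) s)
    (hy : HasDerivAt y (-(K s * D * x / r s * N)) s)
    (hP : HasDerivAt P (-(K s * J / r s * N * p)) s) (hom : HasDerivAt om (o1 * 10 * N) s) :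
    HasDerivAt (fun s => fA c1 c2 (r s) (K s) (l s) (b s) (y s) (P s) (om s))
      (N * (t1 k (r s) (K s) D (b s) x (y s) (om s) o1 +
        t2 c1 c2 (r s) (K s) D J (P s) p (om s) o1)) s := by
  have h1 : HasDerivAt (fun s => max (l s) 0 ^ 2) _ s := (ps_der (l s)).comp s hl
  have h := (((hom.pow 2).mul hb).mul ((hy.pow 2).div hK K0)).add
    (((h1.mul hr).mul (hP.pow 2)).mul ((hom.const_mul c1).add (hr.const_mul c2)))
  refine HasDerivAt.congr_deriv h ?_
  unfold t1 t2
  simp only [Pi.mul_apply, Pi.pow_apply, Pi.div_apply, Pi.add_apply, hlD]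
  field_simp
  ring

lemma fB_der {r D b N z p om : ℝ → ℝ} {σ k s K J x y o1 : ℝ} (r0 : r s ≠ 0) (K0 : K ≠ 0)
    (N0 : N s ≠ 0) (hzx : z s = N s * x) (hr : HasDerivAt r (K * D s) s)
    (hD : HasDerivAt D (K * J / r s * D s - y ^ 2 / (K * r s)) s)
    (hb : HasDerivAt b (k * b s * (1 - b s) * (K * D s)) s)
    (hN : HasDerivAt N (K * J / r s * N s) s) (hz : HasDerivAt z (N s * y / r s) s)
    (hp : HasDerivAt p (y / r s) s) (hom : HasDerivAt om (o1 * (1 - 10 * (K * D s))) s) :
    HasDerivAt (fun s => fB σ k (r s) (D s) (b s) (N s) (z s) (p s) (om s))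
      (N s * (t3 σ k (r s) K (D s) J (b s) x y (om s) o1 +
        t4 (r s) K (D s) J y (p s) (om s) o1)) s := by
  have h1 : HasDerivAt (fun s => max (D s) 0 ^ 2) _ s := (ps_der (D s)).comp s hD
  have h := (((hom.pow 2).mul (((hb.mul (hb.const_sub 1)).const_mul (k / σ)).add (hb.mul hD))).mul
    ((hz.pow 2).div hN N0)).add
    (((((hom.const_mul 3232).mul (h1.pow 2)).mul hN).mul hr).mul (hp.pow 2))
  refine HasDerivAt.congr_deriv h ?_
  unfold t3 t4
  simp only [Pi.mul_apply, Pi.pow_apply, Pi.div_apply, Pi.add_apply, hzx]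
  generalize k / σ = a
  field_simp
  ring

/-- kappa = O / (4 N) -/
noncomputable def kap (S : Fld) (q : P2) : ℝ := S.O q / -S.n q / 4
noncomputable def Df (e : ℝ) (S : Fld) (q : P2) : ℝ := DD (mass e S q) (e ^ 2) (S.r q)
noncomputable def Jf (e : ℝ) (S : Fld) (q : P2) : ℝ := JJ (mass e S q) (e ^ 2) (S.r q)
noncomputable def bf (k r0 : ℝ) (S : Fld) (q : P2) : ℝ := Real.sigmoid (k * (S.r q - r0))
noncomputable def Tf (L : ℝ) (S : Fld) (q : P2) : ℝ := q.2 + L - 10 * S.r q
noncomputable def th (S : Fld) (q : P2) : ℝ := S.r q * S.pv q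
noncomputable def ze (S : Fld) (q : P2) : ℝ := S.r q * S.pu q
noncomputable def Zf (S : Fld) (q : P2) : ℝ := S.r q * S.pu q / -S.n q
noncomputable def Ps (S : Fld) (q : P2) : ℝ := S.l q * S.p q + S.r q * S.pv q

noncomputable def cA (k r0 c1 c2 L : ℝ) (S : Fld) (q : P2) : ℝ :=
  fA c1 c2 (S.r q) (kap S q) (S.l q) (bf k r0 S q) (th S q) (Ps S q) (omg (Tf L S q))
noncomputable def cB (σ k r0 L e : ℝ) (S : Fld) (q : P2) : ℝ :=
  fB σ k (S.r q) (Df e S q) (bf k r0 S q) (-S.n q) (ze S q) (S.p q) (omg (Tf L S q))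
noncomputable def cAu (k r0 c1 c2 L e : ℝ) (S : Fld) (q : P2) : ℝ :=
  -S.n q * (t1 k (S.r q) (kap S q) (Df e S q) (bf k r0 S q) (Zf S q) (th S q) (omg (Tf L S q))
    (om1 (Tf L S q)) + t2 c1 c2 (S.r q) (kap S q) (Df e S q) (Jf e S q) (Ps S q) (S.p q)
    (omg (Tf L S q)) (om1 (Tf L S q)))
noncomputable def cBv (σ k r0 L e : ℝ) (S : Fld) (q : P2) : ℝ :=
  -S.n q * (t3 σ k (S.r q) (kap S q) (Df e S q) (Jf e S q) (bf k r0 S q) (Zf S q) (th S q)
    (omg (Tf L S q)) (om1 (Tf L S q)) + t4 (S.r q) (kap S q) (Df e S q) (Jf e S q) (th S q) (S.p q)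
    (omg (Tf L S q)) (om1 (Tf L S q)))

section Pt

variable {e : ℝ} {S : Fld} {q : P2}

lemma kap_pos (hn : S.n q < 0) : 0 < kap S q := by
  have := O_pos S q
  have : 0 < -S.n q := by linarith
  unfold kap; positivity

lemma l_eq (hr : S.r q ≠ 0) (hn : S.n q ≠ 0) : S.l q = kap S q * Df e S q := by
  have := O_ne S q
  unfold Df DD kap
  rw [m1_eq e S q hr]; field_simp

lemma G1_eq' (hr : S.r q ≠ 0) (hn : S.n q ≠ 0) :
    G1 e S q = -(kap S q * Jf e S q / S.r q * -S.n q) := by
  unfold Jf JJ kap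
  rw [G1_eq e S q hr]; field_simp; ring

lemma kap_u (h : SolAt e S q) (hn : S.n q ≠ 0) :
    Du (kap S) q (-(kap S q * Zf S q ^ 2 / S.r q * -S.n q)) := by
  have := h.ne
  refine Du.congr_d (HasDerivAt.div_const (h.ON_u hn) 4) ?_
  unfold kap Zf; field_simp

lemma cA_u {k r0 c1 c2 L : ℝ} (h : SolAt e S q) (hn : S.n q < 0) :
    Du (cA k r0 c1 c2 L S) q (cAu k r0 c1 c2 L e S q) := by
  have hr := h.ne
  have hn' := hn.ne
  refine fA_der (r := fun s => S.r (s, q.2)) (K := fun s => kap S (s, q.2))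
    (l := fun s => S.l (s, q.2)) (b := fun s => bf k r0 S (s, q.2)) (y := fun s => th S (s, q.2))
    (P := fun s => Ps S (s, q.2)) (om := fun s => omg (Tf L S (s, q.2))) hr (kap_pos hn).ne'
    (l_eq hr hn') (h.r_u.congr_d (neg_neg _).symm) (kap_u h hn')
    (h.l_u.congr_d (G1_eq' hr hn')) ?_ ?_ ?_ ?_
  · refine Du.congr_d (Du.comp (f := fun q => k * (S.r q - r0))
      ((h.r_u.sub (Du.const r0 q)).const_mul k) (Real.hasDerivAt_sigmoid _)) ?_
    unfold bf; ring
  · refine h.th_u.congr_d ?_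
    rw [← l_eq hr hn']
    unfold Zf; field_simp
  · refine h.psi_u.congr_d ?_
    rw [G1_eq' hr hn']; ring
  · refine Du.congr_d (Du.comp (f := Tf L S)
      (((Du.snd q).add (Du.const L q)).sub (h.r_u.const_mul 10)) (omg_der _)) ?_
    ring

lemma Df_v (h : SolAt e S q) (hn : S.n q ≠ 0) : Dv (Df e S) q
    (kap S q * Jf e S q / S.r q * Df e S q - th S q ^ 2 / (kap S q * S.r q)) := by
  have hr := h.ne
  have hO := O_ne S q
  refine Dv.congr_d (((Dv.const 1 q).sub ((h.mass_v.const_mul 2).div h.r_v hr)).add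
    ((Dv.const (e ^ 2) q).div h.r_v.sq (pow_ne_zero 2 hr))) ?_
  rw [l_eq (e := e) hr hn]
  unfold Jf JJ kap th; field_simp; ring

lemma cB_v {σ k r0 L : ℝ} (h : SolAt e S q) (hn : S.n q < 0) :
    Dv (cB σ k r0 L e S) q (cBv σ k r0 L e S q) := by
  have hr := h.ne
  have hn' := hn.ne
  refine fB_der (r := fun s => S.r (q.1, s)) (D := fun s => Df e S (q.1, s))
    (b := fun s => bf k r0 S (q.1, s)) (N := fun s => -S.n (q.1, s)) (z := fun s => ze S (q.1, s))
    (p := fun s => S.p (q.1, s)) (om := fun s => omg (Tf L S (q.1, s))) hr (kap_pos hn).ne'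
    (neg_ne_zero.2 hn') ?_ (h.r_v.congr_d (l_eq hr hn')) (Df_v h hn') ?_
    (h.n_v.neg.congr_d (by rw [G1_eq' hr hn', neg_neg])) ?_ ?_ ?_
  · unfold ze Zf; field_simp
  · refine Dv.congr_d (Dv.comp (f := fun q => k * (S.r q - r0))
      ((h.r_v.sub (Dv.const r0 q)).const_mul k) (Real.hasDerivAt_sigmoid _)) ?_
    rw [← l_eq hr hn']
    unfold bf; ring
  · refine h.ze_v.congr_d ?_
    unfold th; field_simp
  · refine h.p_v.congr_d ?_
    unfold th; field_simp
  · refine Dv.congr_d (Dv.comp (f := Tf L S)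
      (((Dv.snd q).add (Dv.const L q)).sub (h.r_v.const_mul 10)) (omg_der _)) ?_
    rw [← l_eq hr hn']
    ring

end Pt

/-- the open set on which the current lives -/
def UU (S : Fld) (D : Set P2) : Set P2 := D ∩ S.n ⁻¹' Iio 0

theorem cur {e : ℝ} {S : Fld} {D : Set P2} (h : IsSol e S D) (hD : IsOpen D)
    (σ k r0 c1 c2 L : ℝ) : Cur (UU S D) (cA k r0 c1 c2 L S) (cB σ k r0 L e S)
      (cAu k r0 c1 c2 L e S) (cBv σ k r0 L e S) := by
  have hU : UU S D ⊆ D := inter_subset_left
  have h' := h.mono hU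
  have cr := h'.cont.r
  have cn := h'.cont.n
  have cl := h'.cont.l
  have cp := h'.cont.p
  have cu := h'.cont.pu
  have cv := h'.cont.pv
  have cO := h'.cont.O
  have cm := h'.cont_mass
  have r0' := h'.ne
  have r2 : ∀ q ∈ UU S D, S.r q ^ 2 ≠ 0 := fun q hq => pow_ne_zero 2 (r0' q hq)
  have n0 : ∀ q ∈ UU S D, -S.n q ≠ 0 := fun q hq => neg_ne_zero.2 (ne_of_lt hq.2)
  have k0 : ∀ q ∈ UU S D, kap S q ≠ 0 := fun q hq => (kap_pos hq.2).ne'
  have kr : ∀ q ∈ UU S D, kap S q * S.r q ≠ 0 := fun q hq => mul_ne_zero (k0 q hq) (r0' q hq)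
  have ck : ContinuousOn (kap S) (UU S D) := by
    unfold kap; fun_prop (disch := assumption)
  have cD : ContinuousOn (Df e S) (UU S D) := by
    unfold Df DD; fun_prop (disch := assumption)
  have cJ : ContinuousOn (Jf e S) (UU S D) := by
    unfold Jf JJ; fun_prop (disch := assumption)
  have cb : ContinuousOn (bf k r0 S) (UU S D) :=
    continuous_sigmoid.comp_continuousOn (by fun_prop)
  have cT : ContinuousOn (Tf L S) (UU S D) := by unfold Tf; fun_prop
  have co : ContinuousOn (fun q => omg (Tf L S q)) (UU S D) := omg_cont.comp_continuousOn cT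
  have co1 : ContinuousOn (fun q => om1 (Tf L S q)) (UU S D) := om1_cont.comp_continuousOn cT
  have ct : ContinuousOn (th S) (UU S D) := by unfold th; fun_prop
  have cz : ContinuousOn (ze S) (UU S D) := by unfold ze; fun_prop
  have cZ : ContinuousOn (Zf S) (UU S D) := by unfold Zf; fun_prop (disch := assumption)
  have cP : ContinuousOn (Ps S) (UU S D) := by unfold Ps; fun_prop
  refine ⟨h.cont.n.isOpen_inter_preimage hD isOpen_Iio, ?_, ?_, ?_, ?_,
    fun q hq => cA_u (h.sol q hq.1) hq.2, fun q hq => cB_v (h.sol q hq.1) hq.2⟩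
  · unfold cA fA; fun_prop (disch := assumption)
  · unfold cB fB; fun_prop (disch := assumption)
  · unfold cAu t1 t2; fun_prop (disch := assumption)
  · unfold cBv t3 t4; fun_prop (disch := assumption)

end Vale.Agent.P354E.Rt
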