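import Vale.Agent.P354E.RightC

/-! Block R, part D: signs, past closedness, and the bounds given by the bootstrap quantity. -/

open MeasureTheory Set Filter Topology

namespace Vale.Agent.P354E.Rt

/-- the standing hypotheses -/
structure Hyp (M rb V c C ε e : ℝ) (S : Fld) (D : Set P2) : Prop where
  sol : IsSol e S D
  dom : IsDom D
  core : Core M rb V c C ε e S D
  far : Far M rb V ε e S
  V1 : 1 ≤ V
  c0 : 0 < c
  rb0 : 0 < rb

noncomputable def xx (S : Fld) (q : P2) : ℝ := (S.r q * S.pu q) ^ 2 / -S.n q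
noncomputable def XX (S : Fld) (q : P2) : ℝ := ∫ y in (-q.2)..q.1, xx S (y, q.2)

lemma xx_nonneg {S : Fld} {q : P2} (hn : S.n q < 0) : 0 ≤ xx S q :=
  div_nonneg (sq_nonneg _) (by linarith)

lemma xx_cont {e : ℝ} {S : Fld} {D : Set P2} (h : IsSol e S D) : ContinuousOn (xx S) (UU S D) := by
  have h' := h.mono (inter_subset_left : UU S D ⊆ D)
  exact ((h'.cont.r.mul h'.cont.pu).pow 2).div h'.cont.n.neg
    fun q hq => neg_ne_zero.2 (ne_of_lt hq.2)

lemma kap_cont {e : ℝ} {S : Fld} {D : Set P2} (h : IsSol e S D) :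
    ContinuousOn (kap S) (UU S D) := by
  have h' := h.mono (inter_subset_left : UU S D ⊆ D)
  exact (h'.cont.O.div h'.cont.n.neg fun q hq => neg_ne_zero.2 (ne_of_lt hq.2)).div_const 4

lemma var_le {U : Set P2} {f g w : P2 → ℝ} {K α β v : ℝ} (hg : ContinuousOn g U)
    (hw : ContinuousOn w U) (hd : ∀ q ∈ U, Du f q (g q)) (hle : α ≤ β)
    (h : ∀ y ∈ Icc α β, (y, v) ∈ U) (hb : ∀ y ∈ Icc α β, |g (y, v)| ≤ K * w (y, v)) :
    |f (β, v) - f (α, v)| ≤ K * ∫ y in α..β, w (y, v) := by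
  rw [← ftc_u hg hd hle h, ← intervalIntegral.integral_const_mul]
  exact (intervalIntegral.abs_integral_le_integral_abs hle).trans
    (intervalIntegral.integral_mono_on hle (ii_u hg hle h).abs ((ii_u hw hle h).const_mul K) hb)

namespace Hyp

variable {M rb V c C ε e : ℝ} {S : Fld} {D : Set P2}

lemma part1 (H : Hyp M rb V c C ε e S D) {q : P2} (hq : q ∈ D) (ht : 0 ≤ q.1 + q.2)
    (hv : V ≤ q.2) : S.n q < 0 ∧ S.O q ≤ 16 * -S.n q := by
  obtain ⟨u, v⟩ := q
  have hs := H.dom.seg_u (a := -v) hq (by simp)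
  obtain ⟨-, -, -, f4, -, -, -, f8, -⟩ := H.far v hv
  have hle : -v ≤ u := by linarith
  exact ⟨H.sol.n_neg hle hs (by linarith), H.sol.O_le_n hle hs (by norm_num) f8⟩

lemma mem_UU (H : Hyp M rb V c C ε e S D) {p q : P2} (hp : p ∈ D) (hq : q ∈ Tri p)
    (hv : V ≤ q.2) : q ∈ UU S D :=
  ⟨H.dom.tri p hp hq, (H.part1 (H.dom.tri p hp hq) hq.2.2 hv).1⟩

lemma kap_le (H : Hyp M rb V c C ε e S D) {q : P2} (hq : q ∈ D) (ht : 0 ≤ q.1 + q.2)
    (hv : V ≤ q.2) : kap S q ≤ 4 := by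
  obtain ⟨h1, h2⟩ := H.part1 hq ht hv
  unfold kap
  rw [div_le_iff₀ (by norm_num), div_le_iff₀ (by linarith)]
  linarith

lemma r_anti (H : Hyp M rb V c C ε e S D) {u u' v : ℝ} (hq : (u, v) ∈ D) (ht : 0 ≤ u' + v)
    (hu : u' ≤ u) (hv : V ≤ v) : S.r (u, v) ≤ S.r (u', v) := by
  have hs := H.dom.seg_u hq ht
  exact H.sol.r_anti_u hu hs (H.part1 (hs u' ⟨le_rfl, hu⟩) ht hv).1.le

lemma u_lt (H : Hyp M rb V c C ε e S D) {u v : ℝ} (hq : (u, v) ∈ D) (hv : V ≤ v)
    (hr : rb ≤ S.r (u, v)) : u < V := by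
  by_contra hc
  have hu : V ≤ u := not_lt.1 hc
  have V1 := H.V1
  have h1 := H.r_anti hq (u' := V) (by linarith) hu hv
  have hVv : (V, v) ∈ D := H.dom.tri _ hq ⟨hu, le_rfl, by simp only; linarith⟩
  obtain ⟨-, c2, c3⟩ := H.core
  have h2 := (c3 (V, V) (self_mem_Tri (by simp only; linarith))).2.2.2.2.2.2.2.1 rfl
  have h3 := H.sol.r_anti_v hv (H.dom.seg_v hVv (by linarith)) (by linarith [H.c0])
  linarith

lemma past (H : Hyp M rb V c C ε e S D) {q : P2} (hq : q ∈ D) (hv : V ≤ q.2)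
    (hr : rb ≤ S.r q) : ∀ q' ∈ Tri q, rb ≤ S.r q' := by
  obtain ⟨u, v⟩ := q
  have hu := H.u_lt hq hv hr
  have V1 := H.V1
  have c0 := H.c0
  obtain ⟨c1, -, c3⟩ := H.core
  have B : ∀ v', V ≤ v' → -u ≤ v' → v' ≤ v → rb ≤ S.r (u, v') := by
    intro v' h1 h2 h3
    have hs := H.dom.seg_v hq (a := v') (by linarith)
    rcases le_or_gt (S.l (u, v')) 0 with hl | hl
    · exact hr.trans (H.sol.r_anti_v h3 hs hl)
    have hq' : (u, v') ∈ D := hs v' ⟨le_rfl, h3⟩
    rcases le_total V (-u) with hu' | hu'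
    · have h4 := H.sol.r_mono_v h2 (H.dom.seg_v hq' (by linarith)) hl.le
      have h5 := (H.far (-u) hu').2.2.1
      rw [neg_neg] at h5
      linarith
    · have hs' := H.dom.seg_v hq' (a := V) (by linarith)
      have h4 := H.sol.r_mono_v h1 hs' hl.le
      by_contra hc
      have h5 := ((c3 (u, V) ⟨hu.le, le_rfl, by simp only; linarith⟩).2.2.2.2.2.1
        (by linarith)).1
      linarith [H.sol.l_neg h1 hs' (by linarith)]
  have A : ∀ u' v', (u', v') ∈ Tri (u, v) → V ≤ v' → rb ≤ S.r (u', v') := by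
    rintro u' v' ⟨h1, h2, h3⟩ h4
    simp only at h1 h2 h3
    have hq' : (u, v') ∈ D := H.dom.tri _ hq ⟨le_rfl, h2, by simp only; linarith⟩
    exact (B v' h4 (by linarith) h2).trans (H.r_anti hq' h3 h1 h4)
  rintro ⟨u', v'⟩ hq'
  rcases le_total V v' with h | h
  · exact A u' v' hq' h
  obtain ⟨h1, h2, h3⟩ := hq'
  simp only at h1 h2 h3
  have hV : (u', V) ∈ Tri (u, v) := ⟨h1, hv, by simp only; linarith⟩
  have h4 := A u' V hV le_rfl
  by_contra hc
  have h5 := ((c3 (u', v') ⟨by simp only; linarith, h, h3⟩).2.2.2.2.2.1 (not_le.1 hc).le).1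
  have h6 := H.sol.r_anti_v h (H.dom.seg_v (H.dom.tri _ hq hV) h3) (by linarith)
  exact hc (h4.trans h6)

lemma XX_nonneg (H : Hyp M rb V c C ε e S D) {q : P2} (hq : q ∈ D) (ht : 0 ≤ q.1 + q.2)
    (hv : V ≤ q.2) : 0 ≤ XX S q :=
  intervalIntegral.integral_nonneg (by linarith) fun _ hy =>
    xx_nonneg (H.mem_UU hq (seg_u_Tri hy) hv).2

lemma XX_mono (H : Hyp M rb V c C ε e S D) {u u' v : ℝ} (hq : (u, v) ∈ D) (ht : 0 ≤ u' + v)
    (hu : u' ≤ u) (hv : V ≤ v) : XX S (u', v) ≤ XX S (u, v) := by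
  have hU : ∀ y ∈ Icc (-v) u, (y, v) ∈ UU S D := fun y hy => H.mem_UU hq (seg_u_Tri hy) hv
  have h1 : -v ≤ u' := by linarith
  have i1 := ii_u (xx_cont H.sol) h1 fun y hy => hU y ⟨hy.1, hy.2.trans hu⟩
  have i2 := ii_u (xx_cont H.sol) hu fun y hy => hU y ⟨h1.trans hy.1, hy.2⟩
  have h2 := intervalIntegral.integral_add_adjacent_intervals i1 i2
  have h3 : 0 ≤ ∫ y in u'..u, xx S (y, v) :=
    intervalIntegral.integral_nonneg hu fun y hy => xx_nonneg (hU y ⟨h1.trans hy.1, hy.2⟩).2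
  unfold XX
  simp only
  linarith

lemma kap_ge (H : Hyp M rb V c C ε e S D) {q : P2} (hq : q ∈ D) (ht : 0 ≤ q.1 + q.2)
    (hv : V ≤ q.2) (hr : rb ≤ S.r q) (hX : XX S q ≤ rb / 20) : 1 / 5 ≤ kap S q := by
  obtain ⟨u, v⟩ := q
  have rb0 := H.rb0
  have hU : ∀ y ∈ Icc (-v) u, (y, v) ∈ UU S D := fun y hy => H.mem_UU hq (seg_u_Tri hy) hv
  have h' := H.sol.mono (inter_subset_left : UU S D ⊆ D)
  have h1 := var_le (f := kap S) (g := fun q => -(kap S q / S.r q * xx S q)) (K := 4 / rb)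
    ((((kap_cont H.sol).div h'.cont.r h'.ne).mul (xx_cont H.sol)).neg) (xx_cont H.sol)
    (fun q hq => (kap_u (h'.sol q hq) (ne_of_lt hq.2)).congr_d (by
      have : S.n q ≠ 0 := ne_of_lt hq.2
      have := h'.ne q hq
      unfold Zf xx; field_simp)) (by linarith : -v ≤ u) hU (fun y hy => by
      have hy' := seg_u_Tri hy
      have a1 := xx_nonneg (hU y hy).2
      have a2 := kap_pos (hU y hy).2
      have a3 := H.kap_le (hU y hy).1 hy'.2.2 hv
      have a4 := H.past hq hv hr _ hy'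
      have a5 := h'.pos (hU y hy)
      rw [abs_neg, abs_of_nonneg (by positivity)]
      gcongr)
  obtain ⟨-, -, -, f4, -, -, f7, -⟩ := H.far v hv
  have h2 : 2 / 5 ≤ kap S (-v, v) := by
    unfold kap
    rw [le_div_iff₀ (by norm_num), le_div_iff₀ (by linarith)]
    linarith
  have h3 : 4 / rb * XX S (u, v) ≤ 4 / rb * (rb / 20) := by gcongr
  have h4 : 4 / rb * (rb / 20) = 1 / 5 := by field_simp; norm_num
  have h5 := (abs_le.1 h1).1
  unfold XX at h3
  simp only at h3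
  linarith

lemma mass_le (H : Hyp M rb V c C ε e S D) {q : P2} (hq : q ∈ D) (ht : 0 ≤ q.1 + q.2)
    (hv : V ≤ q.2) (hr : rb ≤ S.r q) (hX : XX S q ≤ rb / 20) {CM : ℝ}
    (hM : ∀ r, rb ≤ r → |DD M (e ^ 2) r| ≤ CM) :
    |mass e S q - M| ≤ 20 * ε + 10 * CM * XX S q := by
  have hk := H.kap_ge hq ht hv hr hX
  obtain ⟨u, v⟩ := q
  have hU : ∀ y ∈ Icc (-v) u, (y, v) ∈ UU S D := fun y hy => H.mem_UU hq (seg_u_Tri hy) hv
  have h' := H.sol.mono (inter_subset_left : UU S D ⊆ D)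
  have cD : ContinuousOn (fun q => DD M (e ^ 2) (S.r q)) (UU S D) :=
    (continuousOn_const.sub (continuousOn_const.div h'.cont.r h'.ne)).add h'.cont_er
  have h1 := var_le (f := fun q => (mass e S q - M) * kap S q)
    (g := fun q => -(kap S q / 2 * DD M (e ^ 2) (S.r q) * xx S q)) (K := 2 * CM)
    (((((kap_cont H.sol).div_const 2).mul cD).mul (xx_cont H.sol)).neg) (xx_cont H.sol)
    (fun q hq => (((h'.sol q hq).mass_u.sub (Du.const M q)).mul
      (kap_u (h'.sol q hq) (ne_of_lt hq.2))).congr_d (by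
      have : S.n q ≠ 0 := ne_of_lt hq.2
      have := h'.ne q hq
      have := O_ne S q
      unfold Zf xx kap DD mass; field_simp; ring)) (by linarith : -v ≤ u) hU (fun y hy => by
      have hy' := seg_u_Tri hy
      have a1 := xx_nonneg (hU y hy).2
      have a2 := kap_pos (hU y hy).2
      have a3 := H.kap_le (hU y hy).1 hy'.2.2 hv
      have a4 := hM _ (H.past hq hv hr _ hy')
      rw [abs_neg, abs_mul, abs_mul, abs_of_nonneg a1, abs_of_nonneg (by positivity)]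
      gcongr
      linarith)
  have h2 : |(mass e S (-v, v) - M) * kap S (-v, v)| ≤ ε * 4 := by
    have hm := hU (-v) ⟨le_rfl, by linarith⟩
    have a1 := (H.far v hv).2.2.2.2.2.2.2.2.1
    rw [abs_mul, abs_of_pos (kap_pos hm.2)]
    exact mul_le_mul a1 (H.kap_le hm.1 (by simp) hv) (kap_pos hm.2).le ((abs_nonneg _).trans a1)
  have h3 := abs_sub_abs_le_abs_sub ((mass e S (u, v) - M) * kap S (u, v))
    ((mass e S (-v, v) - M) * kap S (-v, v))
  have h4 : |mass e S (u, v) - M| * (1 / 5) ≤ |(mass e S (u, v) - M) * kap S (u, v)| := by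
    rw [abs_mul, abs_of_pos (by linarith : 0 < kap S (u, v))]
    gcongr
  unfold XX
  simp only at h1 ⊢
  linarith

end Hyp

end Vale.Agent.P354E.Rt
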