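import Vale.Agent.P354E.RightD

/-! Block R, part E: bounds for the fluxes. -/

open MeasureTheory Set Filter Topology

namespace Vale.Agent.P354E.Rt

lemma fA_ge {c1 c2 r K l b y P om b0 : ℝ} (h1 : 0 ≤ c1) (h2 : 0 ≤ c2) (hr : 0 ≤ r) (K0 : 0 < K)
    (K2 : K ≤ 4) (hb0 : 0 ≤ b0) (hb : b0 ≤ b) (hom : 0 ≤ om) :
    b0 / 4 * (om ^ 2 * y ^ 2) ≤ fA c1 c2 r K l b y P om := by
  have a1 : om ^ 2 * b0 * (y ^ 2 / 4) ≤ om ^ 2 * b * (y ^ 2 / K) := by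
    have := hb0.trans hb
    gcongr
  have a2 : 0 ≤ max l 0 ^ 2 * r * P ^ 2 * (c1 * om + c2 * r) := by positivity
  unfold fA; linarith

lemma fB_ge {σ k c5 r D b N z p om b0 : ℝ} (hr : 0 ≤ r) (N0 : 0 < N) (h5 : 0 ≤ c5)
    (hb0 : 0 ≤ b0) (hb : b0 ≤ b) (hom : 0 ≤ om) (hp : c5 ≤ k / σ * (1 - b) + D) :
    b0 * c5 * (om ^ 2 * (z ^ 2 / N)) ≤ fB σ k r D b N z p om := by
  have a1 : om ^ 2 * (b0 * c5) * (z ^ 2 / N) ≤
      om ^ 2 * (b * (k / σ * (1 - b) + D)) * (z ^ 2 / N) := by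
    have := hb0.trans hb
    gcongr
  have a2 : 0 ≤ 3232 * om * (max D 0 ^ 2) ^ 2 * N * r * p ^ 2 := by positivity
  unfold fB; linarith

lemma fA_le {c1 c2 r K l b y P om ω w : ℝ} (h1 : 0 ≤ c1) (h2 : 0 ≤ c2) (hr : 1 / 2 ≤ r)
    (K1 : 1 / 5 ≤ K) (b0 : 0 ≤ b) (b1 : b ≤ 1) (hom : 0 ≤ om) (hω : om ≤ ω) (hl : |l| ≤ 1)
    (hy : |y| ≤ 3 * w) (hP : |r * P| ≤ 12 * w) :
    fA c1 c2 r K l b y P om ≤ (45 * ω ^ 2 + 144 * (2 * c1 * ω + c2)) * w ^ 2 := by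
  have ω0 := hom.trans hω
  have y2 : y ^ 2 ≤ (3 * w) ^ 2 := by rw [← sq_abs]; gcongr
  have P2 : (r * P) ^ 2 ≤ (12 * w) ^ 2 := by rw [← sq_abs]; gcongr
  have a1 : om ^ 2 * b * (y ^ 2 / K) ≤ ω ^ 2 * 1 * ((3 * w) ^ 2 / (1 / 5)) := by gcongr
  have a2 : max l 0 ≤ 1 := max_le (abs_le.1 hl).2 zero_le_one
  have a3 : c1 * om + c2 * r ≤ (2 * c1 * ω + c2) * r := by
    have : c1 * om * 1 ≤ c1 * ω * (2 * r) := by gcongr; linarith
    linarith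
  have a4 : max l 0 ^ 2 * r * P ^ 2 * (c1 * om + c2 * r) ≤
      1 ^ 2 * r * P ^ 2 * ((2 * c1 * ω + c2) * r) := by
    have : 0 ≤ r := by linarith
    gcongr
  have a5 : (2 * c1 * ω + c2) * (r * P) ^ 2 ≤ (2 * c1 * ω + c2) * (12 * w) ^ 2 := by gcongr
  unfold fA; linarith

lemma fB_le {σ k r D b N z p om ω CD X Y : ℝ} (hk : 0 ≤ k / σ) (hr : 0 ≤ r) (N0 : 0 < N)
    (b0 : 0 ≤ b) (b1 : b ≤ 1) (hom : 0 ≤ om) (hω : om ≤ ω) (hD : |D| ≤ CD)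
    (hX : z ^ 2 / N ≤ X) (hY : N * r * p ^ 2 ≤ Y) :
    fB σ k r D b N z p om ≤ ω ^ 2 * (k / σ + CD) * X + 3232 * ω * (CD ^ 2) ^ 2 * Y := by
  have ω0 := hom.trans hω
  have C0 := (abs_nonneg _).trans hD
  have hD2 := (abs_le.1 hD).2
  have h3 : k / σ * (b * (1 - b)) ≤ k / σ :=
    mul_le_of_le_one_right hk (mul_le_one₀ b1 (by linarith) (by linarith))
  have h6 : b * D ≤ CD :=
    (mul_le_mul_of_nonneg_left hD2 b0).trans (mul_le_of_le_one_left C0 b1)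
  have a1 : om ^ 2 * (k / σ * (b * (1 - b)) + b * D) * (z ^ 2 / N) ≤
      om ^ 2 * (k / σ + CD) * (z ^ 2 / N) := by gcongr
  have a2 : om ^ 2 * (k / σ + CD) * (z ^ 2 / N) ≤ ω ^ 2 * (k / σ + CD) * X := by gcongr
  have a3 : max D 0 ≤ CD := max_le hD2 C0
  have a4 : 3232 * om * (max D 0 ^ 2) ^ 2 * (N * r * p ^ 2) ≤
      3232 * ω * (CD ^ 2) ^ 2 * Y := by gcongr
  unfold fB; linarith

/-- the properties of the current at the points where the bootstrap bounds hold -/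
def Pack (M E0 rb r0 σ k c1 c2 L μ0 cl : ℝ) : Prop :=
  ∀ (e : ℝ) (S : Fld) (q : P2), rb ≤ S.r q → S.n q < 0 → 1 / 5 ≤ kap S q → kap S q ≤ 4 →
    |mass e S q - M| ≤ μ0 → |e ^ 2 - E0| ≤ μ0 → 0 ≤ q.2 →
    cAu k r0 c1 c2 L e S q + cBv σ k r0 L e S q ≤ 0 ∧
    cl * (omg (Tf L S q) ^ 2 * th S q ^ 2) ≤ cA k r0 c1 c2 L S q ∧
    cl * (omg (Tf L S q) ^ 2 * xx S q) ≤ cB σ k r0 L e S q

theorem pack {M s rb : ℝ} (hs : 0 < s) (hsM : s < M) (h1 : M - s < rb) :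
    ∃ σ k c1 c2 L μ0 cl CD : ℝ, 0 < σ ∧ 0 < k ∧ 0 < c1 ∧ 0 < c2 ∧ 10 * rb ≤ L ∧ 0 < μ0 ∧ 0 < cl ∧
      0 < CD ∧ (∀ r m E : ℝ, rb ≤ r → |m - M| ≤ μ0 → |E - (M ^ 2 - s ^ 2)| ≤ μ0 → 0 ≤ E →
        |DD m E r| ≤ CD) ∧ Pack M (M ^ 2 - s ^ 2) rb (M + s) σ k c1 c2 L μ0 cl := by
  obtain ⟨σ, k, μ0, c4, c5, CD, Ca, R1, hσ, hk, hμ, h4, h5, hCD, hCa, hR1, HF⟩ := consts hs hsM h1
  have hb : 0 < rb := by linarith
  obtain ⟨c1, c2, R2, Ω, c10, c20, Ω0, Hd⟩ := div_le hσ hk h4 h5 hCD hCa hR1 hb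
  obtain ⟨b0, hb0, b00⟩ : ∃ b0, b0 = Real.sigmoid (k * (rb - (M + s))) ∧ 0 < b0 :=
    ⟨_, rfl, Real.sigmoid_pos _⟩
  obtain ⟨b2, hb2, b20⟩ : ∃ b2, b2 = 1 - Real.sigmoid (k * (R2 - (M + s))) ∧ 0 < b2 :=
    ⟨_, rfl, sub_pos.2 (Real.sigmoid_lt_one _)⟩
  refine ⟨σ, k, c1, c2, Ω / (k / σ * (b0 * b2)) + 10 * |R2| + 10 * rb, μ0,
    min (b0 / 4) (b0 * c5), CD, hσ, hk, c10, c20, le_add_of_nonneg_left (by positivity), hμ,
    by positivity, hCD, fun r m E a1 a2 a3 a4 => (HF r m E a1 a2 a3 a4).D_le, ?_⟩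
  intro e S q hr hn K1 K2 hm he hv
  generalize hL : Ω / (k / σ * (b0 * b2)) + 10 * |R2| + 10 * rb = L
  have F := HF _ _ _ hr hm he (sq_nonneg e)
  have hr0 : 0 < S.r q := hb.trans_le hr
  have bb : b0 ≤ bf k (M + s) S q := by
    rw [hb0]; exact Real.sigmoid_le (mul_le_mul_of_nonneg_left (by linarith) hk.le)
  have o1 := one_le_omg (Tf L S q)
  have o0 : 0 ≤ omg (Tf L S q) := by linarith
  have N0 : 0 < -S.n q := by linarith
  refine ⟨?_, ?_, ?_⟩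
  · have := Hd _ (kap S q) _ _ _ (Zf S q) (th S q) (Ps S q) (S.p q) (omg (Tf L S q))
      (om1 (Tf L S q)) hr F K1 K2 (Real.sigmoid_nonneg _) (Real.sigmoid_le_one _) o1
      (om1_nonneg _) (om1_le _) (by
        unfold Ps th
        rw [l_eq (e := e) hr0.ne' hn.ne]; rfl) (fun h => by
        have a1 : b2 ≤ 1 - bf k (M + s) S q := by
          rw [hb2]
          exact sub_le_sub_left (Real.sigmoid_le (mul_le_mul_of_nonneg_left (by linarith) hk.le)) 1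
        have a2 : Ω / (k / σ * (b0 * b2)) ≤ omg (Tf L S q) := by
          refine le_trans ?_ (le_omg _)
          unfold Tf
          linarith [le_abs_self R2]
        rw [div_le_iff₀ (by positivity)] at a2
        refine a2.trans ?_
        have := b00.le.trans bb
        change _ ≤ _ * (_ * (bf k (M + s) S q * (1 - bf k (M + s) S q)))
        gcongr)
    unfold cAu cBv
    rw [← mul_add]
    exact mul_nonpos_of_nonneg_of_nonpos N0.le this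
  · exact le_trans (mul_le_mul_of_nonneg_right (min_le_left _ _) (by positivity))
      (fA_ge c10.le c20.le hr0.le (kap_pos hn) K2 b00.le bb o0)
  · exact le_trans (mul_le_mul_of_nonneg_right (min_le_right _ _)
      (mul_nonneg (sq_nonneg _) (xx_nonneg hn))) (fB_ge hr0.le N0 h5.le b00.le bb o0 F.pos)

namespace Hyp

variable {M rb V c C ε e : ℝ} {S : Fld} {D : Set P2}

/-- the flux density on the initial line -/
lemma flux_far (H : Hyp M rb V c C ε e S D) {σ k r0 c1 c2 L CD x : ℝ} (hk : 0 ≤ k / σ)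
    (h1 : 0 ≤ c1) (h2 : 0 ≤ c2) (hx : V ≤ x) (hD : |Df e S (-x, x)| ≤ CD) :
    cA k r0 c1 c2 L S (-x, x) + cB σ k r0 L e S (-x, x) ≤
      (45 * omg (V + L) ^ 2 + 144 * (2 * c1 * omg (V + L) + c2) +
        (omg (V + L) ^ 2 * (k / σ + CD) * 72 + 3232 * omg (V + L) * (CD ^ 2) ^ 2 * 3)) *
        (ε / x) ^ 2 := by
  obtain ⟨f1, f2, -, f4, f5, f6, f7, -, f9, g1, g2, g3⟩ := H.far x hx
  have V1 := H.V1
  have x1 : 1 ≤ x := V1.trans hx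
  have x0 : 0 < x := by linarith
  have ε0 : 0 ≤ ε := (abs_nonneg _).trans f9
  have hr : 0 < S.r (-x, x) := by linarith
  have o0 : 0 ≤ omg (Tf L S (-x, x)) := zero_le_one.trans (one_le_omg _)
  have o1 : omg (Tf L S (-x, x)) ≤ omg (V + L) := omg_mono (by unfold Tf; simp only; linarith)
  have K1 : 1 / 5 ≤ kap S (-x, x) := by
    unfold kap
    rw [le_div_iff₀ (by norm_num), le_div_iff₀ (by linarith)]
    linarith
  have w1 : ε / x ^ 2 ≤ ε / x := by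
    gcongr; nlinarith
  have rr : ∀ a, |a| ≤ ε / x ^ 3 → |S.r (-x, x) * a| ≤ 3 * (ε / x ^ 2) := fun a ha => by
    rw [abs_mul, abs_of_pos hr]
    calc _ ≤ 3 * x * (ε / x ^ 3) := by gcongr
      _ = _ := by field_simp
  have a1 : |Ps S (-x, x)| ≤ 4 * (ε / x ^ 2) := by
    refine (abs_add_le _ _).trans ?_
    have : |S.l (-x, x) * S.p (-x, x)| ≤ 1 * (ε / x ^ 2) := by rw [abs_mul]; gcongr
    linarith [rr _ g3]
  have a2 : |S.r (-x, x) * Ps S (-x, x)| ≤ 12 * (ε / x) := by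
    rw [abs_mul, abs_of_pos hr]
    calc _ ≤ 3 * x * (4 * (ε / x ^ 2)) := by gcongr
      _ = _ := by field_simp; ring
  have A := fA_le (b := bf k r0 S (-x, x)) (y := th S (-x, x)) h1 h2 (by linarith) K1
    (Real.sigmoid_nonneg _) (Real.sigmoid_le_one _) o0 o1 f6
    ((rr _ g3).trans (by linarith : _ ≤ 3 * (ε / x))) a2
  have a3 : ze S (-x, x) ^ 2 / -S.n (-x, x) ≤ 72 * (ε / x) ^ 2 := by
    have : |ze S (-x, x)| ≤ 3 * (ε / x) := (rr _ g2).trans (by linarith)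
    calc _ ≤ (3 * (ε / x)) ^ 2 / (1 / 8) := by rw [← sq_abs]; gcongr
      _ = _ := by ring
  have a4 : -S.n (-x, x) * S.r (-x, x) * S.p (-x, x) ^ 2 ≤ 3 * (ε / x) ^ 2 := by
    calc _ ≤ 1 * (3 * x) * (ε / x ^ 2) ^ 2 := by rw [← sq_abs (S.p _)]; gcongr
      _ = 3 * (ε / x) ^ 2 / x := by field_simp
      _ ≤ _ := div_le_self (by positivity) x1
  have B := fB_le (b := bf k r0 S (-x, x)) hk hr.le (by linarith) (Real.sigmoid_nonneg _)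
    (Real.sigmoid_le_one _) o0 o1 hD a3 a4
  unfold cA cB
  linarith

lemma xx_core (H : Hyp M rb V c C ε e S D) {y : ℝ} (hy : y ∈ Icc (-V) V) :
    xx S (y, V) ≤ C ^ 2 / c * ε ^ 2 := by
  obtain ⟨-, -, -, f4, f5, -, f7, -, -, -, -, g2, -⟩ := H.core.2.2 (y, V) (seg_u_Tri hy)
  have c0 := H.c0
  have f8 := f7 rfl
  have hr : 0 < S.r (y, V) := by linarith
  have C0 : 0 < C := by linarith
  have : |S.r (y, V) * S.pu (y, V)| ≤ C * ε := by rw [abs_mul, abs_of_pos hr]; gcongr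
  unfold xx
  calc _ ≤ (C * ε) ^ 2 / c := by rw [← sq_abs]; gcongr; linarith
    _ = _ := by ring

/-- the flux density on the segment v = V -/
lemma flux_core (H : Hyp M rb V c C ε e S D) {σ k r0 L CD y : ℝ} (hk : 0 ≤ k / σ)
    (hy : y ∈ Icc (-V) V) (hD : |Df e S (y, V)| ≤ CD) :
    cB σ k r0 L e S (y, V) ≤
      (omg (V + L) ^ 2 * (k / σ + CD) * (C ^ 2 / c) + 3232 * omg (V + L) * (CD ^ 2) ^ 2 * C ^ 2) *
        ε ^ 2 := by
  obtain ⟨-, -, f3, f4, f5, -, f7, -, -, -, g1, -⟩ := H.core.2.2 (y, V) (seg_u_Tri hy)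
  have c0 := H.c0
  have f8 := f7 rfl
  have hr : 0 < S.r (y, V) := by linarith
  have o0 : 0 ≤ omg (Tf L S (y, V)) := zero_le_one.trans (one_le_omg _)
  have o1 : omg (Tf L S (y, V)) ≤ omg (V + L) := omg_mono (by unfold Tf; simp only; linarith)
  have C0 : 0 < C := by linarith
  have a3 : ze S (y, V) ^ 2 / -S.n (y, V) ≤ C ^ 2 / c * ε ^ 2 := H.xx_core hy
  have a4 : -S.n (y, V) * S.r (y, V) * S.p (y, V) ^ 2 ≤ C ^ 2 * ε ^ 2 := by
    have := (abs_le.1 f3).1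
    calc _ ≤ C * C * ε ^ 2 := by rw [← sq_abs (S.p _)]; gcongr; linarith
      _ = _ := by ring
  have B := fB_le (b := bf k r0 S (y, V)) hk hr.le (by linarith) (Real.sigmoid_nonneg _)
    (Real.sigmoid_le_one _) o0 o1 hD a3 a4
  unfold cB
  linarith

end Hyp

end Vale.Agent.P354E.Rt
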