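import Mathlib

open scoped ContDiff
open MeasureTheory Set Filter Topology

namespace Vale.Agent.P354E

/-- The (u,v) plane. -/
abbrev P2 : Type := ℝ × ℝ

/-- f has u derivative d at q -/
def Du (f : P2 → ℝ) (q : P2) (d : ℝ) : Prop := HasDerivAt (fun s => f (s, q.2)) d q.1
/-- f has v derivative d at q -/
def Dv (f : P2 → ℝ) (q : P2) (d : ℝ) : Prop := HasDerivAt (fun s => f (q.1, s)) d q.2

/-- r, w = log Omega^2, p = phi, l = r_v, n = r_u, wu, wv, pu, pv -/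
structure Fld where
  r : P2 → ℝ
  w : P2 → ℝ
  p : P2 → ℝ
  l : P2 → ℝ
  n : P2 → ℝ
  wu : P2 → ℝ
  wv : P2 → ℝ
  pu : P2 → ℝ
  pv : P2 → ℝ

/-- Omega^2 -/
noncomputable def Fld.O (S : Fld) (q : P2) : ℝ := Real.exp (S.w q)

/-- r_uv -/
noncomputable def G1 (e : ℝ) (S : Fld) (q : P2) : ℝ :=
  -(S.O q / (4 * S.r q)) * (1 - e ^ 2 / S.r q ^ 2) - S.l q * S.n q / S.r q
/-- phi_uv -/
noncomputable def G2 (S : Fld) (q : P2) : ℝ := -(S.l q * S.pu q + S.n q * S.pv q) / S.r q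
/-- w_uv -/
noncomputable def G3 (e : ℝ) (S : Fld) (q : P2) : ℝ :=
  -2 * S.pu q * S.pv q - S.O q * e ^ 2 / S.r q ^ 4 + S.O q / (2 * S.r q ^ 2) +
    2 * S.l q * S.n q / S.r q ^ 2

/-- the renormalised Hawking mass: 1 - 2 mass / r + e^2 / r^2 = - 4 l n / O -/
noncomputable def mass (e : ℝ) (S : Fld) (q : P2) : ℝ :=
  S.r q / 2 * (1 + e ^ 2 / S.r q ^ 2 + 4 * S.l q * S.n q / S.O q)

/-- all nine fields are continuous on D -/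
structure Cont (S : Fld) (D : Set P2) : Prop where
  r : ContinuousOn S.r D
  w : ContinuousOn S.w D
  p : ContinuousOn S.p D
  l : ContinuousOn S.l D
  n : ContinuousOn S.n D
  wu : ContinuousOn S.wu D
  wv : ContinuousOn S.wv D
  pu : ContinuousOn S.pu D
  pv : ContinuousOn S.pv D

/-- all nine fields are smooth on D -/
structure Smooth (S : Fld) (D : Set P2) : Prop where
  r : ContDiffOn ℝ ∞ S.r D
  w : ContDiffOn ℝ ∞ S.w D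
  p : ContDiffOn ℝ ∞ S.p D
  l : ContDiffOn ℝ ∞ S.l D
  n : ContDiffOn ℝ ∞ S.n D
  wu : ContDiffOn ℝ ∞ S.wu D
  wv : ContDiffOn ℝ ∞ S.wv D
  pu : ContDiffOn ℝ ∞ S.pu D
  pv : ContDiffOn ℝ ∞ S.pv D

/-- the reduced Einstein-Maxwell-scalar field system at q -/
structure SolAt (e : ℝ) (S : Fld) (q : P2) : Prop where
  pos : 0 < S.r q
  r_u : Du S.r q (S.n q)
  r_v : Dv S.r q (S.l q)
  w_u : Du S.w q (S.wu q)
  w_v : Dv S.w q (S.wv q)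
  p_u : Du S.p q (S.pu q)
  p_v : Dv S.p q (S.pv q)
  l_u : Du S.l q (G1 e S q)
  n_v : Dv S.n q (G1 e S q)
  pv_u : Du S.pv q (G2 S q)
  pu_v : Dv S.pu q (G2 S q)
  wv_u : Du S.wv q (G3 e S q)
  wu_v : Dv S.wu q (G3 e S q)
  l_v : Dv S.l q (S.l q * S.wv q - S.r q * S.pv q ^ 2)
  n_u : Du S.n q (S.n q * S.wu q - S.r q * S.pu q ^ 2)

/-- a solution on D -/
structure IsSol (e : ℝ) (S : Fld) (D : Set P2) : Prop where
  cont : Cont S D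
  sol : ∀ q ∈ D, SolAt e S q

/-- the part of the past of p to the future of the line u + v = 0 (empty if p is in the past) -/
def Tri (p : P2) : Set P2 := {q | q.1 ≤ p.1 ∧ q.2 ≤ p.2 ∧ 0 ≤ q.1 + q.2}

/-- an open set which contains the line u + v = 0 and the triangles of its points -/
structure IsDom (D : Set P2) : Prop where
  isOpen : IsOpen D
  diag : ∀ x : ℝ, (-x, x) ∈ D
  tri : ∀ p ∈ D, Tri p ⊆ D

/-- the extension principle -/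
def Ext (S : Fld) (D : Set P2) : Prop :=
  ∀ (p : P2) (c C : ℝ), 0 ≤ p.1 + p.2 → 0 < c → (∀ q ∈ D ∩ Tri p, c ≤ S.r q ∧ S.w q ≤ C) → p ∈ D

/-- a solution which is maximal to the future -/
structure MaxSol (e : ℝ) (S : Fld) (D : Set P2) : Prop where
  sol : IsSol e S D
  dom : IsDom D
  ext : Ext S D

/-- the reflection x -> -x -/
def Fld.sw (S : Fld) : Fld where
  r q := S.r q.swap
  w q := S.w q.swap
  p q := S.p q.swap
  l q := S.n q.swap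
  n q := S.l q.swap
  wu q := S.wv q.swap
  wv q := S.wu q.swap
  pu q := S.pv q.swap
  pv q := S.pu q.swap

/-- time reversal of the plane -/
def tr (q : P2) : P2 := (-q.2, -q.1)

/-- time reversal -/
def Fld.tr (S : Fld) : Fld where
  r q := S.r (P354E.tr q)
  w q := S.w (P354E.tr q)
  p q := S.p (P354E.tr q)
  l q := -S.n (P354E.tr q)
  n q := -S.l (P354E.tr q)
  wu q := -S.wv (P354E.tr q)
  wv q := -S.wu (P354E.tr q)
  pu q := -S.pv (P354E.tr q)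
  pv q := -S.pu (P354E.tr q)

/-- change of the null coordinates u = a(u'), v = b(v'); a1, a2 are the first and second
derivative of a -/
noncomputable def Fld.rep (S : Fld) (a a1 a2 b b1 b2 : ℝ → ℝ) : Fld where
  r q := S.r (a q.1, b q.2)
  w q := S.w (a q.1, b q.2) + Real.log (a1 q.1) + Real.log (b1 q.2)
  p q := S.p (a q.1, b q.2)
  l q := b1 q.2 * S.l (a q.1, b q.2)
  n q := a1 q.1 * S.n (a q.1, b q.2)
  wu q := a1 q.1 * S.wu (a q.1, b q.2) + a2 q.1 / a1 q.1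
  wv q := b1 q.2 * S.wv (a q.1, b q.2) + b2 q.2 / b1 q.2
  pu q := a1 q.1 * S.pu (a q.1, b q.2)
  pv q := b1 q.2 * S.pv (a q.1, b q.2)

/-- the distance of the values of two fields at q -/
noncomputable def dd (S T : Fld) (q : P2) : ℝ :=
  |S.r q - T.r q| + |S.w q - T.w q| + |S.p q - T.p q| + |S.l q - T.l q| + |S.n q - T.n q| +
    |S.wu q - T.wu q| + |S.wv q - T.wv q| + |S.pu q - T.pu q| + |S.pv q - T.pv q|

/-- reduced data: only the values of z on the line u + v = 0 matter -/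
structure IsRDat (e : ℝ) (z : Fld) : Prop where
  smooth : ∀ f ∈ [z.r, z.w, z.p, z.l, z.n, z.wu, z.wv, z.pu, z.pv],
    ContDiff ℝ ∞ (fun x : ℝ => f (-x, x))
  pos : ∀ x : ℝ, 0 < z.r (-x, x)
  dr : ∀ x : ℝ, HasDerivAt (fun x : ℝ => z.r (-x, x)) (z.l (-x, x) - z.n (-x, x)) x
  dw : ∀ x : ℝ, HasDerivAt (fun x : ℝ => z.w (-x, x)) (z.wv (-x, x) - z.wu (-x, x)) x
  dp : ∀ x : ℝ, HasDerivAt (fun x : ℝ => z.p (-x, x)) (z.pv (-x, x) - z.pu (-x, x)) x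
  dl : ∀ x : ℝ, HasDerivAt (fun x : ℝ => z.l (-x, x))
    (z.l (-x, x) * z.wv (-x, x) - z.r (-x, x) * z.pv (-x, x) ^ 2 - G1 e z (-x, x)) x
  dn : ∀ x : ℝ, HasDerivAt (fun x : ℝ => z.n (-x, x))
    (G1 e z (-x, x) - (z.n (-x, x) * z.wu (-x, x) - z.r (-x, x) * z.pu (-x, x) ^ 2)) x

/-- the horizons -/
noncomputable def rm (M e : ℝ) : ℝ := M - √(M ^ 2 - e ^ 2)
noncomputable def rp (M e : ℝ) : ℝ := M + √(M ^ 2 - e ^ 2)

/-- reduced Reissner-Nordstroem data -/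
noncomputable def rnF (M e : ℝ) : Fld where
  r q := M + √(q.2 ^ 2 + M ^ 2 - e ^ 2)
  w q := Real.log ((M + √(q.2 ^ 2 + M ^ 2 - e ^ 2)) ^ 2 / (q.2 ^ 2 + M ^ 2 - e ^ 2))
  p _ := 0
  l q := q.2 / (2 * √(q.2 ^ 2 + M ^ 2 - e ^ 2))
  n q := -(q.2 / (2 * √(q.2 ^ 2 + M ^ 2 - e ^ 2)))
  wu q := -(q.2 / ((M + √(q.2 ^ 2 + M ^ 2 - e ^ 2)) * √(q.2 ^ 2 + M ^ 2 - e ^ 2)) -
    q.2 / (q.2 ^ 2 + M ^ 2 - e ^ 2))
  wv q := q.2 / ((M + √(q.2 ^ 2 + M ^ 2 - e ^ 2)) * √(q.2 ^ 2 + M ^ 2 - e ^ 2)) -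
    q.2 / (q.2 ^ 2 + M ^ 2 - e ^ 2)
  pu _ := 0
  pv _ := 0

/-- what is known on the compact triangle of (V,V) -/
def Core (M rb V c C ε e : ℝ) (S : Fld) (D : Set P2) : Prop :=
  (V, V) ∈ D ∧ S.r (V, V) < rb ∧ ∀ q ∈ Tri (V, V),
    |S.w q| ≤ C ∧ |S.l q| ≤ C ∧ |S.n q| ≤ C ∧ S.r q ≤ C ∧ c ≤ S.r q ∧
    (S.r q ≤ rb → S.l q ≤ -c ∧ S.n q ≤ -c) ∧ (q.2 = V → S.n q ≤ -c) ∧ (q.1 = V → S.l q ≤ -c) ∧
    (q.1 + q.2 = 0 → rb < S.r q) ∧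
    |mass e S q - M| ≤ ε ∧ |S.p q| ≤ ε ∧ |S.pu q| ≤ ε ∧ |S.pv q| ≤ ε

/-- what is known on the right end x ≥ V of the initial line -/
def Far (M rb V ε e : ℝ) (S : Fld) : Prop :=
  ∀ x, V ≤ x → x / 2 ≤ S.r (-x, x) ∧ S.r (-x, x) ≤ 3 * x ∧ rb < S.r (-x, x) ∧
    1 / 8 ≤ -S.n (-x, x) ∧ -S.n (-x, x) ≤ 1 ∧ |S.l (-x, x)| ≤ 1 ∧
    8 / 5 * -S.n (-x, x) ≤ S.O (-x, x) ∧ S.O (-x, x) ≤ 16 * -S.n (-x, x) ∧
    |mass e S (-x, x) - M| ≤ ε ∧ |S.p (-x, x)| ≤ ε / x ^ 2 ∧ |S.pu (-x, x)| ≤ ε / x ^ 3 ∧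
    |S.pv (-x, x)| ≤ ε / x ^ 3

/-- a quadrant whose future boundary is the bifurcate Cauchy horizon -/
def Quad (S : Fld) (u0 v0 : ℝ) : Prop :=
  0 ≤ u0 + v0 ∧ ∃ (C : ℝ) (f g : ℝ → ℝ), ContinuousOn f (Ici u0) ∧ ContinuousOn g (Ici v0) ∧
    IntegrableOn f (Ici u0) ∧ IntegrableOn g (Ici v0) ∧ (∀ u, u0 ≤ u → 0 ≤ f u) ∧
    (∀ v, v0 ≤ v → 0 ≤ g v) ∧ ∀ u v, u0 ≤ u → v0 ≤ v →
      S.l (u, v) < 0 ∧ S.n (u, v) < 0 ∧ S.O (u, v) ≤ f u * g v ∧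
      ∫ y in v0..v, |S.pv (u, y)| ≤ C ∧ ∫ y in u0..u, |S.pu (y, v)| ≤ C

/-- the structure of the right half: exterior for u ≤ uH, Cauchy horizon for u > uH -/
def RS (S : Fld) (V uH : ℝ) : Prop :=
  uH < V ∧ (∀ ua ub, ub ≤ uH → ∃ va c, 0 < c ∧ ∀ u ∈ Icc ua ub, ∀ v, va ≤ v → c ≤ S.O (u, v)) ∧
    ∀ u0, uH < u0 → ∃ v0, Quad S u0 v0

/-- bounds that are uniform in the data -/
def Unif (S : Fld) (V c C : ℝ) : Prop :=
  (∀ q : P2, 0 ≤ q.1 + q.2 → c ≤ S.r q) ∧ ∀ v, V ≤ v → S.l (V, v) < 0 ∧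
    (∀ v', v ≤ v' → ∫ y in v..v', S.O (V, y) ≤ C * Real.exp (-c * v)) ∧
    ∫ y in (-v)..V, (S.O (y, v) + |S.n (y, v)| + |S.r (y, v) * S.pu (y, v)|) ≤ C * v ∧
    ∀ u ∈ Icc (-v) V, S.r (u, v) ≤ C * v

/-- the derivative of r in the affine parameter of the ray u = V is not square integrable -/
def Blow (S : Fld) (V : ℝ) : Prop :=
  ∀ N : ℝ, ∃ v, V ≤ v ∧ N < ∫ y in V..v, S.l (V, y) ^ 2 / S.O (V, y)

/-- the structure of the future of the initial line for generic data -/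
def FS (S : Fld) : Prop :=
  (∃ c, 0 < c ∧ ∀ q : P2, 0 ≤ q.1 + q.2 → c ≤ S.r q) ∧
    ∃ V uH vH, RS S V uH ∧ RS S.sw V vH ∧ Blow S V ∧ Blow S.sw V

end Vale.Agent.P354E
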