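import Vale.Agent.P354E.DCont

open scoped ContDiff
open MeasureTheory Set Filter Topology

namespace Vale.Agent.P354E.Dt

/-- symbols of order s on x > X, with m derivatives and constant K -/
def Sy (X : ℝ) : ℕ → ℝ → ℝ → (ℝ → ℝ) → Prop
  | 0, s, K, F => ∀ x, X < x → |F x| ≤ K * x ^ s
  | m + 1, s, K, F => (∀ x, X < x → |F x| ≤ K * x ^ s) ∧ Sy X m (s - 1) K (deriv F)

/-- smooth on x > X -/
def Sm (X : ℝ) (F : ℝ → ℝ) : Prop := ContDiffOn ℝ ∞ F (Ioi X)

variable {X s t K K' : ℝ} {m : ℕ} {F G : ℝ → ℝ}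

lemma Sm.deriv (h : Sm X F) : Sm X (deriv F) :=
  ((contDiffOn_infty_iff_deriv_of_isOpen isOpen_Ioi).1 h).2

lemma Sm.hd (h : Sm X F) {x : ℝ} (hx : X < x) : HasDerivAt F (_root_.deriv F x) x :=
  ((((contDiffOn_infty_iff_deriv_of_isOpen isOpen_Ioi).1 h).1 x hx).differentiableAt
    (Ioi_mem_nhds hx)).hasDerivAt

lemma Sm.mul (h : Sm X F) (h' : Sm X G) : Sm X fun x => F x * G x := ContDiffOn.mul h h'
lemma Sm.add (h : Sm X F) (h' : Sm X G) : Sm X fun x => F x + G x := ContDiffOn.add h h'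
lemma Sm.const (X c : ℝ) : Sm X fun _ => c := contDiffOn_const
lemma Sm.inv (h : Sm X F) (h0 : ∀ x, X < x → F x ≠ 0) : Sm X fun x => (F x)⁻¹ :=
  ContDiffOn.inv h h0
lemma Sm.of (h : ContDiff ℝ ∞ F) (X : ℝ) : Sm X F := h.contDiffOn
lemma Sm.congr (h : Sm X F) (he : ∀ x, X < x → G x = F x) : Sm X G := ContDiffOn.congr h he

lemma Sm.of_deriv {F' : ℝ → ℝ} (h : ∀ x, X < x → HasDerivAt F (F' x) x) (h' : Sm X F') :
    Sm X F :=
  (contDiffOn_infty_iff_deriv_of_isOpen isOpen_Ioi).2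
    ⟨fun x hx => (h x hx).differentiableAt.differentiableWithinAt,
      h'.congr fun x hx => (h x hx).deriv⟩

lemma Sy.zero (h : Sy X m s K F) : ∀ x, X < x → |F x| ≤ K * x ^ s := by
  cases m
  · exact h
  · exact h.1

lemma Sy.congr (h : Sy X m s K F) (he : ∀ x, X < x → G x = F x) : Sy X m s K G := by
  induction m generalizing s F G with
  | zero => exact fun x hx => he x hx ▸ h x hx
  | succ m ih =>
    refine ⟨fun x hx => he x hx ▸ h.1 x hx, ih h.2 fun x hx => ?_⟩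
    exact Filter.EventuallyEq.deriv_eq (eventually_of_mem (Ioi_mem_nhds hx) he)

lemma Sy.succ (h : Sy X (m + 1) s K F) : Sy X m s K F := by
  induction m generalizing s F with
  | zero => exact h.1
  | succ m ih => exact ⟨h.1, ih h.2⟩

lemma Sy.mono (hX : 1 ≤ X) (h : Sy X m s K F) (hs : s ≤ t) (hK : K ≤ K') (h0 : 0 ≤ K') :
    Sy X m t K' F := by
  have key : ∀ {s t : ℝ} {F : ℝ → ℝ}, s ≤ t → (∀ x, X < x → |F x| ≤ K * x ^ s) →
      ∀ x, X < x → |F x| ≤ K' * x ^ t := by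
    intro s t F hs h x hx
    have h1 : x ^ s ≤ x ^ t := Real.rpow_le_rpow_of_exponent_le (by linarith) hs
    have h2 : 0 ≤ x ^ s := Real.rpow_nonneg (by linarith) _
    exact (h x hx).trans ((mul_le_mul_of_nonneg_right hK h2).trans
      (mul_le_mul_of_nonneg_left h1 h0))
  induction m generalizing s t F with
  | zero => exact key hs h
  | succ m ih => exact ⟨key hs h.1, ih h.2 (by linarith)⟩

lemma Sy.add (hF : Sm X F) (hG : Sm X G) (h : Sy X m s K F) (h' : Sy X m s K' G) :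
    Sy X m s (K + K') fun x => F x + G x := by
  have key : ∀ {s : ℝ} {F G : ℝ → ℝ}, (∀ x, X < x → |F x| ≤ K * x ^ s) →
      (∀ x, X < x → |G x| ≤ K' * x ^ s) → ∀ x, X < x → |F x + G x| ≤ (K + K') * x ^ s := by
    intro s F G h h' x hx
    linarith [abs_add_le (F x) (G x), h x hx, h' x hx]
  induction m generalizing s F G with
  | zero => exact key h h'
  | succ m ih =>
    exact ⟨key h.1 h'.1, (ih hF.deriv hG.deriv h.2 h'.2).congr fun x hx =>
      ((hF.hd hx).add (hG.hd hx)).deriv⟩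

lemma Sy.nonneg (hX : 0 ≤ X) (h : Sy X m s K F) : 0 ≤ K := by
  have h1 := h.zero (X + 1) (by linarith)
  have h2 : 0 < (X + 1) ^ s := Real.rpow_pos_of_pos (by linarith) _
  by_contra h3
  have := mul_neg_of_neg_of_pos (not_le.1 h3) h2
  linarith [abs_nonneg (F (X + 1))]

lemma Sy.mul (hX : 0 ≤ X) (hF : Sm X F) (hG : Sm X G) (h : Sy X m s K F) (h' : Sy X m t K' G) :
    Sy X m (s + t) (2 ^ m * (K * K')) fun x => F x * G x := by
  have key : ∀ {s t : ℝ} {F G : ℝ → ℝ}, (∀ x, X < x → |F x| ≤ K * x ^ s) →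
      (∀ x, X < x → |G x| ≤ K' * x ^ t) → ∀ x, X < x → |F x * G x| ≤ K * K' * x ^ (s + t) := by
    intro s t F G h h' x hx
    rw [abs_mul, Real.rpow_add (by linarith)]
    calc |F x| * |G x| ≤ K * x ^ s * (K' * x ^ t) :=
          mul_le_mul (h x hx) (h' x hx) (abs_nonneg _) ((abs_nonneg _).trans (h x hx))
      _ = _ := by ring
  have hKK : 0 ≤ K * K' := mul_nonneg (h.nonneg hX) (h'.nonneg hX)
  induction m generalizing s t F G with
  | zero =>
    rw [pow_zero, one_mul]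
    exact key h h'
  | succ m ih =>
    refine ⟨fun x hx => (key h.1 h'.1 x hx).trans (mul_le_mul_of_nonneg_right
      (le_mul_of_one_le_left hKK (one_le_pow₀ one_le_two)) (Real.rpow_nonneg (by linarith) _)), ?_⟩
    have a1 := ih hF.deriv hG h.2 h'.succ
    have a2 := ih hF hG.deriv h.succ h'.2
    rw [show s - 1 + t = s + t - 1 by ring] at a1
    rw [show s + (t - 1) = s + t - 1 by ring] at a2
    have a3 := Sy.add (hF.deriv.mul hG) (hF.mul hG.deriv) a1 a2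
    rw [show 2 ^ m * (K * K') + 2 ^ m * (K * K') = 2 ^ (m + 1) * (K * K') by ring] at a3
    exact a3.congr fun x hx => ((hF.hd hx).mul (hG.hd hx)).deriv

lemma Sy.zero_fun (hX : 0 ≤ X) (hK : 0 ≤ K) : Sy X m s K fun _ => 0 := by
  have key : ∀ s : ℝ, ∀ x, X < x → |(0 : ℝ)| ≤ K * x ^ s := fun s x hx => by
    rw [abs_zero]
    exact mul_nonneg hK (Real.rpow_nonneg (by linarith) _)
  induction m generalizing s with
  | zero => exact key s
  | succ m ih => exact ⟨key s, ih.congr fun x _ => deriv_const _ _⟩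

lemma Sy.const (hX : 0 ≤ X) (c : ℝ) : Sy X m 0 |c| fun _ => c := by
  have key : ∀ x, X < x → |c| ≤ |c| * x ^ (0 : ℝ) := fun x _ => by simp
  cases m
  · exact key
  · exact ⟨key, (Sy.zero_fun hX (abs_nonneg c)).congr fun x _ => deriv_const _ _⟩

lemma Sy.id (hX : 0 ≤ X) : Sy X m 1 1 fun x => x := by
  have key : ∀ x, X < x → |x| ≤ 1 * x ^ (1 : ℝ) := fun x hx => by
    rw [Real.rpow_one, one_mul, abs_of_nonneg (by linarith)]
  cases m
  · exact key
  · refine ⟨key, ?_⟩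
    have := Sy.const (m := ‹ℕ›) hX 1
    rw [abs_one] at this
    rw [sub_self]
    exact this.congr fun x _ => (hasDerivAt_id' x).deriv

lemma Sy.inv (hX : 1 ≤ X) (m : ℕ) (K : ℝ) {c : ℝ} (hc : 0 < c) : ∃ K', ∀ (s : ℝ) (F : ℝ → ℝ),
    Sm X F → Sy X m s K F → (∀ x, X < x → c * x ^ s ≤ |F x|) → Sy X m (-s) K' fun x => (F x)⁻¹ := by
  have key : ∀ (s : ℝ) (F : ℝ → ℝ), (∀ x, X < x → c * x ^ s ≤ |F x|) →
      ∀ x, X < x → |(F x)⁻¹| ≤ c⁻¹ * x ^ (-s) := by
    intro s F h x hx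
    have h1 : 0 < x ^ s := Real.rpow_pos_of_pos (by linarith) _
    rw [abs_inv, Real.rpow_neg (by linarith), ← mul_inv]
    exact inv_anti₀ (mul_pos hc h1) (h x hx)
  induction m with
  | zero => exact ⟨c⁻¹, fun s F _ _ h => key s F h⟩
  | succ m ih =>
    obtain ⟨K1, h1⟩ := ih
    refine ⟨max c⁻¹ (2 ^ m * (2 ^ m * (|(-1 : ℝ)| * K) * (2 ^ m * (K1 * K1)))),
      fun s F hF h hl => ⟨fun x hx => (key s F hl x hx).trans (mul_le_mul_of_nonneg_right
        (le_max_left _ _) (Real.rpow_nonneg (by linarith) _)), ?_⟩⟩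
    have h0 : ∀ x, X < x → F x ≠ 0 := fun x hx h => by
      have h1 : 0 < x ^ s := Real.rpow_pos_of_pos (by linarith) _
      have := hl x hx
      rw [h, abs_zero] at this
      linarith [mul_pos hc h1]
    have a1 := h1 s F hF h.succ hl
    have a2 := Sy.mul (by linarith) (hF.inv h0) (hF.inv h0) a1 a1
    have a3 := Sy.mul (by linarith) (Sm.const X (-1)) hF.deriv (Sy.const (by linarith) (-1)) h.2
    have a4 := Sy.mul (by linarith) ((Sm.const X (-1)).mul hF.deriv)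
      ((hF.inv h0).mul (hF.inv h0)) a3 a2
    refine (a4.mono hX (by linarith) (le_max_right _ _) (le_max_of_le_left (by positivity))).congr
      fun x hx => ?_
    refine Eq.trans ((hF.hd hx).inv (h0 x hx)).deriv ?_
    field_simp

lemma Sy.ode (hX : 1 ≤ X) (m : ℕ) (K K0 : ℝ) : ∃ K', ∀ (s : ℝ) (c E : ℝ → ℝ), Sm X c → Sm X E →
    Sy X m (-1) K c → (∀ x, X < x → |E x| ≤ K0 * x ^ s) →
    (∀ x, X < x → HasDerivAt E (c x * E x) x) → Sy X m s K' E := by
  induction m with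
  | zero => exact ⟨K0, fun s c E _ _ _ h _ => h⟩
  | succ m ih =>
    obtain ⟨K1, h1⟩ := ih
    refine ⟨max |K0| (2 ^ m * (K * K1)), fun s c E hc hE h h0 hd => ⟨fun x hx => (h0 x hx).trans
      (mul_le_mul_of_nonneg_right ((le_abs_self _).trans (le_max_left _ _))
        (Real.rpow_nonneg (by linarith) _)), ?_⟩⟩
    have a1 := Sy.mul (by linarith) hc hE h.succ (h1 s c E hc hE h.succ h0 hd)
    exact (a1.mono hX (by linarith) (le_max_right _ _) (le_max_of_le_left (abs_nonneg _))).congr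
      fun x hx => (hd x hx).deriv

lemma Sy.iter (h : Sy X m s K F) : ∀ j ≤ m, ∀ x, X < x → |iteratedDeriv j F x| ≤ K * x ^ (s - j) := by
  induction m generalizing s F with
  | zero =>
    intro j hj x hx
    obtain rfl : j = 0 := by omega
    simpa using h x hx
  | succ m ih =>
    intro j hj x hx
    cases j with
    | zero => simpa using h.1 x hx
    | succ j =>
      rw [iteratedDeriv_succ']
      have := ih h.2 j (by omega) x hx
      rwa [show s - 1 - (j : ℝ) = s - ((j + 1 : ℕ) : ℝ) by push_cast; ring] at this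

lemma Sy.of_iter (h : ∀ j ≤ m, ∀ x, X < x → |iteratedDeriv j F x| ≤ K * x ^ (s - j)) :
    Sy X m s K F := by
  induction m generalizing s F with
  | zero => exact fun x hx => by simpa using h 0 le_rfl x hx
  | succ m ih =>
    refine ⟨fun x hx => by simpa using h 0 (by omega) x hx, ih fun j hj x hx => ?_⟩
    have := h (j + 1) (by omega) x hx
    rw [iteratedDeriv_succ'] at this
    rwa [show s - 1 - (j : ℝ) = s - ((j + 1 : ℕ) : ℝ) by push_cast; ring]

/-- from wn to Sy -/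
lemma sy_of_wn (hX : 1 ≤ X) (hs : -1 ≤ s) (h : wn s m F < ⊤) : ∃ K, Sy X m (-s) K F := by
  refine ⟨2 * (wn s m F).toReal, Sy.of_iter fun j hj x hx => ?_⟩
  have hx0 : 0 < x := by linarith
  have h1 := le_of_wn hj ENNReal.toReal_nonneg (ENNReal.ofReal_toReal h.ne).ge x
  have h2 : x ≤ √(1 + x ^ 2) := (le_abs_self x).trans (abs_le_rho x)
  have h3 : √(1 + x ^ 2) ≤ 2 * x := (rho_le x).trans (by rw [abs_of_pos hx0]; linarith)
  have h4 : x ^ (s + j) ≤ 2 * √(1 + x ^ 2) ^ (s + j) := by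
    have hj0 : (0 : ℝ) ≤ j := Nat.cast_nonneg j
    have b1 : x ^ (s + j + 1) ≤ √(1 + x ^ 2) ^ (s + j + 1) :=
      Real.rpow_le_rpow hx0.le h2 (by linarith)
    rw [Real.rpow_add_one hx0.ne', Real.rpow_add_one (rho_pos x).ne'] at b1
    have b2 : 0 < √(1 + x ^ 2) ^ (s + j) := Real.rpow_pos_of_pos (rho_pos x) _
    have b3 := mul_le_mul_of_nonneg_left h3 b2.le
    refine le_of_mul_le_mul_right ?_ hx0
    linarith
  have h5 : 0 < x ^ (s + j) := Real.rpow_pos_of_pos hx0 _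
  rw [show -s - (j : ℝ) = -(s + j) by ring, Real.rpow_neg hx0.le, ← div_eq_mul_inv,
    le_div_iff₀ h5]
  nlinarith [abs_nonneg (iteratedDeriv j F x)]

/-- from Sy to wn -/
lemma wn_of_sy (hX : 1 ≤ X) (hs : 0 ≤ s) {R : ℝ} (hR : X < R) (h0 : ∀ x, x ≤ R → F x = 0)
    (h : Sy X m (-s) K F) : wn s m F ≤ ENNReal.ofReal ((m + 1) * (2 ^ (s + m) * K)) := by
  have hK := h.nonneg (by linarith)
  refine wn_le_of fun j hj x => ?_
  rcases lt_or_ge x R with hx | hx
  · have : iteratedDeriv j F x = iteratedDeriv j (fun _ => (0 : ℝ)) x :=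
      Filter.EventuallyEq.iteratedDeriv_eq j
        (eventually_of_mem (Iio_mem_nhds hx) fun y hy => h0 y (le_of_lt hy))
    rw [this, iteratedDeriv_fun_const_zero, abs_zero, mul_zero]
    positivity
  · have hx0 : 0 < x := by linarith
    have hj0 : (0 : ℝ) ≤ j := Nat.cast_nonneg j
    have hjm : (j : ℝ) ≤ m := by exact_mod_cast hj
    have h1 := h.iter j hj x (by linarith)
    have h3 : √(1 + x ^ 2) ≤ 2 * x := (rho_le x).trans (by rw [abs_of_pos hx0]; linarith)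
    have h4 : √(1 + x ^ 2) ^ (s + j) ≤ 2 ^ (s + m) * x ^ (s + j) := by
      refine (Real.rpow_le_rpow (rho_pos x).le h3 (by linarith)).trans ?_
      rw [Real.mul_rpow (by norm_num) hx0.le]
      exact mul_le_mul_of_nonneg_right (Real.rpow_le_rpow_of_exponent_le (by norm_num)
        (by linarith)) (Real.rpow_nonneg hx0.le _)
    have h5 : x ^ (s + j) * x ^ (-s - j) = 1 := by
      rw [← Real.rpow_add hx0, show s + j + (-s - j) = 0 by ring, Real.rpow_zero]
    calc √(1 + x ^ 2) ^ (s + j) * |iteratedDeriv j F x|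
        ≤ 2 ^ (s + m) * x ^ (s + j) * (K * x ^ (-s - j)) :=
          mul_le_mul h4 h1 (abs_nonneg _) (by positivity)
      _ = 2 ^ (s + m) * K * (x ^ (s + j) * x ^ (-s - j)) := by ring
      _ = _ := by rw [h5, mul_one]

lemma glue {R : ℝ} (hR : X < R) (h0 : ∀ x, x ≤ R → F x = 0) (h : Sm X F) : ContDiff ℝ ∞ F := by
  refine contDiff_iff_contDiffAt.2 fun x => ?_
  rcases lt_or_ge x R with hx | hx
  · exact (contDiffAt_const (c := (0 : ℝ))).congr_of_eventuallyEq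
      (eventually_of_mem (Iio_mem_nhds hx) fun y hy => h0 y (le_of_lt hy))
  · exact ContDiffOn.contDiffAt h (Ioi_mem_nhds (by linarith))

/-- a fixed smooth symbol -/
def Sf (X : ℝ) (m : ℕ) (s : ℝ) (F : ℝ → ℝ) : Prop := Sm X F ∧ ∃ K, Sy X m s K F

lemma Sf.mul (hX : 1 ≤ X) (h : Sf X m s F) (h' : Sf X m t G) :
    Sf X m (s + t) fun x => F x * G x := by
  obtain ⟨h1, K, h2⟩ := h
  obtain ⟨h3, K', h4⟩ := h'
  exact ⟨h1.mul h3, _, Sy.mul (by linarith) h1 h3 h2 h4⟩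

lemma Sf.add (h : Sf X m s F) (h' : Sf X m s G) : Sf X m s fun x => F x + G x := by
  obtain ⟨h1, K, h2⟩ := h
  obtain ⟨h3, K', h4⟩ := h'
  exact ⟨h1.add h3, _, Sy.add h1 h3 h2 h4⟩

lemma Sf.mono (hX : 1 ≤ X) (h : Sf X m s F) (hs : s ≤ t) : Sf X m t F := by
  obtain ⟨h1, K, h2⟩ := h
  exact ⟨h1, K, h2.mono hX hs le_rfl (h2.nonneg (by linarith))⟩

lemma Sf.congr (h : Sf X m s F) (he : ∀ x, X < x → G x = F x) : Sf X m s G := by
  obtain ⟨h1, K, h2⟩ := h
  exact ⟨h1.congr he, K, h2.congr he⟩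

lemma Sf.const (hX : 1 ≤ X) (c : ℝ) : Sf X m 0 fun _ => c :=
  ⟨Sm.const X c, _, Sy.const (by linarith) c⟩

lemma Sf.id (hX : 1 ≤ X) : Sf X m 1 fun x => x := ⟨contDiffOn_id, _, Sy.id (by linarith)⟩

lemma Sf.cmul (hX : 1 ≤ X) (c : ℝ) (h : Sf X m s F) : Sf X m s fun x => c * F x := by
  have := (Sf.const (m := m) hX c).mul hX h
  rwa [zero_add] at this

lemma Sf.deriv (h : Sf X (m + 1) s F) : Sf X m (s - 1) (deriv F) := by
  obtain ⟨h1, K, h2⟩ := h
  exact ⟨h1.deriv, K, h2.2⟩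

lemma Sf.succ (h : Sf X (m + 1) s F) : Sf X m s F := by
  obtain ⟨h1, K, h2⟩ := h
  exact ⟨h1, K, h2.succ⟩

lemma ne_of_low (hX : 1 ≤ X) {c : ℝ} (hc : 0 < c) (hl : ∀ x, X < x → c * x ^ s ≤ |F x|) :
    ∀ x, X < x → F x ≠ 0 := fun x hx h => by
  have h1 : 0 < x ^ s := Real.rpow_pos_of_pos (by linarith) _
  have := hl x hx
  rw [h, abs_zero] at this
  linarith [mul_pos hc h1]

lemma Sf.inv (hX : 1 ≤ X) (h : Sf X m s F) {c : ℝ} (hc : 0 < c)
    (hl : ∀ x, X < x → c * x ^ s ≤ |F x|) : Sf X m (-s) fun x => (F x)⁻¹ := by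
  obtain ⟨h1, K, h2⟩ := h
  obtain ⟨K', h3⟩ := Sy.inv hX m K hc
  exact ⟨h1.inv (ne_of_low hX hc hl), K', h3 s F h1 h2 hl⟩

lemma Sf.ode (hX : 1 ≤ X) {c E : ℝ → ℝ} {K0 : ℝ} (hc : Sf X m (-1) c) (hE : Sm X E)
    (h0 : ∀ x, X < x → |E x| ≤ K0 * x ^ s) (hd : ∀ x, X < x → HasDerivAt E (c x * E x) x) :
    Sf X m s E := by
  obtain ⟨h1, K, h2⟩ := hc
  obtain ⟨K', h3⟩ := Sy.ode hX m K K0
  exact ⟨hE, K', h3 s c E h1 hE h2 h0 hd⟩

end Vale.Agent.P354E.Dt
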