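import Vale.Agent.P354E.Sy

open scoped ContDiff
open MeasureTheory Set Filter Topology

namespace Vale.Agent.P354E.Dt

variable {X Y s t K : ℝ} {m : ℕ} {F G : ℝ → ℝ}

lemma Sy.restrict (h : Sy X m s K F) (hY : X ≤ Y) : Sy Y m s K F := by
  induction m generalizing s F with
  | zero => exact fun x hx => h x (by linarith)
  | succ m ih => exact ⟨fun x hx => h.1 x (by linarith), ih h.2⟩

lemma Sm.restrict (h : Sm X F) (hY : X ≤ Y) : Sm Y F := h.mono (Ioi_subset_Ioi hY)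

lemma Sf.restrict (h : Sf X m s F) (hY : X ≤ Y) : Sf Y m s F := by
  obtain ⟨h1, K, h2⟩ := h
  exact ⟨h1.restrict hY, K, h2.restrict hY⟩

variable {M e om : ℝ}

lemma sq'_ge (hM : |e| < M) (x : ℝ) : |x| ≤ sq' M e x := by
  refine Real.abs_le_sqrt ?_
  have := rad_pos hM 0
  linarith

lemma sq'_le (hM : |e| < M) (x : ℝ) : sq' M e x ≤ |x| + M := by
  unfold sq'
  have := M_pos hM
  rw [Real.sqrt_le_left (by positivity)]
  nlinarith [abs_nonneg x, sq_abs x, sq_nonneg e]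

lemma sf_sq' (hM : |e| < M) (m : ℕ) : Sf 1 m 1 (sq' M e) := by
  have h1 : Sf 1 m 2 fun x => x * x + (M ^ 2 - e ^ 2) := by
    have a1 := (Sf.id (m := m) le_rfl).mul le_rfl (Sf.id le_rfl)
    rw [one_add_one_eq_two] at a1
    exact a1.add ((Sf.const le_rfl _).mono le_rfl (by norm_num))
  have h2 := h1.inv le_rfl one_pos fun x hx => by
    have := rad_pos hM 0
    rw [one_mul, Real.rpow_two]
    refine le_trans ?_ (le_abs_self _)
    nlinarith
  have h3 := (Sf.id (m := m) le_rfl).mul le_rfl h2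
  rw [show (1 : ℝ) + -2 = -1 by norm_num] at h3
  refine h3.ode le_rfl (Sm.of (sq'_smooth hM) 1) (K0 := 1 + M) (fun x hx => ?_) fun x _ => ?_
  · have := sq'_le hM x
    rw [abs_of_pos (sq'_pos hM x), Real.rpow_one]
    rw [abs_of_pos (by linarith)] at this
    nlinarith [M_pos hM]
  · refine (sq'_deriv hM x).congr_deriv ?_
    have h0 := (sq'_pos hM x).ne'
    have : x * x + (M ^ 2 - e ^ 2) = sq' M e x ^ 2 := by rw [sq'_sq hM]; ring
    rw [this]
    field_simp

lemma sf_rn_b (hM : |e| < M) (m : ℕ) : Sf 1 m 2 (rn M e).b := by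
  have h1 : Sf 1 m 1 fun x => M + sq' M e x :=
    ((Sf.const le_rfl M).mono le_rfl (by norm_num)).add (sf_sq' hM m)
  have h2 := h1.mul le_rfl h1
  rw [one_add_one_eq_two] at h2
  exact h2.congr fun x _ => by rw [rn_b]; ring

lemma sf_rn_a (hM : |e| < M) (m : ℕ) : Sf 1 m 0 (rn M e).a := by
  have h1 := (sf_sq' hM m).inv le_rfl one_pos fun x hx => by
    rw [one_mul, Real.rpow_one, abs_of_pos (sq'_pos hM x)]
    exact (le_abs_self x).trans (sq'_ge hM x)
  have h2 := ((sf_rn_b hM m).mul le_rfl h1).mul le_rfl h1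
  rw [show (2 : ℝ) + -1 + -1 = 0 by norm_num] at h2
  refine h2.congr fun x _ => ?_
  rw [rn_a hM, rn_b]
  have h0 := (sq'_pos hM x).ne'
  field_simp

lemma sf_diff (hF : ContDiff ℝ ∞ F) (hG : ContDiff ℝ ∞ G) (hs : -1 ≤ s) (h : wn s m (F - G) < ⊤) :
    Sf 1 m (-s) fun x => F x - G x :=
  ⟨Sm.of (hF.sub hG) 1, sy_of_wn le_rfl hs h⟩

lemma Sf.bd (h : Sf X m s F) (hX : 1 ≤ X) : ∃ K, 0 ≤ K ∧ ∀ x, X < x → |F x| ≤ K * x ^ s := by
  obtain ⟨-, K, h2⟩ := h
  exact ⟨K, h2.nonneg (by linarith), h2.zero⟩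

/-- the data are symbols -/
structure DS (X : ℝ) (d : Dat) : Prop where
  one : 1 ≤ X
  a : ∀ m, Sf X m 0 d.a
  b : ∀ m, Sf X m 2 d.b
  k : ∀ m, Sf X m (-2) d.k
  l : ∀ m, Sf X m 0 d.l
  f : ∀ m, Sf X m (-2) d.f
  g : ∀ m, Sf X m (-3) d.g
  a0 : ∀ x, X < x → 1 / 2 ≤ d.a x
  b0 : ∀ x, X < x → x ^ 2 / 2 ≤ d.b x
  b1 : ∀ x, X < x → x ≤ deriv d.b x

lemma data_sym (hM : |e| < M) (hom : 2 ≤ om) {d : Dat} (h : IsData M e om d) : ∃ X, DS X d := by
  obtain ⟨s1, s2, s3, s4, s5, s6⟩ := h.smooth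
  obtain ⟨t1, t2, t3, t4, t5, t6⟩ := rn_sm hM
  have hp := fun m => pm_parts (le_refl (pm om m d (rn M e)))
  have da := fun m => sf_diff s1 t1 (by norm_num) ((hp m).1.trans_lt (h.finite m))
  have db := fun m => sf_diff s2 t2 (by norm_num) ((hp m).2.1.trans_lt (h.finite m))
  have dk := fun m => sf_diff s3 t3 (by norm_num) ((hp m).2.2.1.trans_lt (h.finite m))
  have dl := fun m => sf_diff s4 t4 (by norm_num) ((hp m).2.2.2.1.trans_lt (h.finite m))
  have df := fun m => sf_diff s5 t5 (by linarith) ((hp m).2.2.2.2.1.trans_lt (h.finite m))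
  have dg := fun m => sf_diff s6 t6 (by linarith) ((hp m).2.2.2.2.2.1.trans_lt (h.finite m))
  obtain ⟨K1, k1, a1⟩ := (da 0).bd le_rfl
  obtain ⟨K2, k2, a2⟩ := (db 0).bd le_rfl
  obtain ⟨K3, k3, a3⟩ := (db 1).deriv.bd le_rfl
  have hM0 := M_pos hM
  have hX : 1 ≤ 1 + 2 * K1 + 2 * K2 + K3 := by linarith
  refine ⟨1 + 2 * K1 + 2 * K2 + K3, hX, fun m => ?_, fun m => ?_, fun m => ?_, fun m => ?_,
    fun m => ?_, fun m => ?_, fun x hx => ?_, fun x hx => ?_, fun x hx => ?_⟩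
  · exact ((((da m).mono le_rfl (by norm_num)).add (sf_rn_a hM m)).congr
      fun x _ => by ring).restrict hX
  · exact ((((db m).mono le_rfl (by norm_num)).add (sf_rn_b hM m)).congr
      fun x _ => by ring).restrict hX
  · exact ((dk m).congr fun x _ => (sub_zero _).symm).restrict hX
  · exact (((dl m).mono le_rfl (by norm_num)).congr fun x _ => (sub_zero _).symm).restrict hX
  · exact (((df m).mono le_rfl (by linarith)).congr fun x _ => (sub_zero _).symm).restrict hX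
  · exact (((dg m).mono le_rfl (by linarith)).congr fun x _ => (sub_zero _).symm).restrict hX
  · have hx0 : 0 < x := by linarith
    have b1 := (abs_le.1 (a1 x (by linarith))).1
    rw [Real.rpow_neg_one] at b1
    have b2 : K1 * x⁻¹ ≤ 1 / 2 := by
      rw [← div_eq_mul_inv, div_le_iff₀ hx0]
      linarith
    have b3 : 1 ≤ (rn M e).a x := by
      rw [rn_a hM]
      have := sq'_pos hM x
      rw [le_div_iff₀ (by positivity)]
      nlinarith
    linarith
  · have hx0 : 0 < x := by linarith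
    have b1 := (abs_le.1 (a2 x (by linarith))).1
    rw [neg_neg, Real.rpow_one] at b1
    have b3 : x ^ 2 ≤ (rn M e).b x := by
      rw [rn_b]
      have := (le_abs_self x).trans (sq'_ge hM x)
      exact pow_le_pow_left₀ hx0.le (by linarith) 2
    nlinarith
  · have hx0 : 0 < x := by linarith
    have b1 := (abs_le.1 (a3 x (by linarith))).1
    rw [neg_neg, sub_self, Real.rpow_zero, ((hd s2 x).fun_sub (hd t2 x)).deriv] at b1
    have b3 : 2 * x ≤ deriv (rn M e).b x := by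
      rw [rn_b1 hM]
      have h0 := sq'_pos hM x
      have : 2 * (M + sq' M e x) * (x / sq' M e x) = 2 * x + 2 * M * x / sq' M e x := by
        field_simp
        ring
      simp only
      rw [this]
      have : 0 ≤ 2 * M * x / sq' M e x := by positivity
      linarith
    linarith

/-- the derived symbols -/
lemma DS.ia {X : ℝ} {d : Dat} (h : DS X d) (m : ℕ) : Sf X m 0 fun x => (d.a x)⁻¹ := by
  have := (h.a m).inv h.one (c := 1 / 2) (by norm_num) fun x hx => by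
    rw [Real.rpow_zero, mul_one]
    exact (h.a0 x hx).trans (le_abs_self _)
  rwa [neg_zero] at this

lemma DS.ib {X : ℝ} {d : Dat} (h : DS X d) (m : ℕ) : Sf X m (-2) fun x => (d.b x)⁻¹ :=
  (h.b m).inv h.one (c := 1 / 2) (by norm_num) fun x hx => by
    rw [Real.rpow_two]
    linarith [h.b0 x hx, le_abs_self (d.b x)]

lemma DS.b' {X : ℝ} {d : Dat} (h : DS X d) (m : ℕ) : Sf X m 1 (deriv d.b) := by
  have := (h.b (m + 1)).deriv
  rwa [show (2 : ℝ) - 1 = 1 by norm_num] at this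

lemma DS.b'' {X : ℝ} {d : Dat} (h : DS X d) (m : ℕ) : Sf X m 0 (deriv (deriv d.b)) := by
  have := (h.b' (m + 1)).deriv
  rwa [sub_self] at this

lemma DS.ib' {X : ℝ} {d : Dat} (h : DS X d) (m : ℕ) : Sf X m (-1) fun x => (deriv d.b x)⁻¹ :=
  (h.b' m).inv h.one one_pos fun x hx => by
    rw [Real.rpow_one, one_mul]
    exact (h.b1 x hx).trans (le_abs_self _)

lemma DS.f' {X : ℝ} {d : Dat} (h : DS X d) (m : ℕ) : Sf X m (-3) (deriv d.f) := by
  have := (h.f (m + 1)).deriv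
  rwa [show (-2 : ℝ) - 1 = -3 by norm_num] at this

lemma DS.bpos {X : ℝ} {d : Dat} (h : DS X d) {x : ℝ} (hx : X < x) : 0 < d.b x := by
  have := h.b0 x hx
  have : 0 < x := by linarith [h.one]
  have : 0 < x ^ 2 / 2 := by positivity
  linarith

lemma DS.sb_ge {X : ℝ} {d : Dat} (h : DS X d) {x : ℝ} (hx : X < x) : 1 / 2 * x ≤ √(d.b x) := by
  refine Real.le_sqrt_of_sq_le ?_
  nlinarith [h.b0 x hx, sq_nonneg x]

lemma DS.sb {X : ℝ} {d : Dat} (h : DS X d) (m : ℕ) : Sf X m 1 fun x => √(d.b x) := by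
  have h1 := ((h.b' m).mul h.one (h.ib m)).cmul h.one (1 / 2)
  rw [show (1 : ℝ) + -2 = -1 by norm_num] at h1
  obtain ⟨K, k0, k1⟩ := (h.b 0).bd h.one
  refine h1.ode h.one (ContDiffOn.sqrt (h.b 0).1 fun x hx => (h.bpos hx).ne') (K0 := √K)
    (fun x hx => ?_) fun x hx => ?_
  · have hx0 : 0 < x := by linarith [h.one]
    rw [abs_of_nonneg (Real.sqrt_nonneg _), Real.rpow_one, ← Real.sqrt_sq hx0.le,
      ← Real.sqrt_mul k0]
    refine Real.sqrt_le_sqrt ?_
    have := k1 x hx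
    rw [Real.rpow_two] at this
    rw [Real.sqrt_sq hx0.le]
    exact (le_abs_self _).trans this
  · refine (((h.b 0).1.hd hx).sqrt (h.bpos hx).ne').congr_deriv ?_
    have h0 := Real.sqrt_pos.2 (h.bpos hx)
    have h2 := Real.sq_sqrt (h.bpos hx).le
    generalize √(d.b x) = R at h0 h2
    rw [← h2]
    field_simp

lemma DS.isb {X : ℝ} {d : Dat} (h : DS X d) (m : ℕ) : Sf X m (-1) fun x => (√(d.b x))⁻¹ :=
  (h.sb m).inv h.one (c := 1 / 2) (by norm_num) fun x hx => by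
    rw [Real.rpow_one]
    exact (h.sb_ge hx).trans (le_abs_self _)

end Vale.Agent.P354E.Dt
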